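import Claimed.Agent.R082.Charts

/-!
# Row 82: one-dimensional dynamics of the two clock maps
Blueprint: `docs/R082_blueprint.md` §8 on `origin/helper82`.

With `u = t / aG`, `aG = 23/128`: `gT t - t = -2 u (u - 1/16) (u - 23/16)` on `[0, aG]`.
With `v = 8 (t + 1/4)`: `Hc v - 27/32 = (v - 3/4) (-2 v² + 3/2 v + 9/8)` on `[0,1]`, and the last factor is `≥ 5/8`.
-/

set_option autoImplicit false

namespace Claimed.Agent.R082

/-- the repelling fixed phase of `gT` -/
noncomputable def tF : ℝ := 23 / 2048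

/-- the repelling fixed phase of the sink circle -/
noncomputable def tS : ℝ := -(5 / 32)

theorem cd_aG_pos : (0 : ℝ) < aG := by
  unfold aG; norm_num

theorem gT_tF : gT tF = tF := by
  unfold gT
  have h : tF / aG = 1 / 16 := by unfold tF aG; norm_num
  rw [h, Hc_of_mem (by norm_num) (by norm_num)]
  unfold tF; norm_num

theorem gT_zero : gT 0 = 0 := by
  unfold gT; rw [zero_div]; exact Hc_of_nonpos le_rfl

theorem gT_of_nonpos {t : ℝ} (h : t ≤ 0) : gT t = 0 := by
  unfold gT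
  exact Hc_of_nonpos (div_nonpos_of_nonpos_of_nonneg h cd_aG_pos.le)

theorem gT_of_ge {t : ℝ} (h : aG ≤ t) : gT t = 1 := by
  unfold gT
  exact Hc_of_one_le ((one_le_div cd_aG_pos).2 h)

theorem gT_pos {t : ℝ} (h : 0 < t) : 0 < gT t := by
  unfold gT
  exact Hc_pos (div_pos h cd_aG_pos)

theorem om1_of_le {t : ℝ} (h : t ≤ -(1 / 4)) : om1 t = 0 := by
  unfold om1
  exact Hc_of_nonpos (by linarith)

theorem om1_of_ge {t : ℝ} (h : -(1 / 8) ≤ t) : om1 t = 1 := by
  unfold om1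
  exact Hc_of_one_le (by linarith)

theorem cd_red_zero : red 0 = 0 := by
  unfold red; rw [if_pos (by norm_num)]

theorem cd_red_one : red 1 = 0 := by
  unfold red; rw [if_neg (by norm_num)]; norm_num

theorem red_om1_tS : red (om1 tS) = tS := by
  have h : om1 tS = 27 / 32 := by
    unfold om1 tS
    rw [show (8 * (-(5 / 32) + 1 / 4) : ℝ) = 3 / 4 by norm_num,
      Hc_of_mem (by norm_num) (by norm_num)]
    norm_num
  rw [h]; unfold red tS; rw [if_neg (by norm_num)]; norm_num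

theorem red_om1_zero : red (om1 0) = 0 := by
  rw [om1_of_ge (by norm_num)]; exact cd_red_one

/-! ### counting lemma -/

theorem cd_card_le_of_spread (S : Finset ℕ) (J : ℕ)
    (h : ∀ k ∈ S, ∀ k' ∈ S, k ≤ k' → k' ≤ k + J) : S.card ≤ J + 1 := by
  rcases S.eq_empty_or_nonempty with rfl | hne
  · simp
  · have hsub : S ⊆ Finset.Icc (S.min' hne) (S.min' hne + J) := by
      intro k hk
      rw [Finset.mem_Icc]
      exact ⟨S.min'_le k hk, h _ (S.min'_mem hne) k hk (S.min'_le k hk)⟩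
    calc S.card ≤ (Finset.Icc (S.min' hne) (S.min' hne + J)).card := Finset.card_le_card hsub
      _ = J + 1 := by rw [Nat.card_Icc]; omega

/-! ### the map `gT` -/

theorem cd_gT_sub {t : ℝ} (h0 : 0 ≤ t) (h1 : t ≤ aG) :
    gT t - t = 2 * (t / aG) * (t / aG - 1 / 16) * (23 / 16 - t / aG) := by
  unfold gT
  rw [Hc_of_mem (div_nonneg h0 cd_aG_pos.le) ((div_le_one cd_aG_pos).2 h1)]
  unfold aG
  ring

theorem cd_div_aG (t : ℝ) : t / aG = 128 / 23 * t := by
  unfold aG; ring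

theorem cd_gT_up {δ t : ℝ} (hδ : 0 < δ) (h : tF + δ ≤ t) (h1 : t < aG) :
    t + 7 / 23 * δ ≤ gT t := by
  have h0 : 0 ≤ t := by unfold tF at h; linarith
  have key := cd_gT_sub h0 h1.le
  have hu1 : t / aG ≤ 1 := (div_le_one cd_aG_pos).2 h1.le
  have hv2 : 128 / 23 * δ ≤ t / aG - 1 / 16 := by
    rw [cd_div_aG]; unfold tF at h; linarith
  set u := t / aG with hu
  have hv0 : 0 ≤ u - 1 / 16 := by
    have : 0 ≤ 128 / 23 * δ := by positivity
    linarith
  have hq : 11 / 64 ≤ 2 * u * (23 / 16 - u) := by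
    nlinarith [mul_nonneg hv0 (sub_nonneg.2 hu1)]
  have hfin : 11 / 64 * (128 / 23 * δ) ≤ (2 * u * (23 / 16 - u)) * (u - 1 / 16) :=
    mul_le_mul hq hv2 (by positivity) (by linarith)
  nlinarith

theorem cd_gT_le {t : ℝ} (h0 : 0 ≤ t) (h : t ≤ tF) : gT t ≤ t := by
  have h1 : t ≤ aG := by unfold tF at h; unfold aG; linarith
  have key := cd_gT_sub h0 h1
  have hu0 : 0 ≤ t / aG := div_nonneg h0 cd_aG_pos.le
  have hu1 : t / aG ≤ 1 / 16 := by rw [cd_div_aG]; unfold tF at h; linarith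
  set u := t / aG with hu
  have : 0 ≤ (2 * u * (23 / 16 - u)) * (1 / 16 - u) :=
    mul_nonneg (mul_nonneg (by linarith) (by linarith)) (by linarith)
  nlinarith

theorem cd_gT_down {δ t : ℝ} (hδ : 0 < δ) (h0 : δ ≤ t) (h : t ≤ tF - δ) :
    gT t ≤ t - δ ^ 2 := by
  have h0' : 0 ≤ t := by linarith
  have h1 : t ≤ aG := by unfold tF at h; unfold aG; linarith
  have key := cd_gT_sub h0' h1
  have hu0 : 128 / 23 * δ ≤ t / aG := by rw [cd_div_aG]; linarith
  have hu1 : 128 / 23 * δ ≤ 1 / 16 - t / aG := by rw [cd_div_aG]; unfold tF at h; linarith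
  set u := t / aG with hu
  have hd : 0 ≤ 128 / 23 * δ := by positivity
  have h2 : (128 / 23 * δ) * (128 / 23 * δ) ≤ u * (1 / 16 - u) :=
    mul_le_mul hu0 hu1 hd (by linarith)
  have h3 : (128 / 23 * δ) * (128 / 23 * δ) * 1 ≤ (u * (1 / 16 - u)) * (23 / 16 - u) :=
    mul_le_mul h2 (by linarith) (by norm_num) (by nlinarith)
  nlinarith [sq_nonneg δ]

/-- chains `t_{k+1} = gT t_k` inside `(0, aG)` spend a bounded time away from `0` and `tF` -/
theorem gT_chain_bound (δ : ℝ) (hδ : 0 < δ) :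
    ∃ N : ℕ, ∀ (τ : ℕ → ℝ) (m : ℕ), (∀ k, k < m → 0 < τ k ∧ τ k < aG) →
      (∀ k, k + 1 < m → τ (k + 1) = gT (τ k)) →
      ∀ S : Finset ℕ, (∀ k ∈ S, k < m ∧ δ ≤ τ k ∧ δ ≤ |τ k - tF|) → S.card ≤ N := by
  classical
  have hc1 : 0 < 7 / 23 * δ := by positivity
  have hc2 : 0 < δ ^ 2 := by positivity
  refine ⟨(⌈aG / (7 / 23 * δ)⌉₊ + 1) + (⌈aG / δ ^ 2⌉₊ + 1), ?_⟩
  intro τ m hτ hstep S hS
  have hup : ∀ k j, k + j < m → tF + δ ≤ τ k → τ k + j * (7 / 23 * δ) ≤ τ (k + j) := by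
    intro k j
    induction j with
    | zero => intro _ _; simp
    | succ j ih =>
      intro hlt hk
      have h1 := ih (by omega) hk
      have h2 : tF + δ ≤ τ (k + j) := by
        have : 0 ≤ (j : ℝ) * (7 / 23 * δ) := by positivity
        linarith
      have h3 := cd_gT_up hδ h2 (hτ (k + j) (by omega)).2
      have h4 : τ (k + (j + 1)) = gT (τ (k + j)) := hstep (k + j) (by omega)
      rw [h4]; push_cast; linarith
  have hdown : ∀ k j, k + j < m → τ k ≤ tF - δ →
      τ (k + j) ≤ tF - δ ∧ (δ ≤ τ (k + j) → τ (k + j) ≤ τ k - j * δ ^ 2) := by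
    intro k j
    induction j with
    | zero => intro _ hk; exact ⟨hk, fun _ => by simp⟩
    | succ j ih =>
      intro hlt hk
      obtain ⟨h1, h2⟩ := ih (by omega) hk
      have h4 : τ (k + (j + 1)) = gT (τ (k + j)) := hstep (k + j) (by omega)
      have hpos := (hτ (k + j) (by omega)).1
      have hle : gT (τ (k + j)) ≤ τ (k + j) := cd_gT_le hpos.le (by linarith)
      rw [h4]
      refine ⟨by linarith, fun hd => ?_⟩
      have hd' : δ ≤ τ (k + j) := by linarith
      have h5 := cd_gT_down hδ hd' h1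
      have h6 := h2 hd'
      push_cast; linarith
  rw [← Finset.card_filter_add_card_filter_not (s := S) (p := fun k => tF + δ ≤ τ k)]
  refine add_le_add ?_ ?_
  · apply cd_card_le_of_spread
    intro k hk k' hk' hkk'
    rw [Finset.mem_filter] at hk hk'
    obtain ⟨j, rfl⟩ := Nat.exists_eq_add_of_le hkk'
    have h1 := hup k j (hS _ hk'.1).1 hk.2
    have h2 := (hτ _ (hS _ hk'.1).1).2
    have h3 := (hτ _ (hS _ hk.1).1).1
    have h4 : (j : ℝ) ≤ aG / (7 / 23 * δ) := by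
      rw [le_div_iff₀ hc1]; linarith
    have h5 : (j : ℝ) ≤ (⌈aG / (7 / 23 * δ)⌉₊ : ℝ) := h4.trans (Nat.le_ceil _)
    have h6 : j ≤ ⌈aG / (7 / 23 * δ)⌉₊ := by exact_mod_cast h5
    omega
  · apply cd_card_le_of_spread
    intro k hk k' hk' hkk'
    rw [Finset.mem_filter] at hk hk'
    obtain ⟨j, rfl⟩ := Nat.exists_eq_add_of_le hkk'
    have hkd : τ k ≤ tF - δ := by
      have h1 := (hS _ hk.1).2.2
      have h2 := hk.2
      push Not at h2
      rcases le_abs.1 h1 with h | h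
      · linarith
      · linarith
    have h1 := (hdown k j (hS _ hk'.1).1 hkd).2 (hS _ hk'.1).2.1
    have h2 := (hτ _ (hS _ hk'.1).1).1
    have h3 := (hτ _ (hS _ hk.1).1).2
    have h4 : (j : ℝ) ≤ aG / δ ^ 2 := by
      rw [le_div_iff₀ hc2]; linarith
    have h5 : (j : ℝ) ≤ (⌈aG / δ ^ 2⌉₊ : ℝ) := h4.trans (Nat.le_ceil _)
    have h6 : j ≤ ⌈aG / δ ^ 2⌉₊ := by exact_mod_cast h5
    omega

/-! ### the sink circle -/

theorem cd_phi_step (x : ℝ) :
    red (om1 x) = 0 ∨ red (om1 (red (om1 x))) = 0 ∨ 5 * |x - tS| ≤ |red (om1 x) - tS| := by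
  by_cases h1 : x ≤ -(1 / 4)
  · left; rw [om1_of_le h1]; exact cd_red_zero
  by_cases h2 : -(1 / 8) ≤ x
  · left; rw [om1_of_ge h2]; exact cd_red_one
  push Not at h1 h2
  have hv0 : 0 < 8 * (x + 1 / 4) := by linarith
  have hv1 : 8 * (x + 1 / 4) < 1 := by linarith
  have hH : om1 x = 3 * (8 * (x + 1 / 4)) ^ 2 - 2 * (8 * (x + 1 / 4)) ^ 3 := by
    unfold om1; exact Hc_of_mem hv0.le hv1.le
  by_cases h3 : om1 x ≤ 1 / 2
  · right; left
    have hr : red (om1 x) = om1 x := by unfold red; rw [if_pos h3]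
    rw [hr]
    have hpos : 0 < om1 x := by unfold om1; exact Hc_pos hv0
    rw [om1_of_ge (by linarith)]
    exact cd_red_one
  · right; right
    have hr : red (om1 x) = om1 x - 1 := by unfold red; rw [if_neg h3]
    rw [hr, hH]
    set v := 8 * (x + 1 / 4) with hv
    have e1 : 3 * v ^ 2 - 2 * v ^ 3 - 1 - tS = (v - 3 / 4) * (-2 * v ^ 2 + 3 / 2 * v + 9 / 8) := by
      unfold tS; ring
    have e2 : x - tS = (v - 3 / 4) * (1 / 8) := by rw [hv]; unfold tS; ring
    have hf : 5 / 8 ≤ -2 * v ^ 2 + 3 / 2 * v + 9 / 8 := by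
      nlinarith [mul_nonneg (sub_nonneg.2 hv1.le) hv0.le]
    rw [e1, e2, abs_mul, abs_mul, abs_of_pos (show (0 : ℝ) < 1 / 8 by norm_num)]
    have hf' : 5 / 8 ≤ |-2 * v ^ 2 + 3 / 2 * v + 9 / 8| := hf.trans (le_abs_self _)
    nlinarith [abs_nonneg (v - 3 / 4)]

theorem cd_phi_range (x : ℝ) : |red (om1 x) - tS| < 1 := by
  have h0 : 0 ≤ om1 x := Hc_nonneg _
  have h1 : om1 x ≤ 1 := Hc_le_one _
  unfold red tS
  split_ifs with h <;> rw [abs_lt] <;> constructor <;> linarith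

theorem cd_phi_iter (x : ℝ) (j : ℕ) :
    (fun t => red (om1 t))^[j + 1] x = 0 ∨
      5 ^ j * |x - tS| ≤ |(fun t => red (om1 t))^[j] x - tS| := by
  induction j with
  | zero => right; simp
  | succ j ih =>
    have hz : (fun t => red (om1 t)) 0 = 0 := red_om1_zero
    rcases ih with h | h
    · left
      rw [Function.iterate_succ_apply', h]; exact hz
    · rcases cd_phi_step ((fun t => red (om1 t))^[j] x) with h1 | h1 | h1
      · left
        rw [Function.iterate_succ_apply', Function.iterate_succ_apply']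
        show red (om1 (red (om1 _))) = 0
        rw [h1]; exact hz
      · left
        rw [Function.iterate_succ_apply', Function.iterate_succ_apply']
        exact h1
      · right
        rw [Function.iterate_succ_apply']
        show 5 ^ (j + 1) * |x - tS| ≤ |red (om1 _) - tS|
        calc 5 ^ (j + 1) * |x - tS| = 5 * (5 ^ j * |x - tS|) := by ring
          _ ≤ 5 * |(fun t => red (om1 t))^[j] x - tS| := by linarith
          _ ≤ _ := h1

/-- orbits of the sink-circle map spend a bounded time away from `0` and `tS` -/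
theorem om1_orbit_bound (δ : ℝ) (hδ : 0 < δ) :
    ∃ N : ℕ, ∀ t₀ : ℝ, -(1 / 2) < t₀ → t₀ ≤ 1 / 2 →
      ∀ S : Finset ℕ, (∀ k ∈ S, δ ≤ |(fun t => red (om1 t))^[k] t₀| ∧
        δ ≤ |(fun t => red (om1 t))^[k] t₀ - tS|) → S.card ≤ N := by
  obtain ⟨J, hJ⟩ : ∃ J : ℕ, 1 / δ < (5 : ℝ) ^ J := pow_unbounded_of_one_lt (1 / δ) (by norm_num)
  refine ⟨(J + 1) + 1, ?_⟩
  intro t₀ _ _ S hS
  apply cd_card_le_of_spread
  intro k hk k' hk' hkk'
  obtain ⟨j, rfl⟩ := Nat.exists_eq_add_of_le hkk'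
  by_contra hcon
  push Not at hcon
  obtain ⟨i, rfl⟩ : ∃ i, j = i + (J + 1 + 1) := ⟨j - (J + 1 + 1), by omega⟩
  set x := (fun t => red (om1 t))^[k] t₀ with hx
  have hz : (fun t => red (om1 t)) 0 = 0 := red_om1_zero
  have hzero : (fun t => red (om1 t))^[J + 1 + 1] x = 0 := by
    rcases cd_phi_iter x (J + 1) with h | h
    · exact h
    · exfalso
      have h1 : |(fun t => red (om1 t))^[J + 1] x - tS| < 1 := by
        rw [Function.iterate_succ_apply']; exact cd_phi_range _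
      have h2 : δ ≤ |x - tS| := (hS k hk).2
      have h3 : 1 < 5 ^ J * δ := by
        rw [div_lt_iff₀ hδ] at hJ; exact hJ
      have h4 : (5 : ℝ) ^ (J + 1) * δ ≤ 5 ^ (J + 1) * |x - tS| :=
        mul_le_mul_of_nonneg_left h2 (by positivity)
      have h5 : (5 : ℝ) ^ (J + 1) * δ = 5 * (5 ^ J * δ) := by ring
      linarith
  have hfin : (fun t => red (om1 t))^[k + (i + (J + 1 + 1))] t₀ = 0 := by
    rw [show k + (i + (J + 1 + 1)) = i + ((J + 1 + 1) + k) by omega,
      Function.iterate_add_apply, Function.iterate_add_apply, ← hx, hzero]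
    exact Function.iterate_fixed hz i
  have := (hS _ hk').1
  rw [hfin, abs_zero] at this
  linarith

end Claimed.Agent.R082
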