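import Mathlib

/-!
# Row 82: calculus of "uniformly bounded time outside the neighbourhoods of `P`"
Blueprint: `docs/R082_blueprint.md` §9 on `origin/helper82`.
-/

set_option autoImplicit false

namespace Claimed.Agent.R082

variable {X : Type*} [MetricSpace X]

/-- orbits starting in `A` spend a uniformly bounded time outside the `ε`-neighbourhood of `P` -/
def OutBdd (f : X → X) (P A : Set X) : Prop :=
  ∀ ε : ℝ, 0 < ε → ∃ N : ℕ, ∀ z ∈ A, ∀ S : Finset ℕ,
    (∀ k ∈ S, ∀ p ∈ P, ε ≤ dist (f^[k] z) p) → S.card ≤ N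

variable {f : X → X} {P A B : Set X}

theorem OutBdd.mono (h : OutBdd f P B) (hAB : A ⊆ B) : OutBdd f P A := by
  intro ε hε
  obtain ⟨N, hN⟩ := h ε hε
  exact ⟨N, fun z hz S hS => hN z (hAB hz) S hS⟩

theorem OutBdd.union (hA : OutBdd f P A) (hB : OutBdd f P B) : OutBdd f P (A ∪ B) := by
  intro ε hε
  obtain ⟨N1, hN1⟩ := hA ε hε
  obtain ⟨N2, hN2⟩ := hB ε hε
  refine ⟨max N1 N2, fun z hz S hS => ?_⟩
  rcases hz with hz | hz
  · exact (hN1 z hz S hS).trans (le_max_left _ _)
  · exact (hN2 z hz S hS).trans (le_max_right _ _)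

/-- shifting the part `≥ m` of a finite set of times -/
theorem OutBdd_card_shift (S : Finset ℕ) (m : ℕ) :
    (S.filter (fun k => m ≤ k)).card = ((S.filter (fun k => m ≤ k)).image (fun k => k - m)).card := by
  symm
  apply Finset.card_image_of_injOn
  intro a ha b hb hab
  have ha' : m ≤ a := (Finset.mem_filter.1 (Finset.mem_coe.1 ha)).2
  have hb' : m ≤ b := (Finset.mem_filter.1 (Finset.mem_coe.1 hb)).2
  simp only at hab
  omega

/-- the tail of an orbit which is in `B` at time `m` -/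
theorem OutBdd_tail {ε : ℝ} {N : ℕ}
    (hN : ∀ z ∈ B, ∀ S : Finset ℕ, (∀ k ∈ S, ∀ p ∈ P, ε ≤ dist (f^[k] z) p) → S.card ≤ N)
    {z : X} {m : ℕ} (hz : f^[m] z ∈ B) (S : Finset ℕ)
    (hS : ∀ k ∈ S, ∀ p ∈ P, ε ≤ dist (f^[k] z) p) :
    (S.filter (fun k => m ≤ k)).card ≤ N := by
  rw [OutBdd_card_shift]
  apply hN _ hz
  intro k hk p hp
  obtain ⟨j, hj, rfl⟩ := Finset.mem_image.1 hk
  obtain ⟨hjS, hmj⟩ := Finset.mem_filter.1 hj
  rw [← Function.iterate_add_apply, Nat.sub_add_cancel hmj]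
  exact hS j hjS p hp

/-- one step -/
theorem OutBdd.of_step (hB : OutBdd f P B) (h : ∀ z ∈ A, f z ∈ B) : OutBdd f P A := by
  intro ε hε
  obtain ⟨N, hN⟩ := hB ε hε
  refine ⟨N + 1, fun z hz S hS => ?_⟩
  have h1 : (S.filter (fun k => 1 ≤ k)).card ≤ N :=
    OutBdd_tail hN (m := 1) (by simpa using h z hz) S hS
  have h2 : (S.filter (fun k => ¬ 1 ≤ k)).card ≤ 1 := by
    apply Finset.card_le_one.2
    intro a ha b hb
    have ha' := (Finset.mem_filter.1 ha).2
    have hb' := (Finset.mem_filter.1 hb).2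
    omega
  have h3 := Finset.card_filter_add_card_filter_not (s := S) (fun k => 1 ≤ k)
  omega

/-- epochs: orbits stay in `A` for a while (maybe for ever) and then enter `B`; the time spent
outside during a stay in `A` is uniformly bounded -/
theorem OutBdd.of_epoch (hB : OutBdd f P B) (h : ∀ z ∈ A, f z ∈ A ∪ B)
    (hseg : ∀ ε : ℝ, 0 < ε → ∃ N : ℕ, ∀ (z : X) (m : ℕ), (∀ k, k < m → f^[k] z ∈ A) →
      ∀ S : Finset ℕ, (∀ k ∈ S, k < m ∧ ∀ p ∈ P, ε ≤ dist (f^[k] z) p) → S.card ≤ N) :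
    OutBdd f P A := by
  intro ε hε
  obtain ⟨N1, hN1⟩ := hB ε hε
  obtain ⟨N2, hN2⟩ := hseg ε hε
  refine ⟨N1 + N2, fun z hz S hS => ?_⟩
  by_cases hall : ∀ k, f^[k] z ∈ A
  · have := hN2 z (S.sup id + 1) (fun k _ => hall k) S
      (fun k hk => ⟨Nat.lt_succ_of_le (Finset.le_sup (f := id) hk), hS k hk⟩)
    omega
  · push Not at hall
    classical
    have hm := Nat.find_spec hall
    have hmin : ∀ k, k < Nat.find hall → f^[k] z ∈ A := fun k hk => by
      have := Nat.find_min hall hk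
      simpa using this
    set m := Nat.find hall with hmdef
    have hm0 : m ≠ 0 := by
      intro h0
      rw [h0] at hm
      exact hm (by simpa using hz)
    obtain ⟨m', hm'⟩ := Nat.exists_eq_succ_of_ne_zero hm0
    have hmB : f^[m] z ∈ B := by
      have h1 : f^[m'] z ∈ A := hmin m' (by omega)
      have h2 := h _ h1
      rw [← Function.iterate_succ_apply' f m' z, ← hm'] at h2
      rcases h2 with h2 | h2
      · exact absurd h2 hm
      · exact h2
    have h1 : (S.filter (fun k => m ≤ k)).card ≤ N1 := OutBdd_tail hN1 hmB S hS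
    have h2 : (S.filter (fun k => ¬ m ≤ k)).card ≤ N2 := by
      apply hN2 z m hmin
      intro k hk
      obtain ⟨hkS, hkm⟩ := Finset.mem_filter.1 hk
      exact ⟨by omega, hS k hkS⟩
    have h3 := Finset.card_filter_add_card_filter_not (s := S) (fun k => m ≤ k)
    omega

end Claimed.Agent.R082
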