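import Claimed.Agent.R082.Steps
import Claimed.Agent.R082.ClockDyn
import Claimed.Agent.R082.OutBdd

/-!
# Row 82: every orbit of `fMap` spends a uniformly bounded time away from the four fixed points
Blueprint: `docs/R082_blueprint.md` §9 on `origin/helper82`.
-/

set_option autoImplicit false

open Claims Claims.C0146 Claims.C0146.Problem340

namespace Claimed.Agent.R082

/-- the four fixed points -/
noncomputable def Pfix : Set (CounterexampleManifold 2) :=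
  {dec ⟨0, 0, 0⟩, dec ⟨tF, 0, 0⟩, decS 0, decS tS}

theorem Pfix_finite : Pfix.Finite := by
  unfold Pfix
  exact Set.toFinite _

/-! ### auxiliary facts -/

theorem Bounded_Rsq_zero : Rsq (0 : ℂ × ℂ) = 0 := by simp [Rsq]

theorem Bounded_Lmap_zero : Lmap (0 : ℂ × ℂ) = 0 := by
  simp [Lmap, Prod.ext_iff]

theorem Bounded_Yreg_zero : Yreg (0 : ℂ × ℂ) = 0 :=
  Yreg_of_small (by rw [Bounded_Rsq_zero]; norm_num)

theorem Bounded_Pr_axis {t : ℝ} (h0 : -(1 / 2) < t) (h1 : t ≤ 1 / 2) : Pr ⟨t, 0, 0⟩ :=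
  ⟨h0, h1, by simp, by simp⟩

theorem Bounded_norm_fst_sq_le (x : ℂ × ℂ) : ‖x.1‖ ^ 2 ≤ Rsq x := by
  unfold Rsq; nlinarith [sq_nonneg ‖x.2‖]

theorem Bounded_norm_snd_sq_le (x : ℂ × ℂ) : ‖x.2‖ ^ 2 ≤ Rsq x := by
  unfold Rsq; nlinarith [sq_nonneg ‖x.1‖]

theorem Bounded_norm_fst_lt_four {x : ℂ × ℂ} (h : Rsq x < 16) : ‖x.1‖ < 4 := by
  have := Bounded_norm_fst_sq_le x
  nlinarith [norm_nonneg x.1]

theorem Bounded_red_mem {T : ℝ} (h0 : 0 ≤ T) (h1 : T ≤ 1) : -(1 / 2) < red T ∧ red T ≤ 1 / 2 := by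
  unfold red
  split_ifs with h
  · exact ⟨by linarith, h⟩
  · push Not at h
    exact ⟨by linarith, by linarith⟩

theorem Bounded_om1_mem (t : ℝ) : 0 ≤ om1 t ∧ om1 t ≤ 1 := ⟨Hc_nonneg _, Hc_le_one _⟩

theorem Bounded_tauB_zero {R : ℝ} (h : R ≤ 0.14 ^ 4) : tauB R = 0 := by
  unfold tauB
  rw [stp_of_le (by norm_num) h, stp_of_le (by norm_num) (h.trans (by norm_num))]
  ring

theorem Bounded_Fhat_tF : Fhat ⟨tF, 0, 0⟩ = ⟨tF, 0, 0⟩ := by
  have hP : Pmap tF (0 : ℂ × ℂ) = 0 := by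
    unfold Pmap
    rw [Bounded_Lmap_zero, Psi_of_small (by rw [Bounded_Rsq_zero]; norm_num), jmap_zero]
    simp
  have hX : Xnew tF (0 : ℂ × ℂ) 0 = 0 := by
    unfold Xnew
    rw [hP, jmap_zero]
    simp
  have hN : Nnew tF (0 : ℂ × ℂ) 0 = 0 := by
    unfold Nnew
    rw [hX]
    simp
  have hT : That tF (0 : ℂ × ℂ) = tF := by
    unfold That
    rw [Bounded_Rsq_zero, Bounded_tauB_zero (by norm_num), gT_tF]
    ring
  have hr : red tF = tF := by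
    unfold red
    rw [if_pos (by unfold tF; norm_num)]
  unfold Fhat
  simp only [hT, hr, hN, hX, Bounded_Yreg_zero, smul_zero, Prod.snd_zero]
  rfl

theorem Pfix_fixed : ∀ p ∈ Pfix, fMap p = p := by
  intro p hp
  simp only [Pfix, Set.mem_insert_iff, Set.mem_singleton_iff] at hp
  rcases hp with rfl | rfl | rfl | rfl
  · rw [fMap_dec (Bounded_Pr_axis (by norm_num) (by norm_num)) (by simp),
      step_ZA_small (s := ⟨0, 0, 0⟩) (by norm_num) le_rfl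
        (by show Rsq (0 : ℂ × ℂ) ≤ _; rw [Bounded_Rsq_zero]; norm_num)]
    show dec ⟨0, Lmap 0, Yreg 0⟩ = _
    rw [Bounded_Lmap_zero, Bounded_Yreg_zero]
  · rw [fMap_dec (Bounded_Pr_axis (by unfold tF; norm_num) (by unfold tF; norm_num)) (by simp),
      Bounded_Fhat_tF]
  · rw [fMap_decS (by norm_num) (by norm_num), red_om1_zero]
  · rw [fMap_decS (by unfold tS; norm_num) (by unfold tS; norm_num), red_om1_tS]

/-- sets of points of `M` given by a predicate on proper finite states -/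
def AS (Q : St → Prop) : Set (CounterexampleManifold 2) := {z | ∃ s, Pr s ∧ Q s ∧ z = dec s}

/-- the sink circle -/
def SC : Set (CounterexampleManifold 2) := {z | ∃ t, -(1 / 2) < t ∧ t ≤ 1 / 2 ∧ z = decS t}

theorem Bounded_AS_mono {Q Q' : St → Prop} (h : ∀ s, Q s → Q' s) : AS Q ⊆ AS Q' := by
  rintro z ⟨s, hP, hQ, rfl⟩
  exact ⟨s, hP, h s hQ, rfl⟩

theorem Bounded_mem_AS {Q : St → Prop} {s : St} (hP : Pr s) (hQ : Q s) : dec s ∈ AS Q :=
  ⟨s, hP, hQ, rfl⟩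

theorem Bounded_decS_mem (t : ℝ) : decS (red (om1 t)) ∈ SC :=
  ⟨_, (Bounded_red_mem (Bounded_om1_mem t).1 (Bounded_om1_mem t).2).1,
    (Bounded_red_mem (Bounded_om1_mem t).1 (Bounded_om1_mem t).2).2, rfl⟩

theorem Bounded_iter_decS {t₀ : ℝ} (h0 : -(1 / 2) < t₀) (h1 : t₀ ≤ 1 / 2) (k : ℕ) :
    fMap^[k] (decS t₀) = decS ((fun t => red (om1 t))^[k] t₀) ∧
      -(1 / 2) < (fun t => red (om1 t))^[k] t₀ ∧ (fun t => red (om1 t))^[k] t₀ ≤ 1 / 2 := by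
  induction k with
  | zero => exact ⟨rfl, h0, h1⟩
  | succ k ih =>
    obtain ⟨e, a, b⟩ := ih
    rw [Function.iterate_succ_apply', Function.iterate_succ_apply', e, fMap_decS a b]
    exact ⟨rfl, Bounded_red_mem (Bounded_om1_mem _).1 (Bounded_om1_mem _).2⟩

theorem outBdd_SC : OutBdd fMap Pfix SC := by
  intro ε hε
  have hpi := Real.pi_pos
  obtain ⟨N, hN⟩ := om1_orbit_bound (ε / (2 * Real.pi)) (by positivity)
  refine ⟨N, ?_⟩
  rintro z ⟨t₀, h0, h1, rfl⟩ S hS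
  apply hN t₀ h0 h1 S
  intro k hk
  have e := (Bounded_iter_decS h0 h1 k).1
  have hk' := hS k hk
  rw [e] at hk'
  have a0 := hk' (decS 0) (by simp [Pfix])
  have aS := hk' (decS tS) (by simp [Pfix])
  have b0 := a0.trans (dist_decS_le _ _)
  have bS := aS.trans (dist_decS_le _ _)
  rw [sub_zero] at b0
  constructor
  · rw [div_le_iff₀ (by positivity)]; linarith
  · rw [div_le_iff₀ (by positivity)]; linarith

/-- sink region -/
theorem outBdd_SR : OutBdd fMap Pfix (AS fun s => 4 ≤ ‖s.x.1‖) := by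
  apply outBdd_SC.of_step
  rintro z ⟨s, hP, h4, rfl⟩
  rw [fMap_dec_sink hP h4]
  exact Bounded_decS_mem _

/-- splitting off the sink region -/
theorem Bounded_of_lt_four {Q : St → Prop}
    (h : OutBdd fMap Pfix (AS fun s => Q s ∧ ‖s.x.1‖ < 4)) : OutBdd fMap Pfix (AS Q) := by
  refine (h.union outBdd_SR).mono ?_
  rintro z ⟨s, hP, hQ, rfl⟩
  rcases lt_or_ge ‖s.x.1‖ 4 with h4 | h4
  · exact Or.inl ⟨s, hP, ⟨hQ, h4⟩, rfl⟩
  · exact Or.inr ⟨s, hP, h4, rfl⟩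

/-- one step in coordinates -/
theorem Bounded_of_step {Q : St → Prop} {B : Set (CounterexampleManifold 2)}
    (hB : OutBdd fMap Pfix B)
    (h : ∀ s, Pr s → Q s → ‖s.x.1‖ < 4 → dec (Fhat s) ∈ B) : OutBdd fMap Pfix (AS Q) := by
  apply Bounded_of_lt_four
  apply hB.of_step
  rintro z ⟨s, hP, ⟨hQ, h4⟩, rfl⟩
  rw [fMap_dec hP h4]
  exact h s hP hQ h4

theorem outBdd_KX : OutBdd fMap Pfix (AS KX) :=
  Bounded_of_step outBdd_SR fun s _ hQ h4 => Bounded_mem_AS (Pr_Fhat s) (step_KX hQ h4)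

/-! ### counting lemmas -/

/-- a geometric sequence spends a bounded time in `[η, c]` -/
theorem Bounded_geo (η c : ℝ) (hη : 0 < η) :
    ∃ N : ℕ, ∀ (a : ℝ) (S : Finset ℕ), (∀ k ∈ S, η ≤ 256 ^ k * a ∧ 256 ^ k * a ≤ c) →
      S.card ≤ N := by
  obtain ⟨L, hL⟩ := pow_unbounded_of_one_lt (c / η) (by norm_num : (1 : ℝ) < 256)
  refine ⟨L, fun a S hS => ?_⟩
  rcases S.eq_empty_or_nonempty with rfl | hne
  · simp
  set k₀ := S.min' hne with hk₀
  have hk₀S : k₀ ∈ S := S.min'_mem hne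
  have hsub : S ⊆ Finset.Ico k₀ (k₀ + L) := by
    intro k hk
    have hle : k₀ ≤ k := S.min'_le k hk
    rw [Finset.mem_Ico]
    refine ⟨hle, ?_⟩
    by_contra hcon
    push Not at hcon
    have h1 := (hS k₀ hk₀S).1
    have h2 := (hS k hk).2
    have h3 : (256 : ℝ) ^ k = 256 ^ (k - k₀) * 256 ^ k₀ := by
      rw [← pow_add]; congr 1; omega
    have h4 : (256 : ℝ) ^ L ≤ 256 ^ (k - k₀) :=
      pow_le_pow_right₀ (by norm_num) (by omega)
    have h5 : (256 : ℝ) ^ (k - k₀) * η ≤ c := by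
      calc (256 : ℝ) ^ (k - k₀) * η ≤ 256 ^ (k - k₀) * (256 ^ k₀ * a) :=
            mul_le_mul_of_nonneg_left h1 (by positivity)
        _ = 256 ^ k * a := by rw [h3]; ring
        _ ≤ c := h2
    rw [div_lt_iff₀ hη] at hL
    nlinarith
  calc S.card ≤ (Finset.Ico k₀ (k₀ + L)).card := Finset.card_le_card hsub
    _ = L := by simp

/-- coordinates along a segment of an orbit -/
theorem Bounded_seg {Q : St → Prop} (hQ4 : ∀ s, Q s → ‖s.x.1‖ < 4)
    {z : CounterexampleManifold 2} {m : ℕ} (h : ∀ k, k < m → fMap^[k] z ∈ AS Q) :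
    ∃ σ : ℕ → St, (∀ k, k < m → Pr (σ k) ∧ Q (σ k) ∧ fMap^[k] z = dec (σ k)) ∧
      ∀ k, k + 1 < m → σ (k + 1) = Fhat (σ k) := by
  have h1 : ∀ k, k < m → Pr (co (fMap^[k] z)) ∧ Q (co (fMap^[k] z)) ∧
      fMap^[k] z = dec (co (fMap^[k] z)) := by
    intro k hk
    obtain ⟨s, hP, hQ, hz⟩ := h k hk
    rw [hz, co_dec hP]
    exact ⟨hP, hQ, rfl⟩
  refine ⟨fun k => co (fMap^[k] z), h1, fun k hk => ?_⟩
  obtain ⟨hP, hQ, hz⟩ := h1 k (by omega)
  show co (fMap^[k + 1] z) = _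
  rw [Function.iterate_succ_apply']
  conv_lhs => rw [hz]
  rw [fMap_dec hP (hQ4 _ hQ), co_dec (Pr_Fhat _)]

/-- far from an axis point in `M` => far in coordinates -/
theorem Bounded_far {ε : ℝ} (hε : 0 < ε) {s : St} {t₀ : ℝ}
    (h : ε ≤ dist (dec s) (dec ⟨t₀, 0, 0⟩)) :
    ε / (2 * Real.pi) ≤ |s.t - t₀| ∨ ε ^ 2 / 4 ≤ Rsq s.x ∨ s.y ≠ 0 := by
  have hpi := Real.pi_pos
  have h1 := h.trans (dist_dec_le s t₀)
  rcases le_max_iff.1 h1 with h2 | h2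
  · left
    rw [div_le_iff₀ (by positivity)]; linarith
  rcases le_max_iff.1 h2 with h3 | h3
  · right; left
    have := Bounded_norm_fst_sq_le s.x
    nlinarith [norm_nonneg s.x.1]
  rcases le_max_iff.1 h3 with h4 | h4
  · right; left
    have := Bounded_norm_snd_sq_le s.x
    nlinarith [norm_nonneg s.x.2]
  · right; right
    intro hy
    rw [hy, norm_zero] at h4
    linarith

theorem Bounded_Rsq_iter {σ : ℕ → St} {m : ℕ}
    (h : ∀ k, k + 1 < m → Rsq (σ (k + 1)).x = 256 * Rsq (σ k).x) :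
    ∀ k, k < m → Rsq (σ k).x = 256 ^ k * Rsq (σ 0).x := by
  intro k
  induction k with
  | zero => intro _; simp
  | succ k ih =>
    intro hk
    rw [h k hk, ih (by omega)]; ring

/-- epochs near `p = dec ⟨0,0,0⟩` : phase `0`, `R_{k+1} = 256 R_k ≤ 0.14⁴` -/
theorem Bounded_epoch_lin (ε : ℝ) (hε : 0 < ε) :
    ∃ N : ℕ, ∀ (σ : ℕ → St) (m : ℕ),
      (∀ k, k + 1 < m → (σ (k + 1)).t = 0 ∧ Rsq (σ (k + 1)).x = 256 * Rsq (σ k).x ∧
        (σ (k + 1)).y = Yreg (σ k).x) →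
      (∀ k, k < m → Rsq (σ k).x ≤ 0.14 ^ 4) →
      ∀ S : Finset ℕ, (∀ k ∈ S, k < m ∧ ε ≤ dist (dec (σ k)) (dec ⟨0, 0, 0⟩)) → S.card ≤ N := by
  obtain ⟨N, hN⟩ := Bounded_geo (ε ^ 2 / 4) (0.14 ^ 4) (by positivity)
  refine ⟨N + 1, fun σ m hstep hR S hS => ?_⟩
  have hiter := Bounded_Rsq_iter (fun k hk => (hstep k hk).2.1)
  have h1 : (S.erase 0).card ≤ N := by
    apply hN (Rsq (σ 0).x)
    intro k hk
    rw [Finset.mem_erase] at hk
    obtain ⟨hk0, hkS⟩ := hk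
    obtain ⟨hkm, hd⟩ := hS k hkS
    obtain ⟨j, rfl⟩ := Nat.exists_eq_succ_of_ne_zero hk0
    obtain ⟨ht, hRR, hy⟩ := hstep j hkm
    rw [← hiter _ hkm]
    refine ⟨?_, hR _ hkm⟩
    rcases Bounded_far hε hd with h | h | h
    · exfalso
      have hpi := Real.pi_pos
      rw [Nat.succ_eq_add_one, ht, sub_zero, abs_zero] at h
      have : 0 < ε / (2 * Real.pi) := by positivity
      linarith
    · exact h
    · exfalso
      apply h
      rw [Nat.succ_eq_add_one, hy]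
      apply Yreg_of_small
      have := hR _ hkm
      rw [Nat.succ_eq_add_one, hRR] at this
      have h0 := Rsq_nonneg (σ j).x
      norm_num at this ⊢
      linarith
  have h2 := Finset.pred_card_le_card_erase (s := S) (a := 0)
  omega

/-! ### the carrier epoch -/

/-- small neutral carriers -/
def Bounded_KNs (s : St) : Prop := Neutral s.t ∧ ∃ w : ℂ, s.x = jmap w ∧ ‖w‖ ≤ 0.14

/-- middle neutral carriers -/
def Bounded_KNm (s : St) : Prop :=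
  Neutral s.t ∧ ∃ w : ℂ, s.x = jmap w ∧ 0.14 < ‖w‖ ∧ ‖w‖ ≤ 0.56

theorem Bounded_pow4_le {a b : ℝ} (ha : 0 ≤ a) (h : a ≤ b) : a ^ 4 ≤ b ^ 4 :=
  pow_le_pow_left₀ ha h 4

theorem Bounded_KNs_R {s : St} (h : Bounded_KNs s) : Rsq s.x ≤ 0.14 ^ 4 := by
  obtain ⟨_, w, hx, hw⟩ := h
  rw [hx, Rsq_jmap]
  exact Bounded_pow4_le (norm_nonneg _) hw

theorem Bounded_KNs_lt {s : St} (h : Bounded_KNs s) : ‖s.x.1‖ < 4 :=
  Bounded_norm_fst_lt_four ((Bounded_KNs_R h).trans_lt (by norm_num))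

theorem Bounded_KNs_step {s : St} (h : Bounded_KNs s) :
    (Fhat s).t = 0 ∧ Rsq (Fhat s).x = 256 * Rsq s.x ∧ (Fhat s).y = Yreg s.x ∧
      (Bounded_KNs (Fhat s) ∨ Bounded_KNm (Fhat s)) := by
  obtain ⟨ht, w, hx, hw⟩ := h
  have e := step_KN_small ht hx hw
  have hD : ‖Dmap w‖ = 4 * ‖w‖ := norm_Dmap w
  rw [e]
  refine ⟨rfl, ?_, rfl, ?_⟩
  · show Rsq (jmap (Dmap w)) = 256 * Rsq s.x
    rw [hx, Rsq_jmap, Rsq_jmap, hD]; ring
  · rcases le_or_gt ‖Dmap w‖ 0.14 with h1 | h1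
    · exact Or.inl ⟨Or.inl le_rfl, Dmap w, rfl, h1⟩
    · exact Or.inr ⟨Or.inl le_rfl, Dmap w, rfl, h1, by rw [hD]; linarith⟩

theorem Bounded_outBdd_KNm : OutBdd fMap Pfix (AS Bounded_KNm) :=
  Bounded_of_step outBdd_KX fun s _ hQ _ => by
    obtain ⟨ht, w, hx, hw, hw'⟩ := hQ
    exact Bounded_mem_AS (Pr_Fhat s) (step_KN_mid ht hx hw hw').2

theorem Bounded_outBdd_KNs : OutBdd fMap Pfix (AS Bounded_KNs) := by
  apply Bounded_outBdd_KNm.of_epoch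
  · rintro z ⟨s, hP, hQ, rfl⟩
    rw [fMap_dec hP (Bounded_KNs_lt hQ)]
    rcases (Bounded_KNs_step hQ).2.2.2 with h | h
    · exact Or.inl (Bounded_mem_AS (Pr_Fhat s) h)
    · exact Or.inr (Bounded_mem_AS (Pr_Fhat s) h)
  · intro ε hε
    obtain ⟨N, hN⟩ := Bounded_epoch_lin ε hε
    refine ⟨N, fun z m hz S hS => ?_⟩
    obtain ⟨σ, h1, h2⟩ := Bounded_seg (fun s h => Bounded_KNs_lt h) hz
    apply hN σ m
    · intro k hk
      have h3 := Bounded_KNs_step (h1 k (by omega)).2.1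
      rw [h2 k hk]
      exact ⟨h3.1, h3.2.1, h3.2.2.1⟩
    · intro k hk
      exact Bounded_KNs_R (h1 k hk).2.1
    · intro k hk
      obtain ⟨hkm, hd⟩ := hS k hk
      refine ⟨hkm, ?_⟩
      rw [← (h1 k hkm).2.2]
      exact hd _ (by simp [Pfix])

/-- carrier epoch -/
theorem outBdd_KN : OutBdd fMap Pfix (AS KN) := by
  refine ((Bounded_outBdd_KNs.union Bounded_outBdd_KNm).union outBdd_KX).mono ?_
  rintro z ⟨s, hP, ⟨ht, w, hx⟩, rfl⟩
  rcases le_or_gt ‖w‖ 0.14 with h1 | h1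
  · exact Or.inl (Or.inl (Bounded_mem_AS hP ⟨ht, w, hx, h1⟩))
  rcases le_or_gt ‖w‖ 0.56 with h2 | h2
  · exact Or.inl (Or.inr (Bounded_mem_AS hP ⟨ht, w, hx, h1, h2⟩))
  · exact Or.inr (Bounded_mem_AS hP ⟨w, hx, h2.le, Or.inl (thT_of_neutral ht)⟩)

/-! ### the linear epoch -/

def Bounded_ZAs (s : St) : Prop := -(1 / 8) ≤ s.t ∧ s.t ≤ 0 ∧ Rsq s.x ≤ 0.14 ^ 4

def Bounded_ZAw (s : St) : Prop :=
  -(1 / 8) ≤ s.t ∧ s.t ≤ 0 ∧ 0.14 ^ 4 < Rsq s.x ∧ Rsq s.x < 0.20 ^ 4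

def Bounded_ZAb (s : St) : Prop := -(1 / 8) ≤ s.t ∧ s.t ≤ 0 ∧ 0.20 ^ 4 ≤ Rsq s.x

theorem Bounded_outBdd_ZAb : OutBdd fMap Pfix (AS Bounded_ZAb) :=
  Bounded_of_step outBdd_KN fun s hP hQ h4 =>
    Bounded_mem_AS (Pr_Fhat s) (step_ZA_big hP hQ.1 hQ.2.1 hQ.2.2 h4)

theorem Bounded_outBdd_ZAw : OutBdd fMap Pfix (AS Bounded_ZAw) := by
  have hB : OutBdd fMap Pfix (AS KN ∪ {z | fMap z ∈ AS KN}) :=
    outBdd_KN.union (outBdd_KN.of_step (A := {z | fMap z ∈ AS KN}) fun z h => h)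
  refine Bounded_of_step hB fun s hP hQ _ => ?_
  rcases step_ZA_window hP hQ.1 hQ.2.1 hQ.2.2.1 hQ.2.2.2 with h | ⟨h4, h⟩
  · exact Or.inl (Bounded_mem_AS (Pr_Fhat s) h)
  · right
    show fMap (dec (Fhat s)) ∈ AS KN
    rw [fMap_dec (Pr_Fhat s) h4]
    exact Bounded_mem_AS (Pr_Fhat _) h

theorem Bounded_ZAs_lt {s : St} (h : Bounded_ZAs s) : ‖s.x.1‖ < 4 :=
  Bounded_norm_fst_lt_four (h.2.2.trans_lt (by norm_num))

theorem Bounded_ZA_cases {s : St} (h1 : -(1 / 8) ≤ s.t) (h2 : s.t ≤ 0) :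
    Bounded_ZAs s ∨ Bounded_ZAw s ∨ Bounded_ZAb s := by
  rcases le_or_gt (Rsq s.x) (0.14 ^ 4) with a | a
  · exact Or.inl ⟨h1, h2, a⟩
  rcases lt_or_ge (Rsq s.x) (0.20 ^ 4) with b | b
  · exact Or.inr (Or.inl ⟨h1, h2, a, b⟩)
  · exact Or.inr (Or.inr ⟨h1, h2, b⟩)

theorem Bounded_outBdd_ZAs : OutBdd fMap Pfix (AS Bounded_ZAs) := by
  apply (Bounded_outBdd_ZAw.union Bounded_outBdd_ZAb).of_epoch
  · rintro z ⟨s, hP, hQ, rfl⟩
    rw [fMap_dec hP (Bounded_ZAs_lt hQ)]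
    have e := step_ZA_small hQ.1 hQ.2.1 hQ.2.2
    have ht : (Fhat s).t = 0 := by rw [e]
    rcases Bounded_ZA_cases (s := Fhat s) (by rw [ht]; norm_num) (by rw [ht]) with h | h | h
    · exact Or.inl (Bounded_mem_AS (Pr_Fhat s) h)
    · exact Or.inr (Or.inl (Bounded_mem_AS (Pr_Fhat s) h))
    · exact Or.inr (Or.inr (Bounded_mem_AS (Pr_Fhat s) h))
  · intro ε hε
    obtain ⟨N, hN⟩ := Bounded_epoch_lin ε hε
    refine ⟨N, fun z m hz S hS => ?_⟩
    obtain ⟨σ, h1, h2⟩ := Bounded_seg (fun s h => Bounded_ZAs_lt h) hz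
    apply hN σ m
    · intro k hk
      have hQ := (h1 k (by omega)).2.1
      rw [h2 k hk, step_ZA_small hQ.1 hQ.2.1 hQ.2.2]
      exact ⟨rfl, Rsq_Lmap _, rfl⟩
    · intro k hk
      exact (h1 k hk).2.1.2.2
    · intro k hk
      obtain ⟨hkm, hd⟩ := hS k hk
      refine ⟨hkm, ?_⟩
      rw [← (h1 k hkm).2.2]
      exact hd _ (by simp [Pfix])

/-- linear epoch -/
theorem outBdd_ZA : OutBdd fMap Pfix (AS fun s => -(1 / 8) ≤ s.t ∧ s.t ≤ 0) := by
  refine ((Bounded_outBdd_ZAs.union Bounded_outBdd_ZAw).union Bounded_outBdd_ZAb).mono ?_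
  rintro z ⟨s, hP, ⟨h1, h2⟩, rfl⟩
  rcases Bounded_ZA_cases h1 h2 with h | h | h
  · exact Or.inl (Or.inl (Bounded_mem_AS hP h))
  · exact Or.inl (Or.inr (Bounded_mem_AS hP h))
  · exact Or.inr (Bounded_mem_AS hP h)

theorem outBdd_reset : OutBdd fMap Pfix (AS fun s => s.t ≤ -(1 / 4) ∨ aG ≤ s.t) :=
  Bounded_of_step outBdd_ZA fun s _ hQ _ =>
    Bounded_mem_AS (Pr_Fhat s) (by rw [step_reset hQ]; norm_num)

/-! ### chains -/

theorem Bounded_ZF_seg (ε : ℝ) (hε : 0 < ε) :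
    ∃ N : ℕ, ∀ (σ : ℕ → St) (m : ℕ),
      (∀ k, k < m → 0 < (σ k).t ∧ (σ k).t < aG) →
      (∀ k, k + 1 < m → (σ (k + 1)).x = Lmap (σ k).x ∧ Rsq (σ k).x < 0.16 ^ 4 ∧
        (Rsq (σ k).x ≤ 0.14 ^ 4 → (σ (k + 1)).t = gT (σ k).t) ∧ (σ (k + 1)).y = Yreg (σ k).x) →
      ∀ S : Finset ℕ, (∀ k ∈ S, k < m ∧ ε ≤ dist (dec (σ k)) (dec ⟨0, 0, 0⟩) ∧
        ε ≤ dist (dec (σ k)) (dec ⟨tF, 0, 0⟩)) → S.card ≤ N := by
  classical
  have hpi := Real.pi_pos
  obtain ⟨Na, hNa⟩ := Bounded_geo (ε ^ 2 / 4) (0.16 ^ 4) (by positivity)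
  obtain ⟨Nc, hNc⟩ := gT_chain_bound (ε / (2 * Real.pi)) (by positivity)
  refine ⟨2 + Na + Nc, fun σ m hzone hstep S hS => ?_⟩
  have hRR : ∀ k, k + 1 < m → Rsq (σ (k + 1)).x = 256 * Rsq (σ k).x := fun k hk => by
    rw [(hstep k hk).1, Rsq_Lmap]
  have hiter := Bounded_Rsq_iter hRR
  set Sa := S.filter (fun k => k + 1 < m ∧ ε ^ 2 / 4 ≤ Rsq (σ k).x) with hSa
  set Sc := S.filter (fun k => k + 1 < m ∧ ε / (2 * Real.pi) ≤ (σ k).t ∧
    ε / (2 * Real.pi) ≤ |(σ k).t - tF|) with hSc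
  have ha : Sa.card ≤ Na := by
    apply hNa (Rsq (σ 0).x)
    intro k hk
    rw [hSa, Finset.mem_filter] at hk
    obtain ⟨_, hkm, hR⟩ := hk
    rw [← hiter k (by omega)]
    exact ⟨hR, (hstep k hkm).2.1.le⟩
  have hc : Sc.card ≤ Nc := by
    apply hNc (fun k => (σ k).t) (m - 1)
    · intro k hk
      exact hzone k (by omega)
    · intro k hk
      have hk2 : k + 1 + 1 < m := by omega
      apply (hstep k (by omega)).2.2.1
      have h1 := (hstep (k + 1) hk2).2.1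
      rw [hRR k (by omega)] at h1
      norm_num at h1 ⊢
      linarith
    · intro k hk
      rw [hSc, Finset.mem_filter] at hk
      obtain ⟨_, hkm, h1, h2⟩ := hk
      exact ⟨by omega, h1, h2⟩
  have hsub : S ⊆ ({0, m - 1} ∪ Sa) ∪ Sc := by
    intro k hk
    obtain ⟨hkm, hd0, hdF⟩ := hS k hk
    by_cases hk0 : k = 0
    · subst hk0; simp
    by_cases hkl : k = m - 1
    · subst hkl; simp
    have hkm' : k + 1 < m := by omega
    obtain ⟨j, rfl⟩ := Nat.exists_eq_succ_of_ne_zero hk0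
    have hy : (σ (j + 1)).y = 0 := by
      rw [(hstep j hkm).2.2.2]
      apply Yreg_of_small
      have h1 := (hstep (j + 1) hkm').2.1
      rw [hRR j hkm] at h1
      norm_num at h1 ⊢
      linarith
    by_cases hR : ε ^ 2 / 4 ≤ Rsq (σ (j + 1)).x
    · apply Finset.mem_union_left
      apply Finset.mem_union_right
      rw [hSa, Finset.mem_filter]
      exact ⟨hk, hkm', hR⟩
    · apply Finset.mem_union_right
      rw [hSc, Finset.mem_filter]
      refine ⟨hk, hkm', ?_, ?_⟩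
      · rcases Bounded_far hε hd0 with h | h | h
        · rw [sub_zero, abs_of_pos (hzone _ hkm).1] at h
          exact h
        · exact absurd h hR
        · exact absurd hy h
      · rcases Bounded_far hε hdF with h | h | h
        · exact h
        · exact absurd h hR
        · exact absurd hy h
  calc S.card ≤ (({0, m - 1} ∪ Sa) ∪ Sc).card := Finset.card_le_card hsub
    _ ≤ ({0, m - 1} ∪ Sa).card + Sc.card := Finset.card_union_le _ _
    _ ≤ (({0, m - 1} : Finset ℕ).card + Sa.card) + Sc.card :=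
        Nat.add_le_add_right (Finset.card_union_le _ _) _
    _ ≤ 2 + Na + Nc := by
        have : ({0, m - 1} : Finset ℕ).card ≤ 2 := Finset.card_le_two
        omega

def Bounded_ZF4 (s : St) : Prop := (0 < s.t ∧ s.t < aG) ∧ ‖s.x.1‖ < 4

theorem Bounded_aG_lt : aG < 0.30 := by unfold aG; norm_num

/-- in a chain that goes on, the first alternative of `step_ZF` holds -/
theorem Bounded_ZF_chain {s : St} (hP : Pr s) (h : Bounded_ZF4 s) (h' : 0 < (Fhat s).t)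
    (h'' : (Fhat s).t < aG) :
    (Fhat s).x = Lmap s.x ∧ Rsq s.x < 0.16 ^ 4 ∧ (Rsq s.x ≤ 0.14 ^ 4 → (Fhat s).t = gT s.t) := by
  rcases step_ZF hP h.1.1 h.1.2 h.2 with a | a | a
  · exact ⟨a.2.2.1, a.2.2.2.1, a.2.2.2.2⟩
  · exact absurd h'' (not_lt.2 a.1)
  · exfalso
    rcases a.1 with b | b
    · linarith
    · have := Bounded_aG_lt
      linarith

/-- chains near `p_f` / `p` -/
theorem outBdd_ZF : OutBdd fMap Pfix (AS fun s => 0 < s.t ∧ s.t < aG) := by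
  apply Bounded_of_lt_four
  show OutBdd fMap Pfix (AS Bounded_ZF4)
  apply (outBdd_reset.union outBdd_KN).of_epoch
  · rintro z ⟨s, hP, hQ, rfl⟩
    rw [fMap_dec hP hQ.2]
    rcases step_ZF hP hQ.1.1 hQ.1.2 hQ.2 with a | a | a
    · left
      refine Bounded_mem_AS (Pr_Fhat s) ⟨⟨a.1, a.2.1⟩, ?_⟩
      apply Bounded_norm_fst_lt_four
      rw [a.2.2.1, Rsq_Lmap]
      have := a.2.2.2.1
      norm_num at this ⊢
      linarith
    · exact Or.inr (Or.inl (Bounded_mem_AS (Pr_Fhat s) (Or.inr a.1)))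
    · exact Or.inr (Or.inr (Bounded_mem_AS (Pr_Fhat s) a))
  · intro ε hε
    obtain ⟨N, hN⟩ := Bounded_ZF_seg ε hε
    refine ⟨N, fun z m hz S hS => ?_⟩
    obtain ⟨σ, h1, h2⟩ := Bounded_seg (fun s (h : Bounded_ZF4 s) => h.2) hz
    apply hN σ m
    · intro k hk
      exact (h1 k hk).2.1.1
    · intro k hk
      obtain ⟨hP, hQ, _⟩ := h1 k (by omega)
      have hQ' := (h1 (k + 1) hk).2.1.1
      rw [h2 k hk] at hQ' ⊢
      obtain ⟨a, b, c⟩ := Bounded_ZF_chain hP hQ hQ'.1 hQ'.2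
      exact ⟨a, b, c, rfl⟩
    · intro k hk
      obtain ⟨hkm, hd⟩ := hS k hk
      rw [← (h1 k hkm).2.2]
      exact ⟨hkm, hd _ (by simp [Pfix]), hd _ (by simp [Pfix])⟩

theorem outBdd_ZB : OutBdd fMap Pfix (AS fun s => -(1 / 4) < s.t ∧ s.t < -(1 / 8)) := by
  refine Bounded_of_step (((outBdd_ZA.union outBdd_ZF).union outBdd_reset).union outBdd_KN)
    fun s hP hQ h4 => ?_
  rcases step_ZB hP hQ.1 hQ.2 h4 with ⟨a, _⟩ | a
  · rcases a.eq_or_lt with b | b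
    · exact Or.inl (Or.inl (Or.inl (Bounded_mem_AS (Pr_Fhat s) (by rw [← b]; norm_num))))
    rcases lt_or_ge (Fhat s).t aG with c | c
    · exact Or.inl (Or.inl (Or.inr (Bounded_mem_AS (Pr_Fhat s) ⟨b, c⟩)))
    · exact Or.inl (Or.inr (Bounded_mem_AS (Pr_Fhat s) (Or.inr c)))
  · exact Or.inr (Bounded_mem_AS (Pr_Fhat s) a)

theorem outBdd_proper : OutBdd fMap Pfix (AS fun _ => True) := by
  refine (((outBdd_reset.union outBdd_ZB).union outBdd_ZA).union outBdd_ZF).mono ?_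
  rintro z ⟨s, hP, _, rfl⟩
  rcases le_or_gt s.t (-(1 / 4)) with a | a
  · exact Or.inl (Or.inl (Or.inl (Bounded_mem_AS hP (Or.inl a))))
  rcases lt_or_ge s.t (-(1 / 8)) with b | b
  · exact Or.inl (Or.inl (Or.inr (Bounded_mem_AS hP ⟨a, b⟩)))
  rcases le_or_gt s.t 0 with c | c
  · exact Or.inl (Or.inr (Bounded_mem_AS hP ⟨b, c⟩))
  rcases lt_or_ge s.t aG with d | d
  · exact Or.inr (Bounded_mem_AS hP ⟨c, d⟩)
  · exact Or.inl (Or.inl (Or.inl (Bounded_mem_AS hP (Or.inr d))))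

theorem outBdd_univ : OutBdd fMap Pfix Set.univ := by
  apply (outBdd_proper.union outBdd_SC).of_step
  intro z _
  rcases lt_or_ge ((z.2 0).1 2) (15 / 17) with h | h
  · rw [fMap_eq_dec z h]
    exact Or.inl (Bounded_mem_AS (Pr_Fhat _) trivial)
  · rw [fMap_eq_decS z h]
    exact Or.inr (Bounded_decS_mem _)

/-! ### hygiene (rule 6, lemmas written on demand): the equation lemmas of the definitions of this
file are realised here once -/
theorem Bounded_hyg : True := by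
  have := @Pfix.eq_1
  have := @AS.eq_1
  have := @SC.eq_1
  have := @Bounded_KNs.eq_1
  have := @Bounded_KNm.eq_1
  have := @Bounded_ZAs.eq_1
  have := @Bounded_ZAw.eq_1
  have := @Bounded_ZAb.eq_1
  have := @Bounded_ZF4.eq_1
  trivial

end Claimed.Agent.R082
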