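import Claimed.Prelude.Def_0146

/-!
# Row 82 homology package: functoriality, homotopy invariance, trivial spaces
Blueprint: `docs/R082_homology.md` on branch `origin/helper82`.
-/

set_option autoImplicit false

open Claims Claims.C0146 Claims.C0146.Problem340
open CategoryTheory

namespace Claimed.Agent.R082

section HBasic

variable {X Y Z : Type} [TopologicalSpace X] [TopologicalSpace Y] [TopologicalSpace Z]

theorem realHomologyMap_id (n : ℕ) :
    realHomologyMap n (id : X → X) continuous_id = LinearMap.id := by
  have h : TopCat.ofHom (continuousMapOf (id : X → X) continuous_id) = 𝟙 (TopCat.of X) := rfl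
  unfold realHomologyMap
  rw [h, CategoryTheory.Functor.map_id]
  rfl

theorem realHomologyMap_comp (n : ℕ) (f : X → Y) (g : Y → Z) (hf : Continuous f)
    (hg : Continuous g) :
    realHomologyMap n (g ∘ f) (hg.comp hf) = (realHomologyMap n g hg) ∘ₗ (realHomologyMap n f hf) := by
  have h : TopCat.ofHom (continuousMapOf (g ∘ f) (hg.comp hf)) =
      TopCat.ofHom (continuousMapOf f hf) ≫ TopCat.ofHom (continuousMapOf g hg) := rfl
  unfold realHomologyMap
  rw [h, CategoryTheory.Functor.map_comp]
  rfl

theorem realHomologyMap_congr_homotopic (n : ℕ) (f g : X → Y) (hf : Continuous f)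
    (hg : Continuous g) (h : ContinuousMap.Homotopic ⟨f, hf⟩ ⟨g, hg⟩) :
    realHomologyMap n f hf = realHomologyMap n g hg := by
  obtain ⟨H⟩ := h
  have H' : TopCat.Homotopy (TopCat.ofHom (continuousMapOf f hf))
      (TopCat.ofHom (continuousMapOf g hg)) := H
  have h1 := H'.congr_homologyMap_singularChainComplexFunctor (ModuleCat.of ℝ ℝ) n
  unfold realHomologyMap
  exact congrArg ModuleCat.Hom.hom h1

/-- a contractible space: the map to the point is injective on homology -/
private theorem HBasic_injective_of_contractible [ContractibleSpace X] (n : ℕ) :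
    ∃ φ : RealSingularHomology n X →ₗ[ℝ] RealSingularHomology n Unit, Function.Injective φ := by
  obtain ⟨e⟩ := ContractibleSpace.hequiv_unit' (X := X)
  refine ⟨realHomologyMap n e.toFun e.toFun.continuous, ?_⟩
  have h1 : realHomologyMap n (e.invFun ∘ e.toFun) (e.invFun.continuous.comp e.toFun.continuous) =
      realHomologyMap n (id : X → X) continuous_id :=
    realHomologyMap_congr_homotopic n _ _ _ _ e.left_inv
  rw [realHomologyMap_comp n _ _ e.toFun.continuous e.invFun.continuous, realHomologyMap_id] at h1
  intro u v huv
  have h2 := congrArg (realHomologyMap n e.invFun e.invFun.continuous) huv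
  have h3 : ∀ w, realHomologyMap n e.invFun e.invFun.continuous
      (realHomologyMap n e.toFun e.toFun.continuous w) = w := fun w => LinearMap.congr_fun h1 w
  rwa [h3, h3] at h2

theorem subsingleton_homology_of_contractible [ContractibleSpace X] (n : ℕ) (hn : n ≠ 0) :
    Subsingleton (RealSingularHomology n X) := by
  obtain ⟨φ, hφ⟩ := HBasic_injective_of_contractible (X := X) n
  have hz : Limits.IsZero (RealSingularHomology n Unit) :=
    AlgebraicTopology.isZero_singularHomologyFunctor_of_totallyDisconnectedSpace
      (ModuleCat ℝ) n (ModuleCat.of ℝ ℝ) (TopCat.of Unit) hn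
  have : Subsingleton (RealSingularHomology n Unit) := ModuleCat.subsingleton_of_isZero hz
  exact hφ.subsingleton

theorem finite_homology_zero_of_contractible [ContractibleSpace X] :
    Module.Finite ℝ (RealSingularHomology 0 X) := by
  obtain ⟨φ, hφ⟩ := HBasic_injective_of_contractible (X := X) 0
  have e1 : RealSingularHomology 0 Unit ≅ ModuleCat.of ℝ ℝ :=
    AlgebraicTopology.singularHomologyFunctorZeroOfTotallyDisconnectedSpace
      (ModuleCat ℝ) (ModuleCat.of ℝ ℝ) (TopCat.of Unit) ≪≫
      Limits.coproductUniqueIso (fun _ : (TopCat.of Unit) => ModuleCat.of ℝ ℝ)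
  have : Module.Finite ℝ (RealSingularHomology 0 Unit) :=
    Module.Finite.equiv e1.toLinearEquiv.symm
  exact Module.Finite.of_injective φ hφ

theorem subsingleton_homology_of_isEmpty [IsEmpty X] (n : ℕ) :
    Subsingleton (RealSingularHomology n X) := by
  have : TotallyDisconnectedSpace (TopCat.of X) :=
    inferInstanceAs (TotallyDisconnectedSpace X)
  by_cases hn : n = 0
  · subst hn
    have e1 := AlgebraicTopology.singularHomologyFunctorZeroOfTotallyDisconnectedSpace
      (ModuleCat ℝ) (ModuleCat.of ℝ ℝ) (TopCat.of X)
    have hz : Limits.IsZero (∐ fun _ : (TopCat.of X) => ModuleCat.of ℝ ℝ) := by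
      rw [Limits.IsZero.iff_id_eq_zero]
      apply Limits.Sigma.hom_ext
      intro b
      exact (IsEmpty.false (α := X) b).elim
    exact ModuleCat.subsingleton_of_isZero (hz.of_iso e1)
  · exact ModuleCat.subsingleton_of_isZero
      (AlgebraicTopology.isZero_singularHomologyFunctor_of_totallyDisconnectedSpace
        (ModuleCat ℝ) n (ModuleCat.of ℝ ℝ) (TopCat.of X) hn)

end HBasic

end Claimed.Agent.R082
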