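import Claimed.Agent.R082.HCover

/-!
# Row 82 homology package: boundedness of the eigen-moduli (target T1)
Blueprint: `docs/R082_homology.md` on branch `origin/helper82`.
-/

set_option autoImplicit false

open Claims Claims.C0146 Claims.C0146.Problem340
open CategoryTheory

namespace Claimed.Agent.R082

/-- the identity `‖a u - b v‖² + ‖b u + a v‖² = (a² + b²)(‖u‖² + ‖v‖²)` -/
theorem HEigen_norm_identity {E : Type*} [NormedAddCommGroup E] [InnerProductSpace ℝ E]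
    (a b : ℝ) (u v : E) :
    ‖a • u - b • v‖ ^ 2 + ‖b • u + a • v‖ ^ 2 = (a ^ 2 + b ^ 2) * (‖u‖ ^ 2 + ‖v‖ ^ 2) := by
  rw [norm_sub_sq_real, norm_add_sq_real, norm_smul, norm_smul, norm_smul, norm_smul,
    real_inner_smul_left, real_inner_smul_right, real_inner_smul_left, real_inner_smul_right,
    mul_pow, mul_pow, mul_pow, mul_pow, Real.norm_eq_abs, Real.norm_eq_abs, sq_abs, sq_abs]
  ring

/-- the Euclidean case -/
theorem HEigen_bound_euclidean {E : Type*} [NormedAddCommGroup E] [InnerProductSpace ℝ E]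
    (ψ : E →L[ℝ] E) {a b : ℝ} {u v : E} (h0 : u ≠ 0 ∨ v ≠ 0) (hu : ψ u = a • u - b • v)
    (hv : ψ v = b • u + a • v) : Real.sqrt (a ^ 2 + b ^ 2) ≤ ‖ψ‖ := by
  have hpos : 0 < ‖u‖ ^ 2 + ‖v‖ ^ 2 := by
    rcases h0 with h | h
    · have : 0 < ‖u‖ := norm_pos_iff.2 h
      positivity
    · have : 0 < ‖v‖ := norm_pos_iff.2 h
      positivity
  have h1 : ‖ψ u‖ ^ 2 ≤ (‖ψ‖ * ‖u‖) ^ 2 := pow_le_pow_left₀ (norm_nonneg _) (ψ.le_opNorm u) 2
  have h2 : ‖ψ v‖ ^ 2 ≤ (‖ψ‖ * ‖v‖) ^ 2 := pow_le_pow_left₀ (norm_nonneg _) (ψ.le_opNorm v) 2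
  have h3 := HEigen_norm_identity a b u v
  rw [← hu, ← hv] at h3
  have h4 : (a ^ 2 + b ^ 2) * (‖u‖ ^ 2 + ‖v‖ ^ 2) ≤ ‖ψ‖ ^ 2 * (‖u‖ ^ 2 + ‖v‖ ^ 2) := by
    rw [← h3]
    nlinarith
  have h5 : a ^ 2 + b ^ 2 ≤ ‖ψ‖ ^ 2 := le_of_mul_le_mul_right h4 hpos
  calc Real.sqrt (a ^ 2 + b ^ 2) ≤ Real.sqrt (‖ψ‖ ^ 2) := Real.sqrt_le_sqrt h5
    _ = ‖ψ‖ := Real.sqrt_sq (norm_nonneg _)

/-- linear algebra: eigen-moduli of an endomorphism of a finite-dimensional real space -/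
theorem bddAbove_eigenmoduli_of_finite {W : Type*} [AddCommGroup W] [Module ℝ W]
    [Module.Finite ℝ W] (φ : W →ₗ[ℝ] W) :
    BddAbove {r : ℝ | ∃ a b : ℝ, ∃ u v : W, (u ≠ 0 ∨ v ≠ 0) ∧ φ u = a • u - b • v ∧
      φ v = b • u + a • v ∧ r = Real.sqrt (a ^ 2 + b ^ 2)} := by
  obtain ⟨e⟩ : Nonempty (W ≃ₗ[ℝ] EuclideanSpace ℝ (Fin (Module.finrank ℝ W))) :=
    ⟨(Module.finBasis ℝ W).equivFun.trans
      (WithLp.linearEquiv 2 ℝ (Fin (Module.finrank ℝ W) → ℝ)).symm⟩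
  refine ⟨‖LinearMap.toContinuousLinearMap
    ((e.toLinearMap.comp φ).comp e.symm.toLinearMap)‖, ?_⟩
  rintro r ⟨a, b, u, v, h0, hu, hv, rfl⟩
  refine HEigen_bound_euclidean _ (u := e u) (v := e v) ?_ ?_ ?_
  · rcases h0 with h | h
    · exact Or.inl fun h' => h (e.map_eq_zero_iff.1 h')
    · exact Or.inr fun h' => h (e.map_eq_zero_iff.1 h')
  · show e (φ (e.symm (e u))) = _
    rw [e.symm_apply_apply, hu, map_sub, map_smul, map_smul]
  · show e (φ (e.symm (e v))) = _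
    rw [e.symm_apply_apply, hv, map_add, map_smul, map_smul]

/-- (H-A) -/
theorem bddAbove_eigenmoduli (q : ℕ) (f : CounterexampleManifold q → CounterexampleManifold q)
    (hf : Continuous f) :
    BddAbove {r : ℝ |
    ∃ n : ℕ, ∃ a b : ℝ,
      ∃ u v : RealSingularHomology n (CounterexampleManifold q),
        (u ≠ 0 ∨ v ≠ 0) ∧
        realHomologyMap n f hf u = a • u - b • v ∧
        realHomologyMap n f hf v = b • u + a • v ∧
        r = Real.sqrt (a ^ 2 + b ^ 2)} := by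
  obtain ⟨hfin, N, hN⟩ := FV_counterexampleManifold q
  have hB : ∀ n : ℕ, ∃ B : ℝ, ∀ r : ℝ, (∃ a b : ℝ,
      ∃ u v : RealSingularHomology n (CounterexampleManifold q),
        (u ≠ 0 ∨ v ≠ 0) ∧
        realHomologyMap n f hf u = a • u - b • v ∧
        realHomologyMap n f hf v = b • u + a • v ∧
        r = Real.sqrt (a ^ 2 + b ^ 2)) → r ≤ B := by
    intro n
    have := hfin n
    obtain ⟨B, hB⟩ := bddAbove_eigenmoduli_of_finite (realHomologyMap n f hf)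
    exact ⟨B, fun r hr => hB hr⟩
  choose B hB using hB
  refine ⟨∑ n ∈ Finset.range N, |B n|, ?_⟩
  rintro r ⟨n, a, b, u, v, h0, hu, hv, hr⟩
  by_cases hn : n < N
  · calc r ≤ B n := hB n r ⟨a, b, u, v, h0, hu, hv, hr⟩
      _ ≤ |B n| := le_abs_self _
      _ ≤ ∑ n ∈ Finset.range N, |B n| :=
        Finset.single_le_sum (f := fun n => |B n|) (fun i _ => abs_nonneg _)
          (Finset.mem_range.2 hn)
  · exfalso
    have := hN n (not_lt.1 hn)
    rcases h0 with h | h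
    · exact h (Subsingleton.elim _ _)
    · exact h (Subsingleton.elim _ _)

end Claimed.Agent.R082
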