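import Claimed.Agent.R082.HBridge

/-!
# Row 82 homology package: the squaring map of `S²` and the class in `H₁(S² \ {N, S})`
Blueprint: `docs/R082_homology.md` §7 on branch `origin/helper82`.
-/

set_option autoImplicit false

open Claims Claims.C0146 Claims.C0146.Problem340
open CategoryTheory

namespace Claimed.Agent.R082

/-- the squaring map of the sphere: in the stereographic coordinate from the north pole
`e₂`, `z = (u 0 + i u 1) / (1 - u 2)`, it is `z ↦ z ^ 2`. -/
noncomputable def sqAmb (u : SphereAmbient) : SphereAmbient :=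
  !₂[(u 0 ^ 2 - u 1 ^ 2) / (1 + u 2 ^ 2), 2 * u 0 * u 1 / (1 + u 2 ^ 2), 2 * u 2 / (1 + u 2 ^ 2)]

theorem HCircle_mem_iff (v : SphereAmbient) :
    v ∈ Metric.sphere (0 : SphereAmbient) (1 : ℝ) ↔ v 0 ^ 2 + v 1 ^ 2 + v 2 ^ 2 = 1 := by
  rw [mem_sphere_zero_iff_norm, EuclideanSpace.norm_eq, Real.sqrt_eq_one, Fin.sum_univ_three]
  simp only [Real.norm_eq_abs, sq_abs]

theorem HCircle_sphere_eq (u : StandardSphere2) : u.1 0 ^ 2 + u.1 1 ^ 2 + u.1 2 ^ 2 = 1 :=
  (HCircle_mem_iff u.1).1 u.2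

theorem sqAmb_mem (u : StandardSphere2) : sqAmb u.1 ∈ Metric.sphere (0 : SphereAmbient) (1 : ℝ) := by
  have hu := HCircle_sphere_eq u
  rw [HCircle_mem_iff]
  have h0 : sqAmb u.1 0 = (u.1 0 ^ 2 - u.1 1 ^ 2) / (1 + u.1 2 ^ 2) := rfl
  have h1 : sqAmb u.1 1 = 2 * u.1 0 * u.1 1 / (1 + u.1 2 ^ 2) := rfl
  have h2 : sqAmb u.1 2 = 2 * u.1 2 / (1 + u.1 2 ^ 2) := rfl
  rw [h0, h1, h2]
  have hpos : (1 + u.1 2 ^ 2) ≠ 0 := by positivity
  have e : u.1 0 ^ 2 = 1 - u.1 1 ^ 2 - u.1 2 ^ 2 := by linarith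
  field_simp
  rw [e]
  ring

noncomputable def sq (u : StandardSphere2) : StandardSphere2 := ⟨sqAmb u.1, sqAmb_mem u⟩

theorem HCircle_continuous_mk {X : Type} [TopologicalSpace X] {a b c : X → ℝ} (ha : Continuous a)
    (hb : Continuous b) (hc : Continuous c) :
    Continuous (fun x => (!₂[a x, b x, c x] : SphereAmbient)) := by
  refine (PiLp.continuous_toLp 2 _).comp (continuous_pi fun i => ?_)
  fin_cases i
  · exact ha
  · exact hb
  · exact hc

theorem HCircle_continuous_coord (i : Fin 3) : Continuous (fun u : SphereAmbient => u i) :=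
  (EuclideanSpace.proj i).continuous

theorem continuous_sq : Continuous sq := by
  refine Continuous.subtype_mk ?_ _
  have c0 : Continuous (fun u : StandardSphere2 => u.1 0) :=
    (HCircle_continuous_coord 0).comp continuous_subtype_val
  have c1 : Continuous (fun u : StandardSphere2 => u.1 1) :=
    (HCircle_continuous_coord 1).comp continuous_subtype_val
  have c2 : Continuous (fun u : StandardSphere2 => u.1 2) :=
    (HCircle_continuous_coord 2).comp continuous_subtype_val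
  have hne : ∀ u : StandardSphere2, (1 + u.1 2 ^ 2) ≠ 0 := fun u => by positivity
  unfold sqAmb
  exact HCircle_continuous_mk (((c0.pow 2).sub (c1.pow 2)).div (continuous_const.add (c2.pow 2)) hne)
    (((continuous_const.mul c0).mul c1).div (continuous_const.add (c2.pow 2)) hne)
    ((continuous_const.mul c2).div (continuous_const.add (c2.pow 2)) hne)

/-- complement of the north pole -/
def sphU : Set StandardSphere2 := {u | u.1 2 < 1}

/-- complement of the south pole -/
def sphV : Set StandardSphere2 := {u | -1 < u.1 2}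

theorem isOpen_sphU : IsOpen sphU :=
  isOpen_lt ((HCircle_continuous_coord 2).comp continuous_subtype_val) continuous_const

theorem isOpen_sphV : IsOpen sphV :=
  isOpen_lt continuous_const ((HCircle_continuous_coord 2).comp continuous_subtype_val)

theorem sphU_union_sphV : sphU ∪ sphV = Set.univ := by
  ext u
  simp only [Set.mem_union, Set.mem_univ, iff_true]
  rcases lt_or_ge (u.1 2) 1 with h | h
  · exact Or.inl h
  · exact Or.inr (show -1 < u.1 2 by linarith)

theorem sq_mapsTo_sphU : Set.MapsTo sq sphU sphU := by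
  intro u hu
  have hu' : u.1 2 < 1 := hu
  show 2 * u.1 2 / (1 + u.1 2 ^ 2) < 1
  rw [div_lt_one (by positivity)]
  nlinarith [sq_pos_of_pos (sub_pos.2 hu')]

theorem sq_mapsTo_sphV : Set.MapsTo sq sphV sphV := by
  intro u hu
  have hu' : -1 < u.1 2 := hu
  show -1 < 2 * u.1 2 / (1 + u.1 2 ^ 2)
  rw [lt_div_iff₀ (by positivity)]
  nlinarith [sq_pos_of_pos (show 0 < u.1 2 + 1 by linarith)]

/-! ### the equator -/

theorem HCircle_eqAmb_mem (θ : ℝ) :
    (!₂[Real.cos θ, Real.sin θ, 0] : SphereAmbient) ∈ Metric.sphere (0 : SphereAmbient) (1 : ℝ) := by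
  rw [HCircle_mem_iff]
  show Real.cos θ ^ 2 + Real.sin θ ^ 2 + (0 : ℝ) ^ 2 = 1
  have := Real.cos_sq_add_sin_sq θ
  nlinarith

/-- the point of the equator of angle `θ` -/
noncomputable def HCircle_eq (θ : ℝ) : ↥(sphU ∩ sphV) :=
  ⟨⟨!₂[Real.cos θ, Real.sin θ, 0], HCircle_eqAmb_mem θ⟩,
    ⟨show (0 : ℝ) < 1 by norm_num, show (-1 : ℝ) < 0 by norm_num⟩⟩

theorem HCircle_continuous_eq : Continuous HCircle_eq :=
  Continuous.subtype_mk (Continuous.subtype_mk
    (HCircle_continuous_mk Real.continuous_cos Real.continuous_sin continuous_const) _) _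

theorem HCircle_eq_add (θ : ℝ) : HCircle_eq (θ + 2 * Real.pi) = HCircle_eq θ := by
  unfold HCircle_eq
  simp only [Real.cos_add_two_pi, Real.sin_add_two_pi]

/-- the restricted squaring map -/
noncomputable def HCircle_sqR : C(↥(sphU ∩ sphV), ↥(sphU ∩ sphV)) :=
  ⟨Set.MapsTo.restrict sq (sphU ∩ sphV) (sphU ∩ sphV)
    (sq_mapsTo_sphU.inter_inter sq_mapsTo_sphV), continuous_sq.restrict _⟩

theorem HCircle_sqR_eq (θ : ℝ) : HCircle_sqR (HCircle_eq θ) = HCircle_eq (2 * θ) := by
  apply Subtype.ext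
  apply Subtype.ext
  show sqAmb !₂[Real.cos θ, Real.sin θ, 0] = !₂[Real.cos (2 * θ), Real.sin (2 * θ), 0]
  have h := Real.cos_sq_add_sin_sq θ
  have e0 : (Real.cos θ ^ 2 - Real.sin θ ^ 2) / (1 + (0 : ℝ) ^ 2) = Real.cos (2 * θ) := by
    rw [Real.cos_two_mul]
    norm_num
    linarith
  have e1 : 2 * Real.cos θ * Real.sin θ / (1 + (0 : ℝ) ^ 2) = Real.sin (2 * θ) := by
    rw [Real.sin_two_mul]
    norm_num
    ring
  have e2 : 2 * (0 : ℝ) / (1 + (0 : ℝ) ^ 2) = 0 := by norm_num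
  show (!₂[(Real.cos θ ^ 2 - Real.sin θ ^ 2) / (1 + (0 : ℝ) ^ 2),
    2 * Real.cos θ * Real.sin θ / (1 + (0 : ℝ) ^ 2), 2 * (0 : ℝ) / (1 + (0 : ℝ) ^ 2)] : SphereAmbient) = _
  rw [e0, e1, e2]

theorem HCircle_continuous_sx {n : ℕ} (i : Fin (n + 1)) : Continuous (fun t : Sx n => t i) :=
  (continuous_apply i).comp continuous_subtype_val

/-- the equatorial loop -/
noncomputable def HCircle_sig : C(Sx 1, ↥(sphU ∩ sphV)) :=
  ⟨fun t => HCircle_eq (2 * Real.pi * t 1),
    HCircle_continuous_eq.comp (continuous_const.mul (HCircle_continuous_sx 1))⟩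

/-- the `2`-simplex with boundary `2 σ - sq ∘ σ` -/
noncomputable def HCircle_tau : C(Sx 2, ↥(sphU ∩ sphV)) :=
  ⟨fun t => HCircle_eq (2 * Real.pi * (t 1 + 2 * t 2)),
    HCircle_continuous_eq.comp (continuous_const.mul
      ((HCircle_continuous_sx 1).add (continuous_const.mul (HCircle_continuous_sx 2))))⟩

theorem HCircle_face_apply (n : ℕ) (i : Fin (n + 2)) (s : Sx n) (y : Fin (n + 2)) :
    (face n i s) y = ∑ x : Fin (n + 1), if i.succAbove x = y then s x else 0 := by
  show FunOnFinite.linearMap ℝ ℝ (Fin.succAbove i) s y = _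
  rw [FunOnFinite.linearMap_apply_apply, Finset.sum_filter]

theorem HCircle_face0_apply (i : Fin 2) (s : Sx 0) (y : Fin 2) :
    (face 0 i s) y = if i.succAbove 0 = y then s 0 else 0 := by
  rw [HCircle_face_apply]
  exact Fin.sum_univ_one _

theorem HCircle_face1_apply (i : Fin 3) (s : Sx 1) (y : Fin 3) :
    (face 1 i s) y = (if i.succAbove 0 = y then s 0 else 0) +
      (if i.succAbove 1 = y then s 1 else 0) := by
  rw [HCircle_face_apply]
  exact Fin.sum_univ_two _

theorem HCircle_bd_single {X : Type} [TopologicalSpace X] (n : ℕ) (ρ : C(Sx (n + 1), X)) (r : ℝ) :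
    bd n (Finsupp.single ρ r) =
      r • ∑ i : Fin (n + 2), (-1 : ℝ) ^ (i : ℕ) • Finsupp.single (ρ.comp (face n i)) (1 : ℝ) := by
  show Finsupp.lsum ℝ (fun σ : C(Sx (n + 1), X) =>
    LinearMap.toSpanSingleton ℝ (Ch n X)
      (∑ i : Fin (n + 2), (-1 : ℝ) ^ (i : ℕ) • Finsupp.single (σ.comp (face n i)) (1 : ℝ)))
      (Finsupp.single ρ r) = _
  rw [Finsupp.lsum_single, LinearMap.toSpanSingleton_apply]

theorem HCircle_sig_face : HCircle_sig.comp (face 0 0) = HCircle_sig.comp (face 0 1) := by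
  ext1 s
  show HCircle_eq (2 * Real.pi * (face 0 0 s) 1) = HCircle_eq (2 * Real.pi * (face 0 1 s) 1)
  rw [HCircle_face0_apply, HCircle_face0_apply]
  have hs : s 0 = 1 := stdSimplex.eq_one_of_unique (X := Fin 1) s 0
  rw [hs]
  have a1 : (Fin.succAbove (0 : Fin 2) (0 : Fin 1)) = 1 := by decide
  have a2 : (Fin.succAbove (1 : Fin 2) (0 : Fin 1)) ≠ 1 := by decide
  rw [if_pos a1, if_neg a2]
  have := HCircle_eq_add 0
  simpa using this

theorem HCircle_bd_sig : bd 0 (Finsupp.single HCircle_sig (1 : ℝ)) = 0 := by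
  rw [HCircle_bd_single, Fin.sum_univ_two, HCircle_sig_face]
  simp

theorem HCircle_tau_face0 : HCircle_tau.comp (face 1 0) = HCircle_sig := by
  ext1 s
  show HCircle_eq (2 * Real.pi * ((face 1 0 s) 1 + 2 * (face 1 0 s) 2)) = HCircle_eq (2 * Real.pi * s 1)
  rw [HCircle_face1_apply, HCircle_face1_apply]
  have a1 : (Fin.succAbove (0 : Fin 3) (0 : Fin 2)) = 1 := by decide
  have a2 : (Fin.succAbove (0 : Fin 3) (1 : Fin 2)) ≠ 1 := by decide
  have a3 : (Fin.succAbove (0 : Fin 3) (0 : Fin 2)) ≠ 2 := by decide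
  have a4 : (Fin.succAbove (0 : Fin 3) (1 : Fin 2)) = 2 := by decide
  rw [if_pos a1, if_neg a2, if_neg a3, if_pos a4]
  have hs := stdSimplex.add_eq_one s
  rw [← HCircle_eq_add (2 * Real.pi * s 1)]
  congr 1
  have : s 0 = 1 - s 1 := by linarith
  rw [this]
  ring

theorem HCircle_tau_face1 : HCircle_tau.comp (face 1 1) = HCircle_sqR.comp HCircle_sig := by
  ext1 s
  show HCircle_eq (2 * Real.pi * ((face 1 1 s) 1 + 2 * (face 1 1 s) 2)) =
    HCircle_sqR (HCircle_eq (2 * Real.pi * s 1))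
  rw [HCircle_face1_apply, HCircle_face1_apply, HCircle_sqR_eq]
  have a1 : (Fin.succAbove (1 : Fin 3) (0 : Fin 2)) ≠ 1 := by decide
  have a2 : (Fin.succAbove (1 : Fin 3) (1 : Fin 2)) ≠ 1 := by decide
  have a3 : (Fin.succAbove (1 : Fin 3) (0 : Fin 2)) ≠ 2 := by decide
  have a4 : (Fin.succAbove (1 : Fin 3) (1 : Fin 2)) = 2 := by decide
  rw [if_neg a1, if_neg a2, if_neg a3, if_pos a4]
  congr 1
  ring

theorem HCircle_tau_face2 : HCircle_tau.comp (face 1 2) = HCircle_sig := by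
  ext1 s
  show HCircle_eq (2 * Real.pi * ((face 1 2 s) 1 + 2 * (face 1 2 s) 2)) = HCircle_eq (2 * Real.pi * s 1)
  rw [HCircle_face1_apply, HCircle_face1_apply]
  have a1 : (Fin.succAbove (2 : Fin 3) (0 : Fin 2)) ≠ 1 := by decide
  have a2 : (Fin.succAbove (2 : Fin 3) (1 : Fin 2)) = 1 := by decide
  have a3 : (Fin.succAbove (2 : Fin 3) (0 : Fin 2)) ≠ 2 := by decide
  have a4 : (Fin.succAbove (2 : Fin 3) (1 : Fin 2)) ≠ 2 := by decide
  rw [if_neg a1, if_pos a2, if_neg a3, if_neg a4]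
  congr 1
  ring

theorem HCircle_bd_tau : bd 1 (Finsupp.single HCircle_tau (1 : ℝ)) =
    (2 : ℝ) • Finsupp.single HCircle_sig (1 : ℝ) -
      Finsupp.single (HCircle_sqR.comp HCircle_sig) (1 : ℝ) := by
  rw [HCircle_bd_single, Fin.sum_univ_three, HCircle_tau_face0, HCircle_tau_face1,
    HCircle_tau_face2]
  simp only [Fin.val_zero, Fin.val_one, Fin.val_two, pow_zero, pow_one, one_smul]
  rw [two_smul]
  norm_num
  abel

theorem HCircle_push_sig : push 1 HCircle_sqR (Finsupp.single HCircle_sig (1 : ℝ)) =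
    Finsupp.single (HCircle_sqR.comp HCircle_sig) (1 : ℝ) := by
  show Finsupp.lmapDomain ℝ ℝ (fun σ : C(Sx 1, ↥(sphU ∩ sphV)) => HCircle_sqR.comp σ)
    (Finsupp.single HCircle_sig (1 : ℝ)) = _
  rw [Finsupp.lmapDomain_apply, Finsupp.mapDomain_single]

/-! ### lifts through `Circle.exp` and the winding functional -/

theorem HCircle_exists_lift {X : Type} [TopologicalSpace X] [ContractibleSpace X]
    (g : C(X, Circle)) : ∃ G : C(X, ℝ), ∀ x, Circle.exp (G x) = g x := by
  obtain ⟨y, ⟨F⟩⟩ := id_nullhomotopic X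
  obtain ⟨θ, hθ⟩ := Circle.exp_surjective (g y)
  let H : C(unitInterval × X, Circle) := g.comp F.symm.toContinuousMap
  have H0 : ∀ a, H (0, a) = Circle.exp ((ContinuousMap.const X θ) a) := by
    intro a
    show g (F.symm (0, a)) = Circle.exp θ
    rw [F.symm.apply_zero, hθ]
    rfl
  refine ⟨(Circle.isCoveringMap_exp.liftHomotopy H (ContinuousMap.const X θ) H0).comp
    ((ContinuousMap.const X 1).prodMk (ContinuousMap.id X)), fun x => ?_⟩
  have h1 := congr_fun (Circle.isCoveringMap_exp.liftHomotopy_lifts H _ H0) (1, x)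
  have h2 : H (1, x) = g x := by
    show g (F.symm (1, x)) = g x
    rw [F.symm.apply_one]
    rfl
  rw [← h2, ← h1]
  rfl

theorem HCircle_lift_sub {X : Type} [TopologicalSpace X] [PreconnectedSpace X] (G₁ G₂ : C(X, ℝ))
    (h : ∀ x, Circle.exp (G₁ x) = Circle.exp (G₂ x)) (x y : X) :
    G₁ x - G₁ y = G₂ x - G₂ y := by
  have key : (G₁ : X → ℝ) = fun z => G₂ z + (G₁ y - G₂ y) := by
    refine Circle.isCoveringMap_exp.eq_of_comp_eq G₁.continuous
      (G₂.continuous.add continuous_const) ?_ y (by ring)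
    funext z
    show Circle.exp (G₁ z) = Circle.exp (G₂ z + (G₁ y - G₂ y))
    rw [Circle.exp_add, Circle.exp_sub, h y, div_self', mul_one, h z]
  have : G₁ x = G₂ x + (G₁ y - G₂ y) := congr_fun key x
  linarith

instance HCircle_contractible (n : ℕ) : ContractibleSpace (Sx n) :=
  (convex_stdSimplex ℝ (Fin (n + 1))).contractibleSpace ⟨_, (stdSimplex.vertex (S := ℝ) (0 : Fin (n + 1))).2⟩

/-- the horizontal coordinate -/
noncomputable def HCircle_z (u : ↥(sphU ∩ sphV)) : ℂ := ⟨u.1.1 0, u.1.1 1⟩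

theorem HCircle_z_ne (u : ↥(sphU ∩ sphV)) : HCircle_z u ≠ 0 := by
  intro h
  have h0 : u.1.1 0 = 0 := congrArg Complex.re h
  have h1 : u.1.1 1 = 0 := congrArg Complex.im h
  have hs := HCircle_sphere_eq u.1
  have hU : u.1.1 2 < 1 := u.2.1
  have hV : -1 < u.1.1 2 := u.2.2
  rw [h0, h1] at hs
  nlinarith

theorem HCircle_continuous_z : Continuous HCircle_z := by
  have c0 : Continuous (fun u : ↥(sphU ∩ sphV) => u.1.1 0) :=
    (HCircle_continuous_coord 0).comp (continuous_subtype_val.comp continuous_subtype_val)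
  have c1 : Continuous (fun u : ↥(sphU ∩ sphV) => u.1.1 1) :=
    (HCircle_continuous_coord 1).comp (continuous_subtype_val.comp continuous_subtype_val)
  have : HCircle_z = fun u => ((u.1.1 0 : ℝ) : ℂ) + ((u.1.1 1 : ℝ) : ℂ) * Complex.I := by
    funext u
    apply Complex.ext <;> simp [HCircle_z]
  rw [this]
  exact (Complex.continuous_ofReal.comp c0).add
    ((Complex.continuous_ofReal.comp c1).mul continuous_const)

/-- the angular map (of degree `-2` on the equator) -/
noncomputable def HCircle_arg : C(↥(sphU ∩ sphV), Circle) where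
  toFun u := Circle.ofConjDivSelf (HCircle_z u) (HCircle_z_ne u)
  continuous_toFun := Continuous.subtype_mk
    ((Complex.continuous_conj.comp HCircle_continuous_z).div HCircle_continuous_z HCircle_z_ne) _

theorem HCircle_arg_eq (θ : ℝ) : HCircle_arg (HCircle_eq θ) = Circle.exp (-2 * θ) := by
  apply Circle.ext
  show (starRingEnd ℂ) (HCircle_z (HCircle_eq θ)) / HCircle_z (HCircle_eq θ) = _
  have hz : HCircle_z (HCircle_eq θ) = Complex.exp (θ * Complex.I) := by
    rw [Complex.exp_mul_I]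
    apply Complex.ext
    · simp [HCircle_z, HCircle_eq, ← Complex.ofReal_cos, ← Complex.ofReal_sin]
    · simp [HCircle_z, HCircle_eq, ← Complex.ofReal_cos, ← Complex.ofReal_sin]
  rw [hz, Circle.coe_exp, ← Complex.exp_conj, ← Complex.exp_sub]
  congr 1
  simp
  ring

/-- the winding number (times `-4π`) of a singular `1`-simplex -/
noncomputable def HCircle_wind (γ : C(Sx 1, ↥(sphU ∩ sphV))) : ℝ :=
  (HCircle_exists_lift (HCircle_arg.comp γ)).choose (stdSimplex.vertex 1) -
    (HCircle_exists_lift (HCircle_arg.comp γ)).choose (stdSimplex.vertex 0)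

theorem HCircle_wind_eq (γ : C(Sx 1, ↥(sphU ∩ sphV))) (G : C(Sx 1, ℝ))
    (hG : ∀ x, Circle.exp (G x) = HCircle_arg (γ x)) :
    HCircle_wind γ = G (stdSimplex.vertex 1) - G (stdSimplex.vertex 0) := by
  unfold HCircle_wind
  refine HCircle_lift_sub _ _ (fun x => ?_) _ _
  rw [(HCircle_exists_lift (HCircle_arg.comp γ)).choose_spec x, hG x]
  rfl

/-- the winding functional -/
noncomputable def HCircle_W : Ch 1 ↥(sphU ∩ sphV) →ₗ[ℝ] ℝ :=
  Finsupp.linearCombination ℝ HCircle_wind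

theorem HCircle_W_single (γ : C(Sx 1, ↥(sphU ∩ sphV))) (r : ℝ) :
    HCircle_W (Finsupp.single γ r) = r * HCircle_wind γ := by
  unfold HCircle_W
  rw [Finsupp.linearCombination_single, smul_eq_mul]

theorem HCircle_wind_face (ρ : C(Sx 2, ↥(sphU ∩ sphV))) (R : C(Sx 2, ℝ))
    (hR : ∀ x, Circle.exp (R x) = HCircle_arg (ρ x)) (i : Fin 3) :
    HCircle_wind (ρ.comp (face 1 i)) =
      R (stdSimplex.vertex (i.succAbove 1)) - R (stdSimplex.vertex (i.succAbove 0)) := by
  rw [HCircle_wind_eq (ρ.comp (face 1 i)) (R.comp (face 1 i)) (fun x => hR _)]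
  show R (stdSimplex.map (Fin.succAbove i) (stdSimplex.vertex 1)) -
    R (stdSimplex.map (Fin.succAbove i) (stdSimplex.vertex 0)) = _
  rw [stdSimplex.map_vertex, stdSimplex.map_vertex]

theorem HCircle_W_bd (e : Ch 2 ↥(sphU ∩ sphV)) : HCircle_W (bd 1 e) = 0 := by
  have : HCircle_W ∘ₗ (bd 1 : Ch 2 ↥(sphU ∩ sphV) →ₗ[ℝ] _) = 0 := by
    refine Finsupp.lhom_ext fun ρ r => ?_
    obtain ⟨R, hR⟩ := HCircle_exists_lift (HCircle_arg.comp ρ)
    rw [LinearMap.comp_apply, HCircle_bd_single, map_smul, map_sum, Fin.sum_univ_three]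
    simp only [map_smul, HCircle_W_single, HCircle_wind_face ρ R hR]
    have a1 : (Fin.succAbove (0 : Fin 3) (0 : Fin 2)) = 1 := by decide
    have a2 : (Fin.succAbove (0 : Fin 3) (1 : Fin 2)) = 2 := by decide
    have a3 : (Fin.succAbove (1 : Fin 3) (0 : Fin 2)) = 0 := by decide
    have a4 : (Fin.succAbove (1 : Fin 3) (1 : Fin 2)) = 2 := by decide
    have a5 : (Fin.succAbove (2 : Fin 3) (0 : Fin 2)) = 0 := by decide
    have a6 : (Fin.succAbove (2 : Fin 3) (1 : Fin 2)) = 1 := by decide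
    rw [a1, a2, a3, a4, a5, a6]
    simp only [Fin.val_zero, Fin.val_one, Fin.val_two, smul_eq_mul, LinearMap.zero_apply]
    ring
  exact LinearMap.congr_fun this e

theorem HCircle_wind_sig : HCircle_wind HCircle_sig = -4 * Real.pi := by
  rw [HCircle_wind_eq HCircle_sig
    ⟨fun t => -2 * (2 * Real.pi * t 1), continuous_const.mul (continuous_const.mul (HCircle_continuous_sx 1))⟩
    (fun x => (HCircle_arg_eq _).symm)]
  show -2 * (2 * Real.pi * (Pi.single (1 : Fin 2) (1 : ℝ) : Fin 2 → ℝ) 1) -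
    -2 * (2 * Real.pi * (Pi.single (0 : Fin 2) (1 : ℝ) : Fin 2 → ℝ) 1) = _
  simp
  ring

/-- the equatorial loop is a nonzero class which `sq` doubles -/
theorem exists_H1_class :
    ∃ c : RealSingularHomology 1 ↥(sphU ∩ sphV), c ≠ 0 ∧
      realHomologyMap 1
        (Set.MapsTo.restrict sq (sphU ∩ sphV) (sphU ∩ sphV)
          (sq_mapsTo_sphU.inter_inter sq_mapsTo_sphV))
        (continuous_sq.restrict _) c = (2 : ℝ) • c := by
  let z : LinearMap.ker (bd 0 : Ch 1 ↥(sphU ∩ sphV) →ₗ[ℝ] Ch 0 ↥(sphU ∩ sphV)) :=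
    ⟨Finsupp.single HCircle_sig (1 : ℝ), LinearMap.mem_ker.2 HCircle_bd_sig⟩
  refine ⟨cls 0 z, ?_, ?_⟩
  · intro h0
    obtain ⟨e, he⟩ := (cls_eq_zero_iff 0 z).1 h0
    have h1 := HCircle_W_bd e
    rw [he] at h1
    have h2 : HCircle_W (Finsupp.single HCircle_sig (1 : ℝ)) = 0 := h1
    rw [HCircle_W_single, HCircle_wind_sig] at h2
    have := Real.pi_pos
    linarith
  · have h1 := cls_push 0 HCircle_sqR z
    have h2 : realHomologyMap 1
        (Set.MapsTo.restrict sq (sphU ∩ sphV) (sphU ∩ sphV)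
          (sq_mapsTo_sphU.inter_inter sq_mapsTo_sphV))
        (continuous_sq.restrict _) (cls 0 z) =
        realHomologyMap (0 + 1) HCircle_sqR HCircle_sqR.continuous (cls 0 z) := rfl
    rw [h2, h1, ← sub_eq_zero, ← map_smul, ← map_sub, cls_eq_zero_iff]
    refine ⟨-Finsupp.single HCircle_tau (1 : ℝ), ?_⟩
    rw [map_neg, HCircle_bd_tau]
    show _ = push (0 + 1) HCircle_sqR (Finsupp.single HCircle_sig (1 : ℝ)) -
      (2 : ℝ) • Finsupp.single HCircle_sig (1 : ℝ)
    rw [HCircle_push_sig]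
    abel

/-! ### hygiene (rule 6, on-demand lemmas): the equation lemmas of the definitions of this file are realised HERE once. -/
theorem HCircle_hyg : True := by
  have := @sqAmb.eq_1
  have := @sq.eq_1
  have := @sphU.eq_1
  have := @sphV.eq_1
  have := @HCircle_eq.eq_1
  have := @HCircle_sqR.eq_1
  have := @HCircle_sig.eq_1
  have := @HCircle_tau.eq_1
  have := @HCircle_z.eq_1
  have := @HCircle_arg.eq_1
  have := @HCircle_wind.eq_1
  have := @HCircle_W.eq_1
  trivial

end Claimed.Agent.R082
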