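import Claimed.Agent.R082.HMVAbs

/-!
# Row 82 homology package: Mayer-Vietoris for two open subsets
Blueprint: `docs/R082_homology.md` on branch `origin/helper82`.
-/

set_option autoImplicit false

open Claims Claims.C0146 Claims.C0146.Problem340
open CategoryTheory

namespace Claimed.Agent.R082

section HMV

variable {X Y : Type} [TopologicalSpace X] [TopologicalSpace Y]

/-- map induced in homology by an inclusion of subsets -/
noncomputable def inclH (n : ℕ) {A B : Set X} (h : A ⊆ B) :
    RealSingularHomology n A →ₗ[ℝ] RealSingularHomology n B :=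
  realHomologyMap n (Set.inclusion h) (continuous_inclusion h)

/-- the Mayer-Vietoris square of two open subsets -/
noncomputable def mvSquare (U V : Set X) (hU : IsOpen U) (hV : IsOpen V) :
    MVD ↥(U ∩ V) ↥U ↥V ↥(U ∪ V) where
  i := ⟨Set.inclusion Set.inter_subset_left, continuous_inclusion _⟩
  j := ⟨Set.inclusion Set.inter_subset_right, continuous_inclusion _⟩
  k := ⟨Set.inclusion Set.subset_union_left, continuous_inclusion _⟩
  l := ⟨Set.inclusion Set.subset_union_right, continuous_inclusion _⟩
  hk := Topology.IsEmbedding.inclusion Set.subset_union_left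
  hl := Topology.IsEmbedding.inclusion Set.subset_union_right
  hki := (Topology.IsEmbedding.inclusion Set.subset_union_left).comp
    (Topology.IsEmbedding.inclusion Set.inter_subset_left)
  hcomm := rfl
  hI := by
    rintro w ⟨⟨a, ha⟩, ⟨b, hb⟩⟩
    have h1 : (w : X) = a := by rw [← ha]; rfl
    have h2 : (w : X) = b := by rw [← hb]; rfl
    refine ⟨⟨w, ⟨h1 ▸ a.2, h2 ▸ b.2⟩⟩, ?_⟩
    exact Subtype.ext rfl
  hkO := by
    show IsOpen (Set.range (Set.inclusion Set.subset_union_left))
    rw [Set.range_inclusion]
    exact hU.preimage continuous_subtype_val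
  hlO := by
    show IsOpen (Set.range (Set.inclusion Set.subset_union_right))
    rw [Set.range_inclusion]
    exact hV.preimage continuous_subtype_val
  hcov := by
    show Set.range (Set.inclusion Set.subset_union_left) ∪
      Set.range (Set.inclusion Set.subset_union_right) = Set.univ
    rw [Set.range_inclusion, Set.range_inclusion]
    ext w
    simp only [Set.mem_union, Set.mem_ofPred_eq, Set.mem_univ, iff_true]
    exact w.2

/-- the Mayer-Vietoris connecting map -/
noncomputable def mvδ (U V : Set X) (hU : IsOpen U) (hV : IsOpen V) (n : ℕ) :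
    RealSingularHomology (n + 1) ↥(U ∪ V) →ₗ[ℝ] RealSingularHomology n ↥(U ∩ V) :=
  (mvSquare U V hU hV).δ n

theorem mv_exact_union (U V : Set X) (hU : IsOpen U) (hV : IsOpen V) (n : ℕ)
    (x : RealSingularHomology (n + 1) ↥(U ∪ V)) :
    mvδ U V hU hV n x = 0 ↔
      ∃ (a : RealSingularHomology (n + 1) U) (b : RealSingularHomology (n + 1) V),
        x = inclH (n + 1) Set.subset_union_left a + inclH (n + 1) Set.subset_union_right b := by
  have h := (mvSquare U V hU hV).exact_union n x
  unfold mvδ inclH
  exact h

theorem mv_exact_inter (U V : Set X) (hU : IsOpen U) (hV : IsOpen V) (n : ℕ)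
    (y : RealSingularHomology n ↥(U ∩ V)) :
    (inclH n Set.inter_subset_left y = 0 ∧ inclH n Set.inter_subset_right y = 0) ↔
      ∃ x, mvδ U V hU hV n x = y := by
  have h := (mvSquare U V hU hV).exact_inter n y
  unfold mvδ inclH
  exact h

theorem mv_surj_zero (U V : Set X) (hU : IsOpen U) (hV : IsOpen V)
    (x : RealSingularHomology 0 ↥(U ∪ V)) :
    ∃ (a : RealSingularHomology 0 U) (b : RealSingularHomology 0 V),
        x = inclH 0 Set.subset_union_left a + inclH 0 Set.subset_union_right b := by
  have h := (mvSquare U V hU hV).surj_zero x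
  unfold inclH
  exact h

theorem mvδ_natural (f : X → Y) (hf : Continuous f) (U V : Set X) (hU : IsOpen U) (hV : IsOpen V)
    (U' V' : Set Y) (hU' : IsOpen U') (hV' : IsOpen V')
    (hfU : Set.MapsTo f U U') (hfV : Set.MapsTo f V V') (n : ℕ)
    (x : RealSingularHomology (n + 1) ↥(U ∪ V)) :
    mvδ U' V' hU' hV' n
        (realHomologyMap (n + 1)
          (Set.MapsTo.restrict f (U ∪ V) (U' ∪ V') (hfU.union_union hfV))
          (hf.restrict _) x) =
      realHomologyMap n
          (Set.MapsTo.restrict f (U ∩ V) (U' ∩ V') (hfU.inter_inter hfV))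
          (hf.restrict _) (mvδ U V hU hV n x) :=
  (mvSquare U V hU hV).δ_natural (mvSquare U' V' hU' hV')
    ⟨Set.MapsTo.restrict f (U ∩ V) (U' ∩ V') (hfU.inter_inter hfV), hf.restrict _⟩
    ⟨Set.MapsTo.restrict f U U' hfU, hf.restrict _⟩
    ⟨Set.MapsTo.restrict f V V' hfV, hf.restrict _⟩
    ⟨Set.MapsTo.restrict f (U ∪ V) (U' ∪ V') (hfU.union_union hfV), hf.restrict _⟩
    (ContinuousMap.ext fun _ => rfl) (ContinuousMap.ext fun _ => rfl)
    (ContinuousMap.ext fun _ => rfl) (ContinuousMap.ext fun _ => rfl) n x

end HMV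

end Claimed.Agent.R082
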