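import Claimed.Agent.R082.HBasic
import Claimed.Agent.R082.HMV
import Claimed.Agent.R082.HCircle

/-!
# Row 82 homology package: target T2, a class in `H₂(S²)` doubled by `sq`
Blueprint: `docs/R082_homology.md` §7 on branch `origin/helper82`.
-/

set_option autoImplicit false

open Claims Claims.C0146 Claims.C0146.Problem340
open CategoryTheory

namespace Claimed.Agent.R082

/-- the complement of a point of the sphere is contractible (stereographic projection) -/
theorem HSphere_contractible_compl (v : SphereAmbient) (hv : ‖v‖ = 1) (S : Set StandardSphere2)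
    (hS : S = {⟨v, by simp [hv]⟩}ᶜ) : ContractibleSpace ↥S := by
  subst hS
  have e1 : ↥(stereographic hv).source ≃ₜ ↥(stereographic hv).target :=
    (stereographic hv).toHomeomorphSourceTarget
  rw [stereographic_source, stereographic_target] at e1
  exact (e1.trans (Homeomorph.Set.univ _)).contractibleSpace

theorem HSphere_sq_sum (u : StandardSphere2) : u.1 0 ^ 2 + u.1 1 ^ 2 + u.1 2 ^ 2 = 1 := by
  have h := u.2
  rw [mem_sphere_zero_iff_norm, EuclideanSpace.norm_eq] at h
  have h2 : (∑ i : Fin 3, ‖u.1 i‖ ^ 2) = 1 := by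
    have := congrArg (fun t => t ^ 2) h
    simp only [one_pow] at this
    rwa [Real.sq_sqrt (Finset.sum_nonneg (fun i _ => sq_nonneg _))] at this
  simpa [Fin.sum_univ_three, Real.norm_eq_abs, sq_abs] using h2

theorem contractibleSpace_sphU : ContractibleSpace ↥sphU := by
  refine HSphere_contractible_compl (EuclideanSpace.single 2 1) (by simp) sphU ?_
  ext u
  simp only [sphU, Set.mem_setOf_eq, Set.mem_compl_iff, Set.mem_singleton_iff]
  have hu := HSphere_sq_sum u
  constructor
  · intro h he
    rw [he] at h
    simp at h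
  · intro h
    by_contra hc
    apply h
    have h2 : u.1 2 = 1 := by nlinarith [sq_nonneg (u.1 0), sq_nonneg (u.1 1)]
    have h0 : u.1 0 = 0 := by nlinarith [sq_nonneg (u.1 0), sq_nonneg (u.1 1)]
    have h1 : u.1 1 = 0 := by nlinarith [sq_nonneg (u.1 0), sq_nonneg (u.1 1)]
    apply Subtype.ext
    ext i
    fin_cases i <;> simp [h0, h1, h2]

theorem contractibleSpace_sphV : ContractibleSpace ↥sphV := by
  refine HSphere_contractible_compl (EuclideanSpace.single 2 (-1)) (by simp) sphV ?_
  ext u
  simp only [sphV, Set.mem_setOf_eq, Set.mem_compl_iff, Set.mem_singleton_iff]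
  have hu := HSphere_sq_sum u
  constructor
  · intro h he
    rw [he] at h
    simp at h
  · intro h
    by_contra hc
    apply h
    have h2 : u.1 2 = -1 := by nlinarith [sq_nonneg (u.1 0), sq_nonneg (u.1 1)]
    have h0 : u.1 0 = 0 := by nlinarith [sq_nonneg (u.1 0), sq_nonneg (u.1 1)]
    have h1 : u.1 1 = 0 := by nlinarith [sq_nonneg (u.1 0), sq_nonneg (u.1 1)]
    apply Subtype.ext
    ext i
    fin_cases i <;> simp [h0, h1, h2]

/-- (H-B) = target T2 -/
theorem exists_H2_class :
    ∃ ς : RealSingularHomology 2 StandardSphere2, ς ≠ 0 ∧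
      realHomologyMap 2 sq continuous_sq ς = (2 : ℝ) • ς := by
  have := contractibleSpace_sphU
  have := contractibleSpace_sphV
  obtain ⟨c, hc0, hc⟩ := exists_H1_class
  -- surjectivity of δ onto c
  obtain ⟨x, hx⟩ : ∃ x, mvδ sphU sphV isOpen_sphU isOpen_sphV 1 x = c := by
    rw [← mv_exact_inter]
    have := subsingleton_homology_of_contractible (X := ↥sphU) 1 one_ne_zero
    have := subsingleton_homology_of_contractible (X := ↥sphV) 1 one_ne_zero
    exact ⟨Subsingleton.elim _ _, Subsingleton.elim _ _⟩
  -- injectivity of δ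
  have hinj : ∀ y, mvδ sphU sphV isOpen_sphU isOpen_sphV 1 y = 0 → y = 0 := by
    intro y hy
    rw [mv_exact_union] at hy
    obtain ⟨a, b, hab⟩ := hy
    have := subsingleton_homology_of_contractible (X := ↥sphU) 2 two_ne_zero
    have := subsingleton_homology_of_contractible (X := ↥sphV) 2 two_ne_zero
    rw [hab, Subsingleton.elim a 0, Subsingleton.elim b 0, map_zero, map_zero, add_zero]
  -- the restricted map doubles x
  set sqW : ↥(sphU ∪ sphV) → ↥(sphU ∪ sphV) :=
    Set.MapsTo.restrict sq (sphU ∪ sphV) (sphU ∪ sphV)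
      (sq_mapsTo_sphU.union_union sq_mapsTo_sphV) with hsqW
  have hsqWc : Continuous sqW := continuous_sq.restrict _
  have hdouble : realHomologyMap 2 sqW hsqWc x = (2 : ℝ) • x := by
    have hnat := mvδ_natural sq continuous_sq sphU sphV isOpen_sphU isOpen_sphV sphU sphV
      isOpen_sphU isOpen_sphV sq_mapsTo_sphU sq_mapsTo_sphV 1 x
    rw [hx, hc] at hnat
    have : realHomologyMap 2 sqW hsqWc x - (2 : ℝ) • x = 0 := by
      apply hinj
      rw [map_sub, map_smul, hx]
      exact sub_eq_zero.mpr hnat
    exact sub_eq_zero.mp this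
  -- transport to the sphere
  have hx0 : x ≠ 0 := by
    rintro rfl
    apply hc0
    rw [← hx, map_zero]
  let j : ↥(sphU ∪ sphV) → StandardSphere2 := Subtype.val
  have hj : Continuous j := continuous_subtype_val
  let k : StandardSphere2 → ↥(sphU ∪ sphV) := fun u => ⟨u, by rw [sphU_union_sphV]; trivial⟩
  have hk : Continuous k := by
    exact Continuous.subtype_mk continuous_id _
  have hkj : realHomologyMap 2 k hk (realHomologyMap 2 j hj x) = x := by
    have h1 := realHomologyMap_comp 2 j k hj hk
    have h2 : (k ∘ j) = id := by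
      funext u
      rfl
    have h3 : realHomologyMap 2 (k ∘ j) (hk.comp hj) = LinearMap.id := by
      have := realHomologyMap_id (X := ↥(sphU ∪ sphV)) 2
      convert this using 2
    rw [h3] at h1
    have := congrArg (fun L => L x) h1
    simpa using this.symm
  refine ⟨realHomologyMap 2 j hj x, ?_, ?_⟩
  · intro h0
    apply hx0
    rw [← hkj, h0, map_zero]
  · have h1 := realHomologyMap_comp 2 j sq hj continuous_sq
    have h2 := realHomologyMap_comp 2 sqW j hsqWc hj
    have h3 : realHomologyMap 2 (sq ∘ j) (continuous_sq.comp hj)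
        = realHomologyMap 2 (j ∘ sqW) (hj.comp hsqWc) := rfl
    have h4 : realHomologyMap 2 sq continuous_sq (realHomologyMap 2 j hj x)
        = realHomologyMap 2 (sq ∘ j) (continuous_sq.comp hj) x := by
      rw [h1]; rfl
    rw [h4, h3, h2, LinearMap.comp_apply, hdouble, map_smul]

end Claimed.Agent.R082
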