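import Claimed.Agent.R082.Scalar

/-!
# Row 82: charts of the spheres and of the clock (algebra and smoothness)
Blueprint: `docs/R082_blueprint.md` §4 on `origin/helper82`.
-/

set_option autoImplicit false

open Claims Claims.C0146 Claims.C0146.Problem340

namespace Claimed.Agent.R082

/-- reduction of a phase in `[0, 1]` to `(-1/2, 1/2]` -/
noncomputable def red (T : ℝ) : ℝ := if T ≤ 1 / 2 then T else T - 1

theorem Charts_sinv2_0 (N : ℂ) (d : ℝ) : sinv2 N d 0 = 2 * d * N.re / (‖N‖ ^ 2 + d ^ 2) := rfl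
theorem Charts_sinv2_1 (N : ℂ) (d : ℝ) : sinv2 N d 1 = 2 * d * N.im / (‖N‖ ^ 2 + d ^ 2) := rfl
theorem sinv2_apply_two (N : ℂ) (d : ℝ) :
    sinv2 N d 2 = (‖N‖ ^ 2 - d ^ 2) / (‖N‖ ^ 2 + d ^ 2) := rfl

theorem Charts_ext3 {u v : SphereAmbient} (h0 : u 0 = v 0) (h1 : u 1 = v 1) (h2 : u 2 = v 2) : u = v := by
  ext i
  fin_cases i
  · exact h0
  · exact h1
  · exact h2

theorem Charts_ext2 {u v : ClockAmbient} (h0 : u 0 = v 0) (h1 : u 1 = v 1) : u = v := by
  ext i
  fin_cases i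
  · exact h0
  · exact h1

theorem Charts_normsq (N : ℂ) : ‖N‖ ^ 2 = N.re ^ 2 + N.im ^ 2 := by
  rw [Complex.sq_norm, Complex.normSq_apply]; ring

theorem stereo_sinv2 (N : ℂ) {d : ℝ} (hd : 0 < d) : stereo (sinv2 N d) = (d⁻¹ : ℝ) • N := by
  have hD : 0 < ‖N‖ ^ 2 + d ^ 2 := by positivity
  have h1 : 1 - sinv2 N d 2 = 2 * d ^ 2 / (‖N‖ ^ 2 + d ^ 2) := by
    rw [sinv2_apply_two]; field_simp; ring
  unfold stereo zeta
  rw [h1, Charts_sinv2_0, Charts_sinv2_1]
  apply Complex.ext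
  · simp only [Complex.real_smul, Complex.mul_re, Complex.ofReal_re, Complex.ofReal_im, zero_mul, sub_zero]
    field_simp
  · simp only [Complex.real_smul, Complex.mul_im, Complex.ofReal_re, Complex.ofReal_im, zero_mul, add_zero]
    field_simp

theorem sinv2_smul (N : ℂ) (d : ℝ) {c : ℝ} (hc : 0 < c) : sinv2 ((c : ℝ) • N) (c * d) = sinv2 N d := by
  have hn : ‖(c : ℝ) • N‖ ^ 2 + (c * d) ^ 2 = c ^ 2 * (‖N‖ ^ 2 + d ^ 2) := by
    rw [norm_smul, Real.norm_of_nonneg hc.le]; ring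
  have hc2 : c ^ 2 ≠ 0 := by positivity
  apply Charts_ext3
  · rw [Charts_sinv2_0, Charts_sinv2_0, hn, Complex.real_smul, Complex.re_ofReal_mul,
      show 2 * (c * d) * (c * N.re) = c ^ 2 * (2 * d * N.re) by ring, mul_div_mul_left _ _ hc2]
  · rw [Charts_sinv2_1, Charts_sinv2_1, hn, Complex.real_smul, Complex.im_ofReal_mul,
      show 2 * (c * d) * (c * N.im) = c ^ 2 * (2 * d * N.im) by ring, mul_div_mul_left _ _ hc2]
  · rw [sinv2_apply_two, sinv2_apply_two, hn,
      show ‖(c : ℝ) • N‖ ^ 2 - (c * d) ^ 2 = c ^ 2 * (‖N‖ ^ 2 - d ^ 2) by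
        rw [norm_smul, Real.norm_of_nonneg hc.le]; ring, mul_div_mul_left _ _ hc2]

theorem sinv2_zero_right {N : ℂ} (hN : N ≠ 0) : sinv2 N 0 = sinv2 1 0 := by
  have hn : ‖N‖ ^ 2 ≠ 0 := by
    have := norm_pos_iff.2 hN
    positivity
  apply Charts_ext3
  · rw [Charts_sinv2_0, Charts_sinv2_0]; simp
  · rw [Charts_sinv2_1, Charts_sinv2_1]; simp
  · rw [sinv2_apply_two, sinv2_apply_two]
    simp [hn]


theorem Charts_sphere (u : StandardSphere2) : u.1 0 ^ 2 + u.1 1 ^ 2 + u.1 2 ^ 2 = 1 := by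
  have h := u.2
  rw [mem_sphere_zero_iff_norm, EuclideanSpace.norm_eq, Real.sqrt_eq_one, Fin.sum_univ_three] at h
  simpa only [Real.norm_eq_abs, sq_abs] using h

theorem Charts_clock (c : StandardClock) : c.1 0 ^ 2 + c.1 1 ^ 2 = 1 := by
  have h := c.2
  rw [mem_sphere_zero_iff_norm, EuclideanSpace.norm_eq, Real.sqrt_eq_one, Fin.sum_univ_two] at h
  simpa only [Real.norm_eq_abs, sq_abs] using h

theorem Kc_sinv2 {X : ℂ} (h : ‖X‖ ≤ 4) : Kc (sinv2 X 1) = X := by
  have hn : ‖X‖ ^ 2 ≤ 16 := by nlinarith [norm_nonneg X]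
  have hD : 0 < ‖X‖ ^ 2 + 1 ^ 2 := by positivity
  have h2 : sinv2 X 1 2 ≤ 0.9 := by
    rw [sinv2_apply_two, div_le_iff₀ hD]; nlinarith
  have hs : stp 0.9 0.95 (sinv2 X 1 2) = 0 := stp_of_le (by norm_num) h2
  have := stereo_sinv2 X (d := 1) one_pos
  unfold Kc
  unfold stereo at this
  rw [hs, sub_zero, one_div, this]
  simp

theorem norm_stereo_sq (u : StandardSphere2) (h : u.1 2 < 1) :
    ‖stereo u.1‖ ^ 2 = (1 + u.1 2) / (1 - u.1 2) := by
  have hs := Charts_sphere u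
  have h1 : 0 < 1 - u.1 2 := by linarith
  unfold stereo zeta
  rw [norm_smul, mul_pow, Charts_normsq, Real.norm_eq_abs, sq_abs]
  simp only
  field_simp
  nlinarith

theorem sinv2_stereo (u : StandardSphere2) (h : u.1 2 < 1) : sinv2 (stereo u.1) 1 = u.1 := by
  have hs := Charts_sphere u
  have h1 : 0 < 1 - u.1 2 := by linarith
  have hn := norm_stereo_sq u h
  have hre : (stereo u.1).re = u.1 0 / (1 - u.1 2) := by
    unfold stereo zeta
    simp only [Complex.real_smul, Complex.mul_re, Complex.ofReal_re, Complex.ofReal_im, zero_mul, sub_zero]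
    field_simp
  have him : (stereo u.1).im = u.1 1 / (1 - u.1 2) := by
    unfold stereo zeta
    simp only [Complex.real_smul, Complex.mul_im, Complex.ofReal_re, Complex.ofReal_im, zero_mul, add_zero]
    field_simp
  apply Charts_ext3
  · rw [Charts_sinv2_0, hn, hre]; field_simp; ring
  · rw [Charts_sinv2_1, hn, him]; field_simp; ring
  · rw [sinv2_apply_two, hn]; field_simp; ring

theorem norm_Kc_sq_le (u : StandardSphere2) : ‖Kc u.1‖ ^ 2 ≤ 39 := by
  have hs := Charts_sphere u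
  rcases le_or_gt 0.95 (u.1 2) with h | h
  · unfold Kc
    rw [stp_of_ge (by norm_num) h]
    simp
  · have h1 : 0 < 1 - u.1 2 := by linarith
    have hs0 := stp_nonneg 0.9 0.95 (u.1 2)
    have hs1 := stp_le_one 0.9 0.95 (u.1 2)
    unfold Kc zeta
    rw [norm_smul, mul_pow, Charts_normsq, Real.norm_eq_abs, sq_abs]
    simp only
    have hz : u.1 0 ^ 2 + u.1 1 ^ 2 = (1 - u.1 2) * (1 + u.1 2) := by nlinarith
    rw [hz, div_pow]
    have hq : (1 - stp 0.9 0.95 (u.1 2)) ^ 2 ≤ 1 := by nlinarith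
    have h3 : 0 ≤ 1 + u.1 2 := by nlinarith
    calc (1 - stp 0.9 0.95 (u.1 2)) ^ 2 / (1 - u.1 2) ^ 2 * ((1 - u.1 2) * (1 + u.1 2))
        = (1 - stp 0.9 0.95 (u.1 2)) ^ 2 * ((1 + u.1 2) / (1 - u.1 2)) := by field_simp
      _ ≤ 1 * ((1 + u.1 2) / (1 - u.1 2)) :=
          mul_le_mul_of_nonneg_right hq (div_nonneg h3 h1.le)
      _ ≤ 39 := by
          rw [one_mul, div_le_iff₀ h1]; linarith


theorem Charts_clockOut_0 (T : ℝ) : clockOut T 0 = Real.cos (2 * Real.pi * T) := rfl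
theorem Charts_clockOut_1 (T : ℝ) : clockOut T 1 = Real.sin (2 * Real.pi * T) := rfl

theorem Charts_mk_clockOut (T : ℝ) :
    (⟨clockOut T 0, clockOut T 1⟩ : ℂ)
      = Complex.cos ((2 * Real.pi * T : ℝ) : ℂ) + Complex.sin ((2 * Real.pi * T : ℝ) : ℂ) * Complex.I := by
  rw [Charts_clockOut_0, Charts_clockOut_1, ← Complex.ofReal_cos, ← Complex.ofReal_sin]
  apply Complex.ext
  · simp only [Complex.add_re, Complex.ofReal_re, Complex.mul_re, Complex.I_re, mul_zero,
      Complex.ofReal_im, Complex.I_im, mul_one, sub_self, add_zero]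
  · simp only [Complex.add_im, Complex.ofReal_im, Complex.mul_im, Complex.I_re, mul_zero,
      Complex.ofReal_re, Complex.I_im, mul_one, zero_add, add_zero]

theorem tph_clockOut' {t : ℝ} (h0 : -(1 / 2) < t) (h1 : t ≤ 1 / 2) : tph (clockOut t) = t := by
  have hpi := Real.pi_pos
  unfold tph
  rw [Charts_mk_clockOut, Complex.arg_cos_add_sin_mul_I]
  · field_simp
  · constructor <;> nlinarith

theorem clockOut_red (T : ℝ) : clockOut (red T) = clockOut T := by
  unfold red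
  split_ifs with h
  · rfl
  · apply Charts_ext2
    · rw [Charts_clockOut_0, Charts_clockOut_0, mul_sub, mul_one, Real.cos_sub_two_pi]
    · rw [Charts_clockOut_1, Charts_clockOut_1, mul_sub, mul_one, Real.sin_sub_two_pi]

theorem tph_clockOut {T : ℝ} (h0 : 0 ≤ T) (h1 : T ≤ 1) : tph (clockOut T) = red T := by
  rw [← clockOut_red]
  apply tph_clockOut'
  · unfold red; split_ifs with h <;> linarith
  · unfold red; split_ifs with h <;> linarith

theorem clockOut_tph (c : StandardClock) : clockOut (tph c.1) = c.1 := by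
  have hc := Charts_clock c
  have hpi := Real.pi_pos
  have hn : ‖(⟨c.1 0, c.1 1⟩ : ℂ)‖ = 1 := by
    have : ‖(⟨c.1 0, c.1 1⟩ : ℂ)‖ ^ 2 = 1 := by rw [Charts_normsq]; exact hc
    nlinarith [norm_nonneg (⟨c.1 0, c.1 1⟩ : ℂ)]
  have hz : (⟨c.1 0, c.1 1⟩ : ℂ) ≠ 0 := by
    intro h; rw [h, norm_zero] at hn; exact zero_ne_one hn
  have he : 2 * Real.pi * tph c.1 = Complex.arg ⟨c.1 0, c.1 1⟩ := by
    unfold tph; field_simp
  apply Charts_ext2
  · rw [Charts_clockOut_0, he, Complex.cos_arg hz, hn, div_one]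
  · rw [Charts_clockOut_1, he, Complex.sin_arg, hn, div_one]

theorem tph_mem (c : ClockAmbient) : -(1 / 2) < tph c ∧ tph c ≤ 1 / 2 := by
  have hpi := Real.pi_pos
  have h1 := Complex.neg_pi_lt_arg (⟨c 0, c 1⟩ : ℂ)
  have h2 := Complex.arg_le_pi (⟨c 0, c 1⟩ : ℂ)
  unfold tph
  constructor
  · rw [lt_div_iff₀ (by positivity)]; linarith
  · rw [div_le_iff₀ (by positivity)]; linarith

/-! ### metric estimates -/

theorem dist_sinv2_south (X : ℂ) : dist (sinv2 X 1) (sinv2 0 1) ≤ 2 * ‖X‖ := by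
  have hD : 0 < ‖X‖ ^ 2 + 1 ^ 2 := by positivity
  rw [EuclideanSpace.dist_eq, Fin.sum_univ_three]
  apply Real.sqrt_le_iff.2
  refine ⟨by positivity, ?_⟩
  simp only [Real.dist_eq, sq_abs]
  rw [Charts_sinv2_0, Charts_sinv2_1, sinv2_apply_two, Charts_sinv2_0, Charts_sinv2_1, sinv2_apply_two]
  simp only [Complex.zero_re, Complex.zero_im, norm_zero, mul_zero, zero_div, sub_zero]
  have hn := Charts_normsq X
  have e : (2 * 1 * X.re / (‖X‖ ^ 2 + 1 ^ 2)) ^ 2 + (2 * 1 * X.im / (‖X‖ ^ 2 + 1 ^ 2)) ^ 2 +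
      ((‖X‖ ^ 2 - 1 ^ 2) / (‖X‖ ^ 2 + 1 ^ 2) - (0 ^ 2 - 1 ^ 2) / (0 ^ 2 + 1 ^ 2)) ^ 2
      = 4 * ‖X‖ ^ 2 / (‖X‖ ^ 2 + 1 ^ 2) := by
    field_simp
    rw [hn]; ring
  rw [e, div_le_iff₀ hD]
  nlinarith [sq_nonneg (‖X‖ ^ 2)]

theorem dist_clockOut (t t' : ℝ) : dist (clockOut t) (clockOut t') ≤ 2 * Real.pi * |t - t'| := by
  have hpi := Real.pi_pos
  rw [EuclideanSpace.dist_eq, Fin.sum_univ_two]
  apply Real.sqrt_le_iff.2
  refine ⟨by positivity, ?_⟩
  simp only [Real.dist_eq, sq_abs]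
  rw [Charts_clockOut_0, Charts_clockOut_1, Charts_clockOut_0, Charts_clockOut_1]
  set a := 2 * Real.pi * t
  set b := 2 * Real.pi * t'
  have h1 := Real.one_sub_sq_div_two_le_cos (x := a - b)
  rw [Real.cos_sub] at h1
  have ha := Real.sin_sq_add_cos_sq a
  have hb := Real.sin_sq_add_cos_sq b
  have e : (2 * Real.pi * |t - t'|) ^ 2 = (a - b) ^ 2 := by
    rw [mul_pow, sq_abs]; simp only [a, b]; ring
  rw [e]
  nlinarith


/-! ### smoothness -/

theorem Charts_contDiff_coord3 (i : Fin 3) : ContDiff ℝ 1 (fun u : SphereAmbient => u i) :=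
  (EuclideanSpace.proj i : SphereAmbient →L[ℝ] ℝ).contDiff

theorem Charts_contDiff_coord2 (i : Fin 2) : ContDiff ℝ 1 (fun u : ClockAmbient => u i) :=
  (EuclideanSpace.proj i : ClockAmbient →L[ℝ] ℝ).contDiff

theorem Charts_contDiff_zeta : ContDiff ℝ 1 zeta := by
  have : zeta = fun u => ((u 0 : ℝ) : ℂ) + ((u 1 : ℝ) : ℂ) * Complex.I := by
    funext u
    apply Complex.ext <;> simp [zeta]
  rw [this]
  exact (Complex.ofRealCLM.contDiff.comp (Charts_contDiff_coord3 0)).add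
    ((Complex.ofRealCLM.contDiff.comp (Charts_contDiff_coord3 1)).mul contDiff_const)

theorem Charts_contDiff_mk2 : ContDiff ℝ 1 (fun c : ClockAmbient => (⟨c 0, c 1⟩ : ℂ)) := by
  have : (fun c : ClockAmbient => (⟨c 0, c 1⟩ : ℂ))
      = fun u => ((u 0 : ℝ) : ℂ) + ((u 1 : ℝ) : ℂ) * Complex.I := by
    funext u
    apply Complex.ext <;> simp
  rw [this]
  exact (Complex.ofRealCLM.contDiff.comp (Charts_contDiff_coord2 0)).add
    ((Complex.ofRealCLM.contDiff.comp (Charts_contDiff_coord2 1)).mul contDiff_const)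

theorem Charts_contDiff_g : ContDiff ℝ 1 (fun h : ℝ => (1 - stp 0.9 0.95 h) / (1 - h)) := by
  rw [contDiff_iff_contDiffAt]
  intro h
  rcases lt_or_ge h 1 with h1 | h1
  · exact ((contDiff_const.sub (contDiff_stp _ _)).contDiffAt).div
      (contDiff_const.sub contDiff_id).contDiffAt (by show (1:ℝ) - h ≠ 0; linarith)
  · have : (fun h : ℝ => (1 - stp 0.9 0.95 h) / (1 - h)) =ᶠ[nhds h] fun _ => 0 := by
      filter_upwards [Ioi_mem_nhds (show (0.95:ℝ) < h by linarith)] with x hx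
      rw [stp_of_ge (by norm_num) (le_of_lt hx)]; simp
    exact contDiffAt_const.congr_of_eventuallyEq this

theorem contDiff_Kc : ContDiff ℝ 1 Kc := by
  unfold Kc
  exact (Charts_contDiff_g.comp (Charts_contDiff_coord3 2)).smul Charts_contDiff_zeta

theorem contDiffOn_stereo : ContDiffOn ℝ 1 stereo {u | u 2 < 1} := by
  unfold stereo
  have h1 : ContDiffOn ℝ 1 (fun u : SphereAmbient => ((1 - u 2)⁻¹ : ℝ)) {u | u 2 < 1} := by
    refine ContDiffOn.inv (contDiff_const.sub (Charts_contDiff_coord3 2)).contDiffOn ?_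
    intro u hu
    have : u 2 < 1 := hu
    linarith
  exact h1.smul Charts_contDiff_zeta.contDiffOn

theorem contDiffOn_sinv2 :
    ContDiffOn ℝ 1 (fun p : ℂ × ℝ => sinv2 p.1 p.2) {p | p.1 ≠ 0 ∨ p.2 ≠ 0} := by
  have hD : ContDiff ℝ 1 (fun p : ℂ × ℝ => ‖p.1‖ ^ 2 + p.2 ^ 2) :=
    ((contDiff_norm_sq ℝ).comp contDiff_fst).add (contDiff_snd.pow 2)
  have hD0 : ∀ p ∈ {p : ℂ × ℝ | p.1 ≠ 0 ∨ p.2 ≠ 0}, ‖p.1‖ ^ 2 + p.2 ^ 2 ≠ 0 := by
    intro p hp
    rcases hp with h | h
    · have := norm_pos_iff.2 h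
      positivity
    · have : 0 < p.2 ^ 2 := by positivity
      positivity
  have hre : ContDiff ℝ 1 (fun p : ℂ × ℝ => p.1.re) := Complex.reCLM.contDiff.comp contDiff_fst
  have him : ContDiff ℝ 1 (fun p : ℂ × ℝ => p.1.im) := Complex.imCLM.contDiff.comp contDiff_fst
  rw [contDiffOn_euclidean]
  intro i
  fin_cases i
  · show ContDiffOn ℝ 1 (fun p : ℂ × ℝ => 2 * p.2 * p.1.re / (‖p.1‖ ^ 2 + p.2 ^ 2)) _
    exact ((contDiff_const.mul contDiff_snd).mul hre).contDiffOn.div hD.contDiffOn hD0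
  · show ContDiffOn ℝ 1 (fun p : ℂ × ℝ => 2 * p.2 * p.1.im / (‖p.1‖ ^ 2 + p.2 ^ 2)) _
    exact ((contDiff_const.mul contDiff_snd).mul him).contDiffOn.div hD.contDiffOn hD0
  · show ContDiffOn ℝ 1 (fun p : ℂ × ℝ => (‖p.1‖ ^ 2 - p.2 ^ 2) / (‖p.1‖ ^ 2 + p.2 ^ 2)) _
    exact (((contDiff_norm_sq ℝ).comp contDiff_fst).sub (contDiff_snd.pow 2)).contDiffOn.div
      hD.contDiffOn hD0

theorem contDiff_clockOut : ContDiff ℝ 1 clockOut := by
  rw [contDiff_euclidean]
  intro i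
  fin_cases i
  · show ContDiff ℝ 1 (fun T : ℝ => Real.cos (2 * Real.pi * T))
    exact Real.contDiff_cos.comp (contDiff_const.mul contDiff_id)
  · show ContDiff ℝ 1 (fun T : ℝ => Real.sin (2 * Real.pi * T))
    exact Real.contDiff_sin.comp (contDiff_const.mul contDiff_id)

/-- `tph` is smooth off the closed negative real axis -/
theorem contDiffAt_tph {c : ClockAmbient} (h : 0 < c 0 ∨ c 1 ≠ 0) : ContDiffAt ℝ 1 tph c := by
  have hm : (⟨c 0, c 1⟩ : ℂ) ∈ Complex.slitPlane := Complex.mem_slitPlane_iff.2 h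
  have hlog : ContDiffAt ℝ 1 Complex.log (⟨c 0, c 1⟩ : ℂ) :=
    (Complex.contDiffAt_log hm (n := 1)).restrict_scalars ℝ
  have h1 : ContDiffAt ℝ 1 (fun c : ClockAmbient => Complex.log (⟨c 0, c 1⟩ : ℂ)) c :=
    ContDiffAt.comp (g := Complex.log) (f := fun c : ClockAmbient => (⟨c 0, c 1⟩ : ℂ)) c hlog
      Charts_contDiff_mk2.contDiffAt
  have h2 : ContDiffAt ℝ 1 (fun c : ClockAmbient => (Complex.log (⟨c 0, c 1⟩ : ℂ)).im) c :=
    Complex.imCLM.contDiff.contDiffAt.comp c h1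
  have : tph = fun c : ClockAmbient => (Complex.log (⟨c 0, c 1⟩ : ℂ)).im / (2 * Real.pi) := by
    funext c; unfold tph; rw [Complex.log_im]
  rw [this]
  exact h2.div_const _

/-- near the negative real axis the phase is close to `± 1/2` -/
theorem tph_near_cut {c : ClockAmbient} (h0 : c 0 < 0) (h1 : |c 1| < -c 0) :
    3 / 8 < tph c ∨ tph c < -(3 / 8) := by
  have hpi := Real.pi_pos
  obtain ⟨z, hz⟩ : ∃ z : ℂ, z = ⟨c 0, c 1⟩ := ⟨_, rfl⟩
  have hre : z.re = c 0 := by rw [hz]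
  have him : z.im = c 1 := by rw [hz]
  have hz0 : z ≠ 0 := by
    intro h
    rw [h, Complex.zero_re] at hre
    linarith
  have hr : 0 < ‖z‖ := norm_pos_iff.2 hz0
  have hcos : Real.cos z.arg = c 0 / ‖z‖ := by rw [Complex.cos_arg hz0, hre]
  have hn : ‖z‖ ^ 2 < 2 * (c 0) ^ 2 := by
    rw [Charts_normsq, hre, him]
    have := abs_lt.1 h1
    nlinarith
  have hs2 : Real.sqrt 2 ^ 2 = 2 := Real.sq_sqrt (by norm_num)
  have hs0 : 0 < Real.sqrt 2 := Real.sqrt_pos.2 (by norm_num)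
  have hlt0 : Real.sqrt 2 / 2 * ‖z‖ < -c 0 := by
    apply lt_of_pow_lt_pow_left₀ 2 (by linarith)
    rw [mul_pow, div_pow, hs2]
    nlinarith
  have hlt : Real.cos z.arg < -(Real.sqrt 2 / 2) := by
    rw [hcos, div_lt_iff₀ hr]; linarith
  by_contra hcon
  push Not at hcon
  obtain ⟨ha, hb⟩ := hcon
  unfold tph at ha hb
  rw [← hz] at ha hb
  rw [div_le_iff₀ (by positivity)] at ha
  rw [le_div_iff₀ (by positivity)] at hb
  have habs : |z.arg| ≤ 3 * Real.pi / 4 := abs_le.2 ⟨by linarith, by linarith⟩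
  have h3 : Real.cos (3 * Real.pi / 4) = -(Real.sqrt 2 / 2) := by
    rw [show 3 * Real.pi / 4 = Real.pi - Real.pi / 4 by ring, Real.cos_pi_sub, Real.cos_pi_div_four]
  have h4 : Real.cos (3 * Real.pi / 4) ≤ Real.cos |z.arg| :=
    Real.cos_le_cos_of_nonneg_of_le_pi (abs_nonneg _) (by linarith) habs
  rw [Real.cos_abs, h3] at h4
  linarith

theorem Charts_isOpen_cut : IsOpen {c : ClockAmbient | c 0 < 0 ∧ |c 1| < -c 0} :=
  (isOpen_lt (Charts_contDiff_coord2 0).continuous continuous_const).inter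
    (isOpen_lt (Charts_contDiff_coord2 1).continuous.abs (Charts_contDiff_coord2 0).continuous.neg)

theorem Charts_cut_cases {c : ClockAmbient} (hc : c ≠ 0) :
    (0 < c 0 ∨ c 1 ≠ 0) ∨ (c 0 < 0 ∧ |c 1| < -c 0) := by
  by_cases h : 0 < c 0 ∨ c 1 ≠ 0
  · exact Or.inl h
  · right
    push Not at h
    have h0 : c 0 ≠ 0 := by
      intro h0
      apply hc
      apply Charts_ext2
      · exact h0
      · exact h.2
    have : c 0 < 0 := lt_of_le_of_ne h.1 h0
    refine ⟨this, ?_⟩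
    rw [h.2, abs_zero]; linarith

/-- a `C¹` function of the phase that takes one and the same constant value on `t ≥ 3/8` and on
`t ≤ -3/8` is a `C¹` function of the clock vector -/
theorem contDiffOn_comp_tph (φ : ℝ → ℝ) (hφ : ContDiff ℝ 1 φ) (k : ℝ)
    (h1 : ∀ t, 3 / 8 ≤ t → φ t = k) (h2 : ∀ t, t ≤ -(3 / 8) → φ t = k) :
    ContDiffOn ℝ 1 (fun c : ClockAmbient => φ (tph c)) {c | c ≠ 0} := by
  intro c hc
  apply ContDiffAt.contDiffWithinAt
  rcases Charts_cut_cases hc with h | h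
  · exact hφ.contDiffAt.comp c (contDiffAt_tph h)
  · have : (fun c : ClockAmbient => φ (tph c)) =ᶠ[nhds c] fun _ => k := by
      filter_upwards [Charts_isOpen_cut.mem_nhds h] with x hx
      rcases tph_near_cut hx.1 hx.2 with h' | h'
      · exact h1 _ h'.le
      · exact h2 _ h'.le
    exact contDiffAt_const.congr_of_eventuallyEq this

/-- the new clock vector is a `C¹` function of the old one and of `τ`
(near the cut the unreduced phase is `1` resp. `0`, whatever `τ`) -/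
theorem contDiffOn_clock :
    ContDiffOn ℝ 1
      (fun p : ClockAmbient × ℝ => clockOut ((1 - p.2) * gT (tph p.1) + p.2 * om1 (tph p.1)))
      {p | p.1 ≠ 0} := by
  intro p hp
  apply ContDiffAt.contDiffWithinAt
  have hgT : ContDiff ℝ 1 gT := by
    unfold gT
    exact contDiff_Hc.comp (contDiff_id.div_const _)
  have hom : ContDiff ℝ 1 om1 := by
    unfold om1
    exact contDiff_Hc.comp (contDiff_const.mul (contDiff_id.add contDiff_const))
  rcases Charts_cut_cases hp with h | h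
  · have ht : ContDiffAt ℝ 1 (fun p : ClockAmbient × ℝ => tph p.1) p :=
      (contDiffAt_tph h).comp p contDiffAt_fst
    refine contDiff_clockOut.contDiffAt.comp p ?_
    exact ((contDiffAt_const.sub contDiffAt_snd).mul (hgT.contDiffAt.comp p ht)).add
      (contDiffAt_snd.mul (hom.contDiffAt.comp p ht))
  · have hopen : IsOpen {p : ClockAmbient × ℝ | p.1 0 < 0 ∧ |p.1 1| < -p.1 0} :=
      Charts_isOpen_cut.preimage continuous_fst
    have : (fun p : ClockAmbient × ℝ => clockOut ((1 - p.2) * gT (tph p.1) + p.2 * om1 (tph p.1)))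
        =ᶠ[nhds p] fun _ => clockOut 0 := by
      filter_upwards [hopen.mem_nhds h] with x hx
      rcases tph_near_cut hx.1 hx.2 with h' | h'
      · have e1 : gT (tph x.1) = 1 := by
          unfold gT aG
          apply Hc_of_one_le
          rw [le_div_iff₀ (by norm_num)]; linarith
        have e2 : om1 (tph x.1) = 1 := by
          unfold om1
          apply Hc_of_one_le
          linarith
        rw [e1, e2]
        have : (1 - x.2) * 1 + x.2 * 1 = 1 := by ring
        rw [this]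
        have := clockOut_red 1
        unfold red at this
        rw [if_neg (by norm_num), sub_self] at this
        exact this.symm
      · have e1 : gT (tph x.1) = 0 := by
          unfold gT aG
          apply Hc_of_nonpos
          apply div_nonpos_of_nonpos_of_nonneg (by linarith) (by norm_num)
        have e2 : om1 (tph x.1) = 0 := by
          unfold om1
          apply Hc_of_nonpos
          linarith
        rw [e1, e2]
        simp
    exact contDiffAt_const.congr_of_eventuallyEq this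

end Claimed.Agent.R082
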