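import Claimed.Agent.R082.PsiLem
import Claimed.Agent.R082.Charts

/-!
# Row 82: the map in coordinates (model map `Fhat`) and its relation with `fMap`
Blueprint: `docs/R082_blueprint.md` §6 on `origin/helper82`.
-/

set_option autoImplicit false

open Claims Claims.C0146 Claims.C0146.Problem340

namespace Claimed.Agent.R082

/-- finite states in coordinates -/
structure St where
  t : ℝ
  x : ℂ × ℂ
  y : ℂ

/-- the map in coordinates (meaningful for `|x₀| < 4`) -/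
noncomputable def Fhat (s : St) : St :=
  ⟨red (That s.t s.x), (((bS s.x.1)⁻¹ : ℝ) • Nnew s.t s.x s.y, (Xnew s.t s.x s.y).2), Yreg s.x⟩

/-- the point of `M` with given coordinates -/
noncomputable def dec (s : St) : CounterexampleManifold 2 :=
  (⟨clockOut s.t, clockOut_mem _⟩,
    ![⟨sinv2 s.x.1 1, sinv2_mem _ _ (Or.inr one_ne_zero)⟩,
      ⟨sinv2 s.x.2 1, sinv2_mem _ _ (Or.inr one_ne_zero)⟩,
      ⟨sinv2 s.y 1, sinv2_mem _ _ (Or.inr one_ne_zero)⟩])

/-- the points of the sink circle `x₀ = ∞, x₁ = 0, y = 0` -/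
noncomputable def decS (t : ℝ) : CounterexampleManifold 2 :=
  (⟨clockOut t, clockOut_mem _⟩,
    ![⟨sinv2 1 0, sinv2_mem _ _ (Or.inl one_ne_zero)⟩,
      ⟨sinv2 0 1, sinv2_mem _ _ (Or.inr one_ne_zero)⟩,
      ⟨sinv2 0 1, sinv2_mem _ _ (Or.inr one_ne_zero)⟩])

/-- (compressed) coordinates of a point of `M` -/
noncomputable def co (z : CounterexampleManifold 2) : St :=
  ⟨tph z.1.1, xco (standardEmbedding 2 z), yco (standardEmbedding 2 z)⟩

/-- proper states: the compression is inactive on them -/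
def Pr (s : St) : Prop := -(1 / 2) < s.t ∧ s.t ≤ 1 / 2 ∧ ‖s.x.2‖ ≤ 1 ∧ ‖s.y‖ ≤ 4

theorem Model_tauB_mem (R : ℝ) : 0 ≤ tauB R ∧ tauB R ≤ 1 := by
  unfold tauB
  have h1 := stp_nonneg (0.14 ^ 4) (0.16 ^ 4) R
  have h2 := stp_le_one (0.14 ^ 4) (0.16 ^ 4) R
  have h3 := stp_nonneg (0.18 ^ 4) (0.20 ^ 4) R
  have h4 := stp_le_one (0.18 ^ 4) (0.20 ^ 4) R
  constructor <;> linarith

theorem Model_red_mem {T : ℝ} (h0 : 0 ≤ T) (h1 : T ≤ 1) : -(1 / 2) < red T ∧ red T ≤ 1 / 2 := by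
  unfold red
  split_ifs with h
  · constructor <;> linarith
  · push Not at h
    constructor <;> linarith

theorem Model_norm_convex {θ B : ℝ} (h0 : 0 ≤ θ) (h1 : θ ≤ 1) {a b : ℂ} (ha : ‖a‖ ≤ B)
    (hb : ‖b‖ ≤ B) : ‖θ • a + (1 - θ) • b‖ ≤ B := by
  calc ‖θ • a + (1 - θ) • b‖ ≤ ‖θ • a‖ + ‖(1 - θ) • b‖ := norm_add_le _ _
    _ = θ * ‖a‖ + (1 - θ) * ‖b‖ := by
        rw [norm_smul, norm_smul, Real.norm_of_nonneg h0, Real.norm_of_nonneg (sub_nonneg.mpr h1)]
    _ ≤ θ * B + (1 - θ) * B :=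
        add_le_add (mul_le_mul_of_nonneg_left ha h0)
          (mul_le_mul_of_nonneg_left hb (sub_nonneg.mpr h1))
    _ = B := by ring

theorem Model_thEff_mem (t : ℝ) (x : ℂ × ℂ) : 0 ≤ thEff t x ∧ thEff t x ≤ 1 := by
  have a1 := stp_nonneg 0.20 0.22 t
  have a2 := stp_le_one 0.20 0.22 t
  have a3 := stp_nonneg 0.28 0.30 t
  have a4 := stp_le_one 0.28 0.30 t
  have a5 := stp_nonneg (0.64 ^ 4) (0.80 ^ 4) (Rsq x)
  have a6 := stp_le_one (0.64 ^ 4) (0.80 ^ 4) (Rsq x)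
  have b1 : 0 ≤ stp 0.20 0.22 t * (1 - stp 0.28 0.30 t) := mul_nonneg a1 (by linarith)
  have b2 : stp 0.20 0.22 t * (1 - stp 0.28 0.30 t) ≤ 1 :=
    mul_le_one₀ a2 (by linarith) (by linarith)
  have e : thEff t x = 1 - (stp 0.20 0.22 t * (1 - stp 0.28 0.30 t))
      * (1 - stp (0.64 ^ 4) (0.80 ^ 4) (Rsq x)) := by
    unfold thEff thT thE
    ring
  rw [e]
  have c1 : 0 ≤ (stp 0.20 0.22 t * (1 - stp 0.28 0.30 t))
      * (1 - stp (0.64 ^ 4) (0.80 ^ 4) (Rsq x)) := mul_nonneg b1 (by linarith)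
  have c2 : (stp 0.20 0.22 t * (1 - stp 0.28 0.30 t))
      * (1 - stp (0.64 ^ 4) (0.80 ^ 4) (Rsq x)) ≤ 1 := mul_le_one₀ b2 (by linarith) (by linarith)
  constructor <;> linarith

theorem Model_norm_Pmap_snd (t : ℝ) (x : ℂ × ℂ) : ‖(Pmap t x).2‖ ≤ 0.41 := by
  have hj := norm_jmap_snd_le (Psi x)
  have hs0 : 0 ≤ sBl t x := stp_nonneg _ _ _
  have hs1 : sBl t x ≤ 1 := stp_le_one _ _ _
  have e : (Pmap t x).2 = sBl t x • (jmap (Psi x)).2 + (1 - sBl t x) • (16 * x.1) := by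
    unfold Pmap Lmap
    simp only [Prod.snd_add, Prod.smul_snd]
    rw [add_comm]
  rw [e]
  rcases eq_or_lt_of_le hs1 with h1 | h1
  · rw [h1, sub_self, zero_smul, add_zero, one_smul]
    linarith
  · refine Model_norm_convex hs0 hs1 (by linarith) ?_
    obtain ⟨ht0, ht1⟩ := Model_tauB_mem (Rsq x)
    have hG : 0 ≤ Gb t := by
      unfold Gb gT
      exact mul_nonneg (Hc_nonneg _) (by linarith [stp_le_one 0.25 0.28 t])
    have ha : tauB (Rsq x) + Gb t * (1 - tauB (Rsq x)) < 0.25 := by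
      by_contra hcon
      push Not at hcon
      have : sBl t x = 1 := stp_of_ge (by norm_num) hcon
      linarith
    have hτ : tauB (Rsq x) < 0.25 := by
      have := mul_nonneg hG (sub_nonneg.mpr ht1)
      linarith
    have hR : Rsq x < 0.16 ^ 4 := by
      by_contra hcon
      push Not at hcon
      have h2 : stp (0.14 ^ 4) (0.16 ^ 4) (Rsq x) = 1 := stp_of_ge (by norm_num) hcon
      have h3 := stp_nonneg (0.18 ^ 4) (0.20 ^ 4) (Rsq x)
      unfold tauB at hτ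
      rw [h2] at hτ
      linarith
    have hx : ‖x.1‖ < 0.0256 := by
      by_contra hcon
      push Not at hcon
      have h2 : (0.0256 : ℝ) ^ 2 ≤ ‖x.1‖ ^ 2 := pow_le_pow_left₀ (by norm_num) hcon 2
      have h3 : ‖x.1‖ ^ 2 ≤ Rsq x := by
        unfold Rsq
        have := sq_nonneg ‖x.2‖
        linarith
      norm_num at h2 hR
      linarith
    rw [norm_mul]
    have : ‖(16 : ℂ)‖ = 16 := by simp
    rw [this]
    linarith

theorem That_mem (t : ℝ) (x : ℂ × ℂ) : 0 ≤ That t x ∧ That t x ≤ 1 := by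
  obtain ⟨h1, h2⟩ := Model_tauB_mem (Rsq x)
  have h3 : 0 ≤ gT t := Hc_nonneg _
  have h4 : gT t ≤ 1 := Hc_le_one _
  have h5 : 0 ≤ om1 t := Hc_nonneg _
  have h6 : om1 t ≤ 1 := Hc_le_one _
  unfold That
  constructor
  · have a := mul_nonneg (sub_nonneg.mpr h2) h3
    have b := mul_nonneg h1 h5
    linarith
  · have a := mul_le_mul_of_nonneg_left h4 (sub_nonneg.mpr h2)
    have b := mul_le_mul_of_nonneg_left h6 h1
    linarith

/-- `|X₁'| ≤ 0.64`, `|y'| ≤ 3.52`, for ALL inputs -/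
theorem Pr_Fhat (s : St) : Pr (Fhat s) := by
  obtain ⟨h0, h1⟩ := That_mem s.t s.x
  obtain ⟨r0, r1⟩ := Model_red_mem h0 h1
  refine ⟨r0, r1, ?_, ?_⟩
  · show ‖(Xnew s.t s.x s.y).2‖ ≤ 1
    obtain ⟨e0, e1⟩ := Model_thEff_mem s.t s.x
    have e : (Xnew s.t s.x s.y).2 = thEff s.t s.x • (Pmap s.t s.x).2
        + (1 - thEff s.t s.x) • (jmap s.y).2 := by
      unfold Xnew
      simp only [Prod.snd_add, Prod.smul_snd]
    rw [e]
    refine Model_norm_convex e0 e1 ?_ ?_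
    · linarith [Model_norm_Pmap_snd s.t s.x]
    · linarith [norm_jmap_snd_le s.y]
  · show ‖Yreg s.x‖ ≤ 4
    linarith [norm_Yreg_le s.x]

theorem co_dec {s : St} (h : Pr s) : co (dec s) = s := by
  obtain ⟨t, ⟨x0, x1⟩, y⟩ := s
  obtain ⟨h1, h2, h3, h4⟩ := h
  simp only at h1 h2 h3 h4
  have e1 : tph (clockOut t) = t := tph_clockOut' h1 h2
  have e2 : stereo (sinv2 x0 1) = x0 := by
    rw [stereo_sinv2 x0 one_pos]
    simp
  have e3 : Kc (sinv2 x1 1) = x1 := Kc_sinv2 (by linarith)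
  have e4 : Kc (sinv2 y 1) = y := Kc_sinv2 h4
  show (⟨tph (clockOut t), (stereo (sinv2 x0 1), Kc (sinv2 x1 1)), Kc (sinv2 y 1)⟩ : St) = _
  rw [e1, e2, e3, e4]

theorem Model_ext {z w : CounterexampleManifold 2} (h1 : z.1.1 = w.1.1)
    (h2 : ∀ i, (z.2 i).1 = (w.2 i).1) : z = w :=
  Prod.ext (Subtype.ext h1) (funext fun i => Subtype.ext (h2 i))

/-- everything is frozen in the sink region `|x₀| ≥ 4` -/
theorem Model_sink (t : ℝ) {x : ℂ × ℂ} (y : ℂ) (h16 : 16 ≤ ‖x.1‖ ^ 2) (h39 : ‖x.2‖ ^ 2 ≤ 39) :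
    That t x = om1 t ∧ bS x.1 = 0 ∧ Nnew t x y = x.1 ^ 2 ∧ (Xnew t x y).2 = 0 ∧ Yreg x = 0 := by
  have hk : 0 ≤ ‖x.2‖ ^ 2 := sq_nonneg _
  have hR : Rsq x = ‖x.1‖ ^ 2 + ‖x.2‖ ^ 2 := rfl
  have hR16 : 16 ≤ Rsq x := by linarith
  have hτ : tauB (Rsq x) = 1 := by
    unfold tauB
    rw [stp_of_ge (by norm_num) (by norm_num; linarith), stp_of_ge (by norm_num)
      (by norm_num; linarith)]
    norm_num
  have hb : bS x.1 = 0 := by
    unfold bS
    rw [stp_of_ge (by norm_num) h16, sub_self]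
  have hE : thEff t x = 1 := by
    unfold thEff thE
    rw [stp_of_ge (by norm_num) (by norm_num; linarith)]
    ring
  have hs : sBl t x = 1 := by
    unfold sBl sig
    rw [hτ]
    exact stp_of_ge (by norm_num) (by norm_num)
  have hΨ : 0.4 ≤ ‖Psi x‖ := by
    rw [Psi_of_big (by norm_num; linarith), norm_smul, norm_pow,
      Real.norm_of_nonneg (mul_nonneg (by norm_num) (rm34_nonneg _))]
    have hρ0 := rm34_nonneg (Rsq x)
    have hρ := rm34_pow_mul (R := Rsq x) (by linarith)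
    generalize rm34 (Rsq x) = ρ at hρ0 hρ ⊢
    rw [hR] at hρ
    generalize ‖x.1‖ ^ 2 = m at h16 hρ ⊢
    generalize ‖x.2‖ ^ 2 = k at h39 hk hρ
    by_contra hcon
    push Not at hcon
    have h1 : ρ * m < 0.1 := by linarith
    have h2 : (ρ * m) ^ 4 < 0.1 ^ 4 :=
      pow_lt_pow_left₀ h1 (mul_nonneg hρ0 (by linarith)) (by norm_num)
    have h3 : (ρ * m) ^ 4 * (m + k) ^ 3 = m ^ 4 := by
      calc (ρ * m) ^ 4 * (m + k) ^ 3 = (ρ ^ 4 * (m + k) ^ 3) * m ^ 4 := by ring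
        _ = m ^ 4 := by rw [hρ, one_mul]
    have h4 : (m + k) ^ 3 ≤ (55 / 16 * m) ^ 3 :=
      pow_le_pow_left₀ (by linarith) (by linarith) 3
    have h5 : 0 < (m + k) ^ 3 := pow_pos (by linarith) 3
    have h6 : m ^ 4 ≤ 0.1 ^ 4 * (55 / 16 * m) ^ 3 := by
      rw [← h3]
      exact mul_le_mul h2.le h4 h5.le (by norm_num)
    have h7 : 0 < m ^ 3 := pow_pos (by linarith) 3
    have h8 : 16 * m ^ 3 ≤ m ^ 4 := by
      have : m ^ 4 = m * m ^ 3 := by ring
      rw [this]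
      exact mul_le_mul_of_nonneg_right h16 h7.le
    have h9 : (0.1 : ℝ) ^ 4 * (55 / 16 * m) ^ 3 = (0.1 ^ 4 * (55 / 16) ^ 3) * m ^ 3 := by ring
    have h10 : (0.1 : ℝ) ^ 4 * (55 / 16) ^ 3 ≤ 1 := by norm_num
    nlinarith
  refine ⟨?_, hb, ?_, ?_, Yreg_of_big (by norm_num; linarith)⟩
  · unfold That
    rw [hτ]
    ring
  · unfold Nnew
    rw [hb, zero_smul, zero_add, sub_zero, one_smul]
  · unfold Xnew Pmap
    rw [hE, hs, jmap_of_ge hΨ]
    simp

/-- first step from an arbitrary point with `|x₀| < 4` -/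
theorem fMap_eq_dec (z : CounterexampleManifold 2) (h : (z.2 0).1 2 < 15 / 17) :
    fMap z = dec (Fhat (co z)) := by
  have hlt : (standardEmbedding 2 z).2 0 2 < 1 := by
    show (z.2 0).1 2 < 1
    linarith
  have hF : Fglob (standardEmbedding 2 z) = FA (standardEmbedding 2 z) := if_pos hlt
  have hn : ‖(xco (standardEmbedding 2 z)).1‖ ^ 2 < 16 := by
    show ‖stereo (z.2 0).1‖ ^ 2 < 16
    rw [norm_stereo_sq (z.2 0) (by linarith), div_lt_iff₀ (by linarith)]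
    linarith
  have hb : 0 < bS (xco (standardEmbedding 2 z)).1 := by
    unfold bS
    have := stp_lt_one (a := 9) (b := 16) (by norm_num) hn
    linarith
  refine Model_ext ?_ fun i => ?_
  · show (Fglob (standardEmbedding 2 z)).1 = clockOut (red (That _ _))
    rw [hF, clockOut_red]
    rfl
  · show (Fglob (standardEmbedding 2 z)).2 i = _
    rw [hF]
    fin_cases i
    · have h1 := sinv2_smul (Nnew (tph (standardEmbedding 2 z).1) (xco (standardEmbedding 2 z))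
        (yco (standardEmbedding 2 z))) (bS (xco (standardEmbedding 2 z)).1) (inv_pos.mpr hb)
      rw [inv_mul_cancel₀ hb.ne'] at h1
      exact h1.symm
    · rfl
    · rfl

/-- first step from an arbitrary point with `|x₀| ≥ 4` or `x₀ = ∞` -/
theorem fMap_eq_decS (z : CounterexampleManifold 2) (h : 15 / 17 ≤ (z.2 0).1 2) :
    fMap z = decS (red (om1 (tph z.1.1))) := by
  by_cases hlt : (standardEmbedding 2 z).2 0 2 < 1
  · have hF : Fglob (standardEmbedding 2 z) = FA (standardEmbedding 2 z) := if_pos hlt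
    have hlt' : (z.2 0).1 2 < 1 := hlt
    have hn : 16 ≤ ‖(xco (standardEmbedding 2 z)).1‖ ^ 2 := by
      show 16 ≤ ‖stereo (z.2 0).1‖ ^ 2
      rw [norm_stereo_sq (z.2 0) hlt', le_div_iff₀ (by linarith)]
      linarith
    have hk : ‖(xco (standardEmbedding 2 z)).2‖ ^ 2 ≤ 39 := norm_Kc_sq_le (z.2 1)
    obtain ⟨e1, e2, e3, e4, e5⟩ := Model_sink (tph (standardEmbedding 2 z).1)
      (yco (standardEmbedding 2 z)) hn hk
    have hx : (xco (standardEmbedding 2 z)).1 ^ 2 ≠ 0 := by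
      refine pow_ne_zero 2 fun h0 => ?_
      rw [h0] at hn
      norm_num at hn
    refine Model_ext ?_ fun i => ?_
    · show (Fglob (standardEmbedding 2 z)).1 = clockOut (red (om1 _))
      rw [hF, clockOut_red]
      show clockOut (That _ _) = _
      rw [e1]
      rfl
    · show (Fglob (standardEmbedding 2 z)).2 i = _
      rw [hF]
      fin_cases i
      · show sinv2 (Nnew _ _ _) (bS _) = sinv2 1 0
        rw [e2, e3]
        exact sinv2_zero_right hx
      · show sinv2 (Xnew _ _ _).2 1 = sinv2 0 1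
        rw [e4]
      · show sinv2 (Yreg _) 1 = sinv2 0 1
        rw [e5]
  · have hF : Fglob (standardEmbedding 2 z) = FB (standardEmbedding 2 z) := if_neg hlt
    refine Model_ext ?_ fun i => ?_
    · show (Fglob (standardEmbedding 2 z)).1 = clockOut (red (om1 _))
      rw [hF, clockOut_red]
      rfl
    · show (Fglob (standardEmbedding 2 z)).2 i = _
      rw [hF]
      fin_cases i <;> rfl

theorem fMap_dec {s : St} (h : Pr s) (h4 : ‖s.x.1‖ < 4) : fMap (dec s) = dec (Fhat s) := by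
  have h1 : ((dec s).2 0).1 2 < 15 / 17 := by
    show sinv2 s.x.1 1 2 < 15 / 17
    have h2 : ‖s.x.1‖ ^ 2 < 16 := by
      have := pow_lt_pow_left₀ h4 (norm_nonneg _) two_ne_zero
      linarith
    have h3 : 0 ≤ ‖s.x.1‖ ^ 2 := sq_nonneg _
    rw [sinv2_apply_two, div_lt_iff₀ (by positivity)]
    linarith
  rw [fMap_eq_dec _ h1, co_dec h]

theorem fMap_dec_sink {s : St} (h : Pr s) (h4 : 4 ≤ ‖s.x.1‖) :
    fMap (dec s) = decS (red (om1 s.t)) := by
  have h1 : 15 / 17 ≤ ((dec s).2 0).1 2 := by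
    show 15 / 17 ≤ sinv2 s.x.1 1 2
    have h2 : 16 ≤ ‖s.x.1‖ ^ 2 := by
      have := pow_le_pow_left₀ (by norm_num : (0 : ℝ) ≤ 4) h4 2
      linarith
    rw [sinv2_apply_two, le_div_iff₀ (by positivity)]
    linarith
  rw [fMap_eq_decS _ h1]
  show decS (red (om1 (tph (clockOut s.t)))) = _
  rw [tph_clockOut' h.1 h.2.1]

theorem fMap_decS {t : ℝ} (h0 : -(1 / 2) < t) (h1 : t ≤ 1 / 2) :
    fMap (decS t) = decS (red (om1 t)) := by
  have h2 : 15 / 17 ≤ ((decS t).2 0).1 2 := by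
    show 15 / 17 ≤ sinv2 1 0 2
    rw [sinv2_apply_two]
    norm_num
  rw [fMap_eq_decS _ h2]
  show decS (red (om1 (tph (clockOut t)))) = _
  rw [tph_clockOut' h0 h1]

/-- closeness in coordinates gives closeness in `M` -/
theorem dist_dec_le (s : St) (t₀ : ℝ) :
    dist (dec s) (dec ⟨t₀, 0, 0⟩) ≤
      max (2 * Real.pi * |s.t - t₀|) (max (2 * ‖s.x.1‖) (max (2 * ‖s.x.2‖) (2 * ‖s.y‖))) := by
  rw [Prod.dist_eq]
  refine max_le_max (dist_clockOut _ _) ?_
  rw [dist_pi_le_iff (le_max_of_le_left (by positivity))]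
  intro i
  fin_cases i
  · exact (dist_sinv2_south s.x.1).trans (le_max_left _ _)
  · exact (dist_sinv2_south s.x.2).trans ((le_max_left _ _).trans (le_max_right _ _))
  · exact (dist_sinv2_south s.y).trans
      ((le_max_right _ _).trans (le_max_right _ _))

theorem dist_decS_le (t t₀ : ℝ) : dist (decS t) (decS t₀) ≤ 2 * Real.pi * |t - t₀| := by
  rw [Prod.dist_eq]
  refine max_le (dist_clockOut _ _) ?_
  have h : (decS t).2 = (decS t₀).2 := rfl
  rw [h, dist_self]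
  have := Real.pi_pos
  positivity

end Claimed.Agent.R082
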