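import Claimed.Agent.R082.C1
import Claimed.Agent.R082.Model
import Claimed.Agent.R082.HCircle

/-!
# Row 82: `fMap ∘ aMap` is homotopic to `aMap ∘ sq`
Blueprint: `docs/R082_blueprint.md` §10 on `origin/helper82`.
-/

set_option autoImplicit false

open Claims Claims.C0146 Claims.C0146.Problem340

namespace Claimed.Agent.R082


/-- a segment between two non-antipodal unit vectors avoids the origin -/
theorem homot_seg_ne_zero {E : Type} [NormedAddCommGroup E] [NormedSpace ℝ E] {a b : E}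
    (ha : ‖a‖ = 1) (hb : ‖b‖ = 1) (hab : a ≠ -b) (s : ℝ) (hs0 : 0 ≤ s) (hs1 : s ≤ 1) :
    (1 - s) • a + s • b ≠ 0 := by
  intro h
  have h1 : (1 - s) • a = -(s • b) := eq_neg_of_add_eq_zero_left h
  have h2 : ‖(1 - s) • a‖ = ‖s • b‖ := by rw [h1, norm_neg]
  rw [norm_smul, norm_smul, ha, hb, mul_one, mul_one, Real.norm_of_nonneg (by linarith),
    Real.norm_of_nonneg hs0] at h2
  have hs : s = 1 / 2 := by linarith
  subst hs
  apply hab
  have h3 : (1 / 2 : ℝ) • a = (1 / 2 : ℝ) • (-b) := by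
    rw [smul_neg, ← h1]; norm_num
  exact smul_right_injective E (by norm_num : (1 / 2 : ℝ) ≠ 0) h3

/-- two nowhere antipodal maps into a unit sphere are homotopic -/
theorem homot_sphere {E : Type} [NormedAddCommGroup E] [NormedSpace ℝ E]
    {X : Type} [TopologicalSpace X] (f g : C(X, Metric.sphere (0 : E) (1 : ℝ)))
    (h : ∀ x, (f x).1 ≠ -(g x).1) : f.Homotopic g := by
  have hn : ∀ u : Metric.sphere (0 : E) (1 : ℝ), ‖u.1‖ = 1 := fun u =>
    mem_sphere_zero_iff_norm.1 u.2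
  let v : unitInterval × X → E := fun p => (1 - (p.1 : ℝ)) • (f p.2).1 + (p.1 : ℝ) • (g p.2).1
  have hv0 : ∀ p, v p ≠ 0 := fun p =>
    homot_seg_ne_zero (hn _) (hn _) (h p.2) _ p.1.2.1 p.1.2.2
  have hvc : Continuous v := by
    have c1 : Continuous (fun p : unitInterval × X => (p.1 : ℝ)) :=
      continuous_subtype_val.comp continuous_fst
    have c2 : Continuous (fun p : unitInterval × X => (f p.2).1) :=
      continuous_subtype_val.comp (f.continuous.comp continuous_snd)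
    have c3 : Continuous (fun p : unitInterval × X => (g p.2).1) :=
      continuous_subtype_val.comp (g.continuous.comp continuous_snd)
    exact ((continuous_const.sub c1).smul c2).add (c1.smul c3)
  refine ⟨{ toFun := fun p => ⟨‖v p‖⁻¹ • v p, ?_⟩
            continuous_toFun := ?_
            map_zero_left := ?_
            map_one_left := ?_ }⟩
  · rw [mem_sphere_zero_iff_norm, norm_smul, norm_inv, norm_norm,
      inv_mul_cancel₀ (norm_ne_zero_iff.2 (hv0 p))]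
  · refine Continuous.subtype_mk ?_ _
    exact (hvc.norm.inv₀ (fun p => norm_ne_zero_iff.2 (hv0 p))).smul hvc
  · intro x
    apply Subtype.ext
    simp [v, hn]
  · intro x
    apply Subtype.ext
    simp [v, hn]

/-- two maps into `M_q` that are nowhere antipodal in any factor are homotopic
(normalised straight-line homotopy in every factor) -/
theorem homotopic_of_nonantipodal {X : Type} [TopologicalSpace X] (q : ℕ)
    (φ ψ : C(X, CounterexampleManifold q))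
    (h1 : ∀ x, (φ x).1.1 ≠ -(ψ x).1.1) (h2 : ∀ x i, ((φ x).2 i).1 ≠ -((ψ x).2 i).1) :
    φ.Homotopic ψ := by
  let φ1 : C(X, StandardClock) := ⟨fun x => (φ x).1, continuous_fst.comp φ.continuous⟩
  let ψ1 : C(X, StandardClock) := ⟨fun x => (ψ x).1, continuous_fst.comp ψ.continuous⟩
  let φ2 : ∀ i : Fin (q + 1), C(X, StandardSphere2) := fun i =>
    ⟨fun x => (φ x).2 i, (continuous_apply i).comp (continuous_snd.comp φ.continuous)⟩
  let ψ2 : ∀ i : Fin (q + 1), C(X, StandardSphere2) := fun i =>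
    ⟨fun x => (ψ x).2 i, (continuous_apply i).comp (continuous_snd.comp ψ.continuous)⟩
  have H1 : φ1.Homotopic ψ1 := homot_sphere φ1 ψ1 h1
  have H2 : ∀ i, (φ2 i).Homotopic (ψ2 i) := fun i => homot_sphere (φ2 i) (ψ2 i) (fun x => h2 x i)
  have H := ContinuousMap.Homotopy.prod H1.some (ContinuousMap.Homotopy.pi fun i => (H2 i).some)
  have e1 : ContinuousMap.prodMk φ1 (ContinuousMap.pi φ2) = φ := by
    ext x <;> rfl
  have e2 : ContinuousMap.prodMk ψ1 (ContinuousMap.pi ψ2) = ψ := by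
    ext x <;> rfl
  rw [e1, e2] at H
  exact ⟨H⟩


theorem homot_sinv2_0 (N : ℂ) (d : ℝ) :
    sinv2 N d 0 = 2 * d * N.re / (N.re ^ 2 + N.im ^ 2 + d ^ 2) := by
  have : ‖N‖ ^ 2 = N.re ^ 2 + N.im ^ 2 := by
    rw [Complex.sq_norm, Complex.normSq_apply]; ring
  rw [← this]; rfl

theorem homot_sinv2_1 (N : ℂ) (d : ℝ) :
    sinv2 N d 1 = 2 * d * N.im / (N.re ^ 2 + N.im ^ 2 + d ^ 2) := by
  have : ‖N‖ ^ 2 = N.re ^ 2 + N.im ^ 2 := by
    rw [Complex.sq_norm, Complex.normSq_apply]; ring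
  rw [← this]; rfl

theorem homot_sinv2_2 (N : ℂ) (d : ℝ) :
    sinv2 N d 2 = (N.re ^ 2 + N.im ^ 2 - d ^ 2) / (N.re ^ 2 + N.im ^ 2 + d ^ 2) := by
  have : ‖N‖ ^ 2 = N.re ^ 2 + N.im ^ 2 := by
    rw [Complex.sq_norm, Complex.normSq_apply]; ring
  rw [← this]; rfl

theorem homot_sinv2_key (p q d p' q' d' : ℝ) (hD : p ^ 2 + q ^ 2 + d ^ 2 ≠ 0)
    (hD' : p' ^ 2 + q' ^ 2 + d' ^ 2 ≠ 0) :
    (2 * d * p / (p ^ 2 + q ^ 2 + d ^ 2) + 2 * d' * p' / (p' ^ 2 + q' ^ 2 + d' ^ 2)) ^ 2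
      + (2 * d * q / (p ^ 2 + q ^ 2 + d ^ 2) + 2 * d' * q' / (p' ^ 2 + q' ^ 2 + d' ^ 2)) ^ 2
      + ((p ^ 2 + q ^ 2 - d ^ 2) / (p ^ 2 + q ^ 2 + d ^ 2)
          + (p' ^ 2 + q' ^ 2 - d' ^ 2) / (p' ^ 2 + q' ^ 2 + d' ^ 2)) ^ 2
      = 4 * ((p * p' + q * q' + d * d') ^ 2 + (q * p' - p * q') ^ 2)
          / ((p ^ 2 + q ^ 2 + d ^ 2) * (p' ^ 2 + q' ^ 2 + d' ^ 2)) := by
  field_simp
  ring

theorem homot_den_pos (N : ℂ) (d : ℝ) (h : N ≠ 0 ∨ d ≠ 0) : 0 < N.re ^ 2 + N.im ^ 2 + d ^ 2 := by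
  rcases h with h | h
  · have : 0 < Complex.normSq N := Complex.normSq_pos.2 h
    rw [Complex.normSq_apply] at this
    nlinarith [sq_nonneg d]
  · have : 0 < d ^ 2 := by positivity
    nlinarith [sq_nonneg N.re, sq_nonneg N.im]

/-- `[N : d]` and `[N' : d']` are antipodal iff `N conj N' = - d d'` -/
theorem sinv2_eq_neg_iff (N N' : ℂ) (d d' : ℝ) (h : N ≠ 0 ∨ d ≠ 0) (h' : N' ≠ 0 ∨ d' ≠ 0) :
    sinv2 N d = -sinv2 N' d' ↔ N * (starRingEnd ℂ) N' = -((d * d' : ℝ) : ℂ) := by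
  have hD := homot_den_pos N d h
  have hD' := homot_den_pos N' d' h'
  have key := homot_sinv2_key N.re N.im d N'.re N'.im d' hD.ne' hD'.ne'
  rw [← homot_sinv2_0, ← homot_sinv2_1, ← homot_sinv2_2, ← homot_sinv2_0, ← homot_sinv2_1,
    ← homot_sinv2_2] at key
  have hc : N * (starRingEnd ℂ) N' = -((d * d' : ℝ) : ℂ) ↔
      (N.re * N'.re + N.im * N'.im + d * d' = 0 ∧ N.im * N'.re - N.re * N'.im = 0) := by
    rw [Complex.ext_iff]
    simp only [Complex.mul_re, Complex.mul_im, Complex.conj_re, Complex.conj_im, Complex.neg_re,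
      Complex.neg_im, Complex.ofReal_re, Complex.ofReal_im]
    constructor
    · rintro ⟨h1, h2⟩
      constructor <;> linarith
    · rintro ⟨h1, h2⟩
      constructor <;> linarith
  rw [hc]
  constructor
  · intro e
    have e0 : sinv2 N d 0 + sinv2 N' d' 0 = 0 := by rw [e]; simp
    have e1 : sinv2 N d 1 + sinv2 N' d' 1 = 0 := by rw [e]; simp
    have e2 : sinv2 N d 2 + sinv2 N' d' 2 = 0 := by rw [e]; simp
    rw [e0, e1, e2] at key
    have hz : (N.re * N'.re + N.im * N'.im + d * d') ^ 2 + (N.im * N'.re - N.re * N'.im) ^ 2 = 0 := by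
      have hpos : (N.re ^ 2 + N.im ^ 2 + d ^ 2) * (N'.re ^ 2 + N'.im ^ 2 + d' ^ 2) ≠ 0 :=
        (mul_pos hD hD').ne'
      field_simp at key
      linarith
    constructor
    · nlinarith [sq_nonneg (N.re * N'.re + N.im * N'.im + d * d'),
        sq_nonneg (N.im * N'.re - N.re * N'.im)]
    · nlinarith [sq_nonneg (N.re * N'.re + N.im * N'.im + d * d'),
        sq_nonneg (N.im * N'.re - N.re * N'.im)]
  · rintro ⟨h1, h2⟩
    rw [h1, h2] at key
    have hz : (sinv2 N d 0 + sinv2 N' d' 0) ^ 2 + (sinv2 N d 1 + sinv2 N' d' 1) ^ 2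
        + (sinv2 N d 2 + sinv2 N' d' 2) ^ 2 = 0 := by
      rw [key]; simp
    have z0 : sinv2 N d 0 + sinv2 N' d' 0 = 0 := by
      nlinarith [sq_nonneg (sinv2 N d 0 + sinv2 N' d' 0), sq_nonneg (sinv2 N d 1 + sinv2 N' d' 1),
        sq_nonneg (sinv2 N d 2 + sinv2 N' d' 2)]
    have z1 : sinv2 N d 1 + sinv2 N' d' 1 = 0 := by
      nlinarith [sq_nonneg (sinv2 N d 0 + sinv2 N' d' 0), sq_nonneg (sinv2 N d 1 + sinv2 N' d' 1),
        sq_nonneg (sinv2 N d 2 + sinv2 N' d' 2)]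
    have z2 : sinv2 N d 2 + sinv2 N' d' 2 = 0 := by
      nlinarith [sq_nonneg (sinv2 N d 0 + sinv2 N' d' 0), sq_nonneg (sinv2 N d 1 + sinv2 N' d' 1),
        sq_nonneg (sinv2 N d 2 + sinv2 N' d' 2)]
    ext i
    fin_cases i
    · show sinv2 N d 0 = -(sinv2 N' d' 0)
      linarith
    · show sinv2 N d 1 = -(sinv2 N' d' 1)
      linarith
    · show sinv2 N d 2 = -(sinv2 N' d' 2)
      linarith

/-- in the stereographic coordinate `sq` is `z ↦ z²` -/
theorem sq_eq_sinv2 (u : StandardSphere2) (h : u.1 2 < 1) :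
    (sq u).1 = sinv2 (stereo u.1 ^ 2) 1 := by
  have hu := HCircle_sphere_eq u
  have h1 : (1 - u.1 2) ≠ 0 := by linarith
  have sre : (stereo u.1).re = u.1 0 / (1 - u.1 2) := by
    simp only [stereo, zeta, Complex.real_smul, Complex.mul_re, Complex.ofReal_re,
      Complex.ofReal_im]
    field_simp
    ring
  have sim : (stereo u.1).im = u.1 1 / (1 - u.1 2) := by
    simp only [stereo, zeta, Complex.real_smul, Complex.mul_im, Complex.ofReal_re,
      Complex.ofReal_im]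
    field_simp
    ring
  have hre : (stereo u.1 ^ 2).re = (u.1 0 ^ 2 - u.1 1 ^ 2) / (1 - u.1 2) ^ 2 := by
    rw [pow_two, Complex.mul_re, sre, sim]
    field_simp
  have him : (stereo u.1 ^ 2).im = 2 * u.1 0 * u.1 1 / (1 - u.1 2) ^ 2 := by
    rw [pow_two, Complex.mul_im, sre, sim]
    field_simp
    ring
  have hpos : (1 + u.1 2 ^ 2) ≠ 0 := by positivity
  have e : u.1 0 ^ 2 = 1 - u.1 1 ^ 2 - u.1 2 ^ 2 := by linarith
  have hden : ((u.1 0 ^ 2 - u.1 1 ^ 2) / (1 - u.1 2) ^ 2) ^ 2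
      + (2 * u.1 0 * u.1 1 / (1 - u.1 2) ^ 2) ^ 2 = (1 + u.1 2) ^ 2 / (1 - u.1 2) ^ 2 := by
    have : (u.1 0 ^ 2 - u.1 1 ^ 2) ^ 2 + (2 * u.1 0 * u.1 1) ^ 2 = ((1 + u.1 2) * (1 - u.1 2)) ^ 2 := by
      have : (u.1 0 ^ 2 - u.1 1 ^ 2) ^ 2 + (2 * u.1 0 * u.1 1) ^ 2 = (u.1 0 ^ 2 + u.1 1 ^ 2) ^ 2 := by
        ring
      rw [this, show u.1 0 ^ 2 + u.1 1 ^ 2 = (1 + u.1 2) * (1 - u.1 2) by linarith]
    field_simp
    linarith
  ext i
  fin_cases i
  · show sqAmb u.1 0 = sinv2 (stereo u.1 ^ 2) 1 0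
    rw [homot_sinv2_0, hre, him, hden]
    show (u.1 0 ^ 2 - u.1 1 ^ 2) / (1 + u.1 2 ^ 2) = _
    field_simp
    ring
  · show sqAmb u.1 1 = sinv2 (stereo u.1 ^ 2) 1 1
    rw [homot_sinv2_1, hre, him, hden]
    show 2 * u.1 0 * u.1 1 / (1 + u.1 2 ^ 2) = _
    field_simp
    ring
  · show sqAmb u.1 2 = sinv2 (stereo u.1 ^ 2) 1 2
    rw [homot_sinv2_2, hre, him, hden]
    show 2 * u.1 2 / (1 + u.1 2 ^ 2) = _
    field_simp
    ring


theorem homot_core (b s : ℝ) (J W : ℂ) (hb1 : b ≤ 1) (hs0 : 0 ≤ s) (hs1 : s ≤ 1)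
    (hJ : -(0.01 * ‖W‖) ≤ (J * (starRingEnd ℂ) W).re) (hbW : 16 ≤ ‖W‖ → b = 0)
    (hbW' : ‖W‖ < 16 → 0 < b) :
    ((b • (s • J) + (1 - b) • W) * (starRingEnd ℂ) W) ≠ -((b * 1 : ℝ) : ℂ) := by
  intro e
  have h1 : ((b • (s • J) + (1 - b) • W) * (starRingEnd ℂ) W)
      = ((b * s : ℝ) : ℂ) * (J * (starRingEnd ℂ) W)
        + ((1 - b : ℝ) : ℂ) * (W * (starRingEnd ℂ) W) := by
    simp only [Complex.real_smul]
    push_cast
    ring
  rw [h1] at e
  have e' := congrArg Complex.re e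
  rw [Complex.add_re, Complex.re_ofReal_mul, Complex.re_ofReal_mul, Complex.mul_conj,
    Complex.ofReal_re, Complex.normSq_eq_norm_sq, Complex.neg_re, Complex.ofReal_re] at e'
  have hm : 0 ≤ ‖W‖ := norm_nonneg W
  set m := ‖W‖ with hmdef
  set j := (J * (starRingEnd ℂ) W).re with hjdef
  rcases le_or_gt 16 m with h16 | h16
  · have hb := hbW h16
    rw [hb] at e'
    nlinarith
  · have hb := hbW' h16
    have h2 : b * s * j ≥ b * s * (-(0.01 * m)) :=
      mul_le_mul_of_nonneg_left hJ (mul_nonneg hb.le hs0)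
    have h3 : b * s * (0.01 * m) ≤ b * 1 * (0.01 * 16) := by
      apply mul_le_mul _ _ (by positivity) (by positivity)
      · exact mul_le_mul_of_nonneg_left hs1 hb.le
      · linarith
    have h4 : 0 ≤ (1 - b) * m ^ 2 := mul_nonneg (by linarith) (by positivity)
    nlinarith

theorem homot_gT : gT (-(1 / 4)) = 0 := by
  unfold gT
  apply Hc_of_nonpos
  unfold aG
  norm_num

theorem homot_om1 : om1 (-(1 / 4)) = 0 := by
  unfold om1
  apply Hc_of_nonpos
  norm_num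

theorem homot_That (x : ℂ × ℂ) : That (-(1 / 4)) x = 0 := by
  unfold That
  rw [homot_gT, homot_om1]
  ring

theorem homot_thT : thT (-(1 / 4)) = 1 := by
  unfold thT
  rw [stp_of_le (by norm_num) (by norm_num)]
  ring

theorem homot_Xnew_fst (x0 : ℂ) :
    (Xnew (-(1 / 4)) (x0, 0) 0).1 = sBl (-(1 / 4)) (x0, 0) • (jmap (Psi (x0, 0))).1 := by
  unfold Xnew thEff Pmap Lmap
  rw [homot_thT]
  simp

theorem homot_Psi (x0 : ℂ) :
    Psi (x0, 0) = (4 * rm34 (Rsq (x0, 0)) * c0 (Rsq (x0, 0))) • x0 ^ 2 := by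
  unfold Psi
  simp
  ring

theorem homot_J (x0 : ℂ) :
    -(0.01 * ‖x0 ^ 2‖) ≤ ((jmap (Psi (x0, 0))).1 * (starRingEnd ℂ) (x0 ^ 2)).re := by
  rcases le_or_gt 0.1 ‖Psi (x0, 0)‖ with h | h
  · rw [jmap_eq_j0 h]
    have hk : 0 ≤ 4 * rm34 (Rsq (x0, 0)) * c0 (Rsq (x0, 0)) :=
      mul_nonneg (mul_nonneg (by norm_num) (rm34_nonneg _)) (stp_nonneg _ _ _)
    have hsin : 0 ≤ Real.sin (vth (‖Psi (x0, 0)‖ ^ 2)) := by
      apply Real.sin_nonneg_of_nonneg_of_le_pi
      · unfold vth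
        exact mul_nonneg (by positivity) (stp_nonneg _ _ _)
      · unfold vth
        have := stp_le_one (0.3 ^ 2) (0.4 ^ 2) (‖Psi (x0, 0)‖ ^ 2)
        nlinarith [Real.pi_pos]
    have e0 : ∀ c : ℝ, (c • Psi (x0, 0)) * (starRingEnd ℂ) (x0 ^ 2)
        = ((c * (4 * rm34 (Rsq (x0, 0)) * c0 (Rsq (x0, 0))) : ℝ) : ℂ)
          * ((x0 ^ 2) * (starRingEnd ℂ) (x0 ^ 2)) := by
      intro c
      rw [homot_Psi x0]
      simp only [Complex.real_smul]
      push_cast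
      ring
    have e : (j0 (Psi (x0, 0))).1 * (starRingEnd ℂ) (x0 ^ 2)
        = ((Real.sin (vth (‖Psi (x0, 0)‖ ^ 2)) * ‖Psi (x0, 0)‖
            * (4 * rm34 (Rsq (x0, 0)) * c0 (Rsq (x0, 0))) : ℝ) : ℂ)
          * ((x0 ^ 2) * (starRingEnd ℂ) (x0 ^ 2)) :=
      e0 _
    rw [e, Complex.re_ofReal_mul, Complex.mul_conj, Complex.ofReal_re]
    have h1 : 0 ≤ Real.sin (vth (‖Psi (x0, 0)‖ ^ 2)) * ‖Psi (x0, 0)‖
            * (4 * rm34 (Rsq (x0, 0)) * c0 (Rsq (x0, 0))) * Complex.normSq (x0 ^ 2) :=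
      mul_nonneg (mul_nonneg (mul_nonneg hsin (norm_nonneg _)) hk) (Complex.normSq_nonneg _)
    have h2 : 0 ≤ 0.01 * ‖x0 ^ 2‖ := by positivity
    linarith
  · have hR := Rsq_jmap (Psi (x0, 0))
    unfold Rsq at hR
    have h1 : ‖(jmap (Psi (x0, 0))).1‖ ^ 2 ≤ 0.01 ^ 2 := by
      have h2 : ‖Psi (x0, 0)‖ ^ 4 ≤ 0.1 ^ 4 := by
        gcongr
      nlinarith [sq_nonneg ‖(jmap (Psi (x0, 0))).2‖]
    have h3 : ‖(jmap (Psi (x0, 0))).1‖ ≤ 0.01 := by
      apply abs_le_of_sq_le_sq' h1 (by norm_num) |>.2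
    have h4 : |((jmap (Psi (x0, 0))).1 * (starRingEnd ℂ) (x0 ^ 2)).re|
        ≤ ‖(jmap (Psi (x0, 0))).1‖ * ‖x0 ^ 2‖ := by
      refine (Complex.abs_re_le_norm _).trans ?_
      rw [norm_mul, Complex.norm_conj]
    have h5 : ‖(jmap (Psi (x0, 0))).1‖ * ‖x0 ^ 2‖ ≤ 0.01 * ‖x0 ^ 2‖ :=
      mul_le_mul_of_nonneg_right h3 (norm_nonneg _)
    have := (abs_le.1 h4).1
    linarith

theorem homot_Nnew_ne (x0 : ℂ) :
    Nnew (-(1 / 4)) (x0, 0) 0 * (starRingEnd ℂ) (x0 ^ 2) ≠ -((bS x0 * 1 : ℝ) : ℂ) := by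
  have e : Nnew (-(1 / 4)) (x0, 0) 0
      = bS x0 • (sBl (-(1 / 4)) (x0, 0) • (jmap (Psi (x0, 0))).1) + (1 - bS x0) • x0 ^ 2 := by
    unfold Nnew
    rw [homot_Xnew_fst]
  rw [e]
  have hn : ‖x0 ^ 2‖ = ‖x0‖ ^ 2 := norm_pow _ _
  apply homot_core
  · unfold bS
    linarith [stp_nonneg 9 16 (‖x0‖ ^ 2)]
  · exact stp_nonneg _ _ _
  · exact stp_le_one _ _ _
  · exact homot_J x0
  · intro h
    unfold bS
    rw [stp_of_ge (by norm_num) (by rw [← hn]; exact h)]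
    ring
  · intro h
    unfold bS
    have := stp_lt_one (a := 9) (b := 16) (x := ‖x0‖ ^ 2) (by norm_num) (by rw [← hn]; exact h)
    linarith

/-- the embedded sphere: phase `-1/4`, `x₁ = 0`, `y = 0` -/
noncomputable def aMap (u : StandardSphere2) : CounterexampleManifold 2 :=
  (⟨clockOut (-(1 / 4)), clockOut_mem _⟩,
    ![u, ⟨sinv2 0 1, sinv2_mem _ _ (Or.inr one_ne_zero)⟩,
      ⟨sinv2 0 1, sinv2_mem _ _ (Or.inr one_ne_zero)⟩])

theorem continuous_aMap : Continuous aMap := by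
  unfold aMap
  refine continuous_const.prodMk (continuous_pi fun i => ?_)
  fin_cases i
  · exact continuous_id
  · exact continuous_const
  · exact continuous_const

/-- projection to the sphere number `0` -/
def pr0 (z : CounterexampleManifold 2) : StandardSphere2 := z.2 0

theorem continuous_pr0 : Continuous pr0 :=
  (continuous_apply 0).comp continuous_snd

theorem pr0_aMap (u : StandardSphere2) : pr0 (aMap u) = u := rfl

theorem homot_tph_aMap (u : StandardSphere2) :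
    tph (standardEmbedding 2 (aMap u)).1 = -(1 / 4) := by
  show tph (clockOut (-(1 / 4))) = -(1 / 4)
  exact tph_clockOut' (by norm_num) (by norm_num)

theorem homot_xco_aMap (u : StandardSphere2) :
    xco (standardEmbedding 2 (aMap u)) = (stereo u.1, 0) := by
  show (stereo u.1, Kc (sinv2 0 1)) = (stereo u.1, 0)
  rw [Kc_sinv2 (by simp)]

theorem homot_yco_aMap (u : StandardSphere2) :
    yco (standardEmbedding 2 (aMap u)) = 0 := by
  show Kc (sinv2 0 1) = 0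
  rw [Kc_sinv2 (by simp)]

theorem homot_Fglob_lt (u : StandardSphere2) (h : u.1 2 < 1) :
    Fglob (standardEmbedding 2 (aMap u)) = (clockOut 0,
      ![sinv2 (Nnew (-(1 / 4)) (stereo u.1, 0) 0) (bS (stereo u.1)),
        sinv2 (Xnew (-(1 / 4)) (stereo u.1, 0) 0).2 1, sinv2 (Yreg (stereo u.1, 0)) 1]) := by
  have h' : (standardEmbedding 2 (aMap u)).2 0 2 < 1 := h
  unfold Fglob
  rw [if_pos h']
  unfold FA
  rw [homot_tph_aMap, homot_xco_aMap, homot_yco_aMap, homot_That]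

theorem homot_Fglob_ge (u : StandardSphere2) (h : ¬ u.1 2 < 1) :
    Fglob (standardEmbedding 2 (aMap u)) = (clockOut 0, ![sinv2 1 0, sinv2 0 1, sinv2 0 1]) := by
  have h' : ¬ (standardEmbedding 2 (aMap u)).2 0 2 < 1 := h
  unfold Fglob
  rw [if_neg h']
  unfold FB
  rw [homot_tph_aMap, homot_om1]

theorem homot_Fglob_fst (u : StandardSphere2) :
    (Fglob (standardEmbedding 2 (aMap u))).1 = clockOut 0 := by
  by_cases h : u.1 2 < 1
  · rw [homot_Fglob_lt u h]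
  · rw [homot_Fglob_ge u h]

theorem homot_clock_ne : clockOut 0 ≠ -clockOut (-(1 / 4)) := by
  intro e
  have e0 : clockOut 0 0 = -(clockOut (-(1 / 4)) 0) := by rw [e]; rfl
  have a : clockOut 0 0 = 1 := by
    show Real.cos (2 * Real.pi * 0) = 1
    simp
  have b : clockOut (-(1 / 4)) 0 = 0 := by
    show Real.cos (2 * Real.pi * (-(1 / 4))) = 0
    rw [show 2 * Real.pi * (-(1 / 4)) = -(Real.pi / 2) by ring, Real.cos_neg, Real.cos_pi_div_two]
  rw [a, b] at e0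
  norm_num at e0

theorem homot_south_ne (X : ℂ) : sinv2 X 1 ≠ -sinv2 0 1 := by
  rw [Ne, sinv2_eq_neg_iff X 0 1 1 (Or.inr one_ne_zero) (Or.inr one_ne_zero)]
  simp

theorem homot_north_ne (u : StandardSphere2) (h : ¬ u.1 2 < 1) : sinv2 1 0 ≠ -(sq u).1 := by
  intro e
  have e2 : sinv2 1 0 2 = -((sq u).1 2) := by rw [e]; rfl
  have a : sinv2 1 0 2 = 1 := by
    rw [homot_sinv2_2]; simp
  have b : (sq u).1 2 = 2 * u.1 2 / (1 + u.1 2 ^ 2) := rfl
  have c : 0 ≤ 2 * u.1 2 / (1 + u.1 2 ^ 2) := by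
    have : 0 ≤ u.1 2 := by linarith [not_lt.1 h]
    positivity
  rw [a, b] at e2
  linarith

theorem fMap_aMap_homotopic :
    ContinuousMap.Homotopic
      (⟨fMap ∘ aMap, isC1SelfMap_fMap.1.comp continuous_aMap⟩ :
        C(StandardSphere2, CounterexampleManifold 2))
      ⟨aMap ∘ sq, continuous_aMap.comp continuous_sq⟩ := by
  apply homotopic_of_nonantipodal 2
  · intro u
    show (Fglob (standardEmbedding 2 (aMap u))).1 ≠ -clockOut (-(1 / 4))
    rw [homot_Fglob_fst]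
    exact homot_clock_ne
  · intro u i
    show (Fglob (standardEmbedding 2 (aMap u))).2 i ≠ -((aMap (sq u)).2 i).1
    by_cases h : u.1 2 < 1
    · rw [homot_Fglob_lt u h]
      fin_cases i
      · show sinv2 (Nnew (-(1 / 4)) (stereo u.1, 0) 0) (bS (stereo u.1)) ≠ -(sq u).1
        rw [sq_eq_sinv2 u h, Ne, sinv2_eq_neg_iff _ _ _ _ (Nnew_ne_or _ (stereo u.1, 0) _)
          (Or.inr one_ne_zero)]
        exact homot_Nnew_ne _
      · exact homot_south_ne _
      · exact homot_south_ne _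
    · rw [homot_Fglob_ge u h]
      fin_cases i
      · exact homot_north_ne u h
      · exact homot_south_ne _
      · exact homot_south_ne _

theorem not_bijective_fMap : ¬ Function.Bijective fMap := by
  intro hb
  let N : StandardSphere2 := ⟨sinv2 1 0, sinv2_mem _ _ (Or.inl one_ne_zero)⟩
  let So : StandardSphere2 := ⟨sinv2 0 1, sinv2_mem _ _ (Or.inr one_ne_zero)⟩
  let c : StandardClock := ⟨clockOut 0, clockOut_mem _⟩
  let z1 : CounterexampleManifold 2 := (c, ![N, So, So])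
  let z2 : CounterexampleManifold 2 := (c, ![N, N, So])
  have hN : (15 / 17 : ℝ) ≤ sinv2 1 0 2 := by
    rw [homot_sinv2_2]; norm_num
  have e1 : fMap z1 = decS (red (om1 (tph z1.1.1))) := fMap_eq_decS z1 hN
  have e2 : fMap z2 = decS (red (om1 (tph z2.1.1))) := fMap_eq_decS z2 hN
  have e : z1 = z2 := hb.1 (e1.trans e2.symm)
  have e3 : (z1.2 1).1 2 = (z2.2 1).1 2 := by rw [e]
  have a : (z1.2 1).1 2 = -1 := by
    show sinv2 0 1 2 = -1
    rw [homot_sinv2_2]; norm_num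
  have b : (z2.2 1).1 2 = 1 := by
    show sinv2 1 0 2 = 1
    rw [homot_sinv2_2]; norm_num
  rw [a, b] at e3
  norm_num at e3

end Claimed.Agent.R082
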