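import Claimed.Agent.R082.Entropy
import Claimed.Agent.R082.HBasic
import Claimed.Agent.R082.HEigen
import Claimed.Agent.R082.HSphere
import Claimed.Agent.R082.Bounded
import Claimed.Agent.R082.Homot

/-!
# Row 82: assembly of S0181 from the packages (this file has no sorry of its own)
-/

set_option autoImplicit false
open Claims Claims.C0146 Claims.C0146.Problem340
open CategoryTheory

namespace Claimed.Agent.R082

theorem entropy_zero :
    Dynamics.coverEntropy fMap (Set.univ : Set (CounterexampleManifold 2)) = (0 : EReal) := by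
  have : Nonempty (CounterexampleManifold 2) := ⟨decS 0⟩
  refine coverEntropy_eq_zero_of_bounded_outside fMap isC1SelfMap_fMap.1 Pfix Pfix_finite
    Pfix_fixed ?_
  intro ε hε
  obtain ⟨N, hN⟩ := outBdd_univ ε hε
  exact ⟨N, fun x s hs => hN x (Set.mem_univ x) s hs⟩

theorem exists_eigenclass :
    ∃ v : RealSingularHomology 2 (CounterexampleManifold 2), v ≠ 0 ∧
      realHomologyMap 2 fMap isC1SelfMap_fMap.1 v = (2 : ℝ) • v := by
  obtain ⟨ς, hς0, hς⟩ := exists_H2_class
  refine ⟨realHomologyMap 2 aMap continuous_aMap ς, ?_, ?_⟩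
  · intro h0
    apply hς0
    have h1 : realHomologyMap 2 (pr0 ∘ aMap) (continuous_pr0.comp continuous_aMap) ς = ς := by
      have : realHomologyMap 2 (pr0 ∘ aMap) (continuous_pr0.comp continuous_aMap)
          = realHomologyMap 2 (id : StandardSphere2 → StandardSphere2) continuous_id := rfl
      rw [this, realHomologyMap_id]; rfl
    rw [realHomologyMap_comp 2 aMap pr0 continuous_aMap continuous_pr0] at h1
    rw [← h1, LinearMap.comp_apply, h0, map_zero]
  · have h1 := realHomologyMap_comp 2 aMap fMap continuous_aMap isC1SelfMap_fMap.1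
    have h2 := realHomologyMap_comp 2 sq aMap continuous_sq continuous_aMap
    have h3 := realHomologyMap_congr_homotopic 2 (fMap ∘ aMap) (aMap ∘ sq)
      (isC1SelfMap_fMap.1.comp continuous_aMap) (continuous_aMap.comp continuous_sq)
      fMap_aMap_homotopic
    calc realHomologyMap 2 fMap isC1SelfMap_fMap.1 (realHomologyMap 2 aMap continuous_aMap ς)
        = realHomologyMap 2 (fMap ∘ aMap) (isC1SelfMap_fMap.1.comp continuous_aMap) ς := by
          rw [h1]; rfl
      _ = realHomologyMap 2 (aMap ∘ sq) (continuous_aMap.comp continuous_sq) ς := by rw [h3]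
      _ = realHomologyMap 2 aMap continuous_aMap (realHomologyMap 2 sq continuous_sq ς) := by
          rw [h2]; rfl
      _ = (2 : ℝ) • realHomologyMap 2 aMap continuous_aMap ς := by rw [hς, map_smul]

theorem two_le_radius : (2 : ℝ) ≤ totalRealHomologySpectralRadius fMap isC1SelfMap_fMap.1 := by
  obtain ⟨v, hv0, hv⟩ := exists_eigenclass
  unfold totalRealHomologySpectralRadius
  refine le_csSup (bddAbove_eigenmoduli 2 fMap isC1SelfMap_fMap.1) ?_
  refine ⟨2, 2, 0, v, 0, Or.inl hv0, ?_, ?_, ?_⟩
  · rw [hv]; simp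
  · simp
  · rw [show ((2 : ℝ) ^ 2 + 0 ^ 2) = 2 ^ 2 by norm_num, Real.sqrt_sq (by norm_num)]

end Claimed.Agent.R082
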