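import Claimed.Agent.R082.PsiLem
import Claimed.Agent.R082.Charts

/-!
# Row 82: `fMap` is a `C¹` self-map in the sense of `Def_0146`
Blueprint: `docs/R082_blueprint.md` §5 on `origin/helper82`.
-/

set_option autoImplicit false

open Claims Claims.C0146 Claims.C0146.Problem340

namespace Claimed.Agent.R082

/-- domain of the formula `FA` -/
def UA : Set (CounterexampleAmbient 2) := {p | p.1 ≠ 0 ∧ p.2 0 2 < 1}

/-- domain of the formula `FB` -/
def UB : Set (CounterexampleAmbient 2) := {p | p.1 ≠ 0 ∧ 15 / 17 < p.2 0 2}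

theorem c1_continuous_height : Continuous (fun p : CounterexampleAmbient 2 => p.2 0 2) := by
  fun_prop

theorem isOpen_UA : IsOpen UA := by
  have h1 : IsOpen {p : CounterexampleAmbient 2 | p.1 ≠ 0} :=
    isOpen_ne_fun continuous_fst continuous_const
  have h2 : IsOpen {p : CounterexampleAmbient 2 | p.2 0 2 < 1} :=
    isOpen_lt c1_continuous_height continuous_const
  exact h1.inter h2

theorem isOpen_UB : IsOpen UB := by
  have h1 : IsOpen {p : CounterexampleAmbient 2 | p.1 ≠ 0} :=
    isOpen_ne_fun continuous_fst continuous_const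
  have h2 : IsOpen {p : CounterexampleAmbient 2 | 15 / 17 < p.2 0 2} :=
    isOpen_lt continuous_const c1_continuous_height
  exact h1.inter h2

theorem c1_contDiff_tauB : ContDiff ℝ 1 tauB := by
  unfold tauB
  exact (contDiff_const.mul (contDiff_stp _ _)).add (contDiff_const.mul (contDiff_stp _ _))

theorem c1_contDiff_thE : ContDiff ℝ 1 thE := contDiff_stp _ _

theorem c1_contDiff_sig : ContDiff ℝ 1 sig := contDiff_stp _ _

theorem c1_contDiff_thT : ContDiff ℝ 1 thT := by
  unfold thT
  exact contDiff_const.sub ((contDiff_stp _ _).mul (contDiff_const.sub (contDiff_stp _ _)))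

theorem c1_contDiff_gT : ContDiff ℝ 1 gT := by
  unfold gT
  exact contDiff_Hc.comp (contDiff_id.div_const _)

theorem c1_contDiff_Gb : ContDiff ℝ 1 Gb := by
  unfold Gb
  exact c1_contDiff_gT.mul (contDiff_const.sub (contDiff_stp _ _))

theorem c1_contDiff_bS : ContDiff ℝ 1 bS := by
  unfold bS
  exact contDiff_const.sub ((contDiff_stp _ _).comp (contDiff_norm_sq ℝ))

theorem c1_contDiff_Lmap : ContDiff ℝ 1 Lmap := by
  unfold Lmap
  exact (contDiff_const.mul contDiff_snd).prodMk (contDiff_const.mul contDiff_fst)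

theorem c1_thT_right (t : ℝ) (h : 3 / 8 ≤ t) : thT t = 1 := by
  unfold thT
  rw [stp_of_ge (by norm_num) (by linarith : (0.30 : ℝ) ≤ t)]
  ring

theorem c1_thT_left (t : ℝ) (h : t ≤ -(3 / 8)) : thT t = 1 := by
  unfold thT
  rw [stp_of_le (by norm_num) (by linarith : t ≤ (0.20 : ℝ))]
  ring

theorem c1_Gb_right (t : ℝ) (h : 3 / 8 ≤ t) : Gb t = 0 := by
  unfold Gb
  rw [stp_of_ge (by norm_num) (by linarith : (0.28 : ℝ) ≤ t)]
  ring

theorem c1_Gb_left (t : ℝ) (h : t ≤ -(3 / 8)) : Gb t = 0 := by
  unfold Gb gT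
  rw [Hc_of_nonpos (div_nonpos_of_nonpos_of_nonneg (by linarith) (by unfold aG; norm_num))]
  ring

theorem c1_contDiffOn_xco : ContDiffOn ℝ 1 xco UA := by
  unfold xco
  refine ContDiffOn.prodMk ?_ ?_
  · refine contDiffOn_stereo.comp (t := {u : SphereAmbient | u 2 < 1})
      (f := fun p : CounterexampleAmbient 2 => p.2 0) (s := UA) ?_ (fun p hp => hp.2)
    exact ((contDiff_apply ℝ SphereAmbient (0 : Fin 3)).comp contDiff_snd).contDiffOn
  · exact (contDiff_Kc.comp
      ((contDiff_apply ℝ SphereAmbient (1 : Fin 3)).comp contDiff_snd)).contDiffOn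

theorem c1_contDiff_yco : ContDiff ℝ 1 yco := by
  unfold yco
  exact contDiff_Kc.comp ((contDiff_apply ℝ SphereAmbient (2 : Fin 3)).comp contDiff_snd)

theorem c1_contDiffOn_tau : ContDiffOn ℝ 1 (fun p => tauB (Rsq (xco p))) UA :=
  c1_contDiff_tauB.comp_contDiffOn (contDiff_Rsq.comp_contDiffOn c1_contDiffOn_xco)

theorem c1_contDiffOn_thT : ContDiffOn ℝ 1 (fun p : CounterexampleAmbient 2 => thT (tph p.1)) UA :=
  (contDiffOn_comp_tph thT c1_contDiff_thT 1 c1_thT_right c1_thT_left).comp
    (f := fun p : CounterexampleAmbient 2 => p.1) contDiff_fst.contDiffOn (fun _ hp => hp.1)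

theorem c1_contDiffOn_Gb : ContDiffOn ℝ 1 (fun p : CounterexampleAmbient 2 => Gb (tph p.1)) UA :=
  (contDiffOn_comp_tph Gb c1_contDiff_Gb 0 c1_Gb_right c1_Gb_left).comp
    (f := fun p : CounterexampleAmbient 2 => p.1) contDiff_fst.contDiffOn (fun _ hp => hp.1)

theorem c1_contDiffOn_sBl : ContDiffOn ℝ 1 (fun p => sBl (tph p.1) (xco p)) UA := by
  unfold sBl
  exact c1_contDiff_sig.comp_contDiffOn
    (c1_contDiffOn_tau.add (c1_contDiffOn_Gb.mul (contDiffOn_const.sub c1_contDiffOn_tau)))

theorem c1_contDiffOn_Pmap : ContDiffOn ℝ 1 (fun p => Pmap (tph p.1) (xco p)) UA := by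
  unfold Pmap
  exact ((contDiffOn_const.sub c1_contDiffOn_sBl).smul
      (c1_contDiff_Lmap.comp_contDiffOn c1_contDiffOn_xco)).add
    (c1_contDiffOn_sBl.smul
      (contDiff_jmap.comp_contDiffOn (contDiff_Psi.comp_contDiffOn c1_contDiffOn_xco)))

theorem c1_contDiffOn_thEff : ContDiffOn ℝ 1 (fun p => thEff (tph p.1) (xco p)) UA := by
  unfold thEff
  exact contDiffOn_const.sub ((contDiffOn_const.sub c1_contDiffOn_thT).mul
    (contDiffOn_const.sub
      (c1_contDiff_thE.comp_contDiffOn (contDiff_Rsq.comp_contDiffOn c1_contDiffOn_xco))))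

theorem c1_contDiffOn_Xnew : ContDiffOn ℝ 1 (fun p => Xnew (tph p.1) (xco p) (yco p)) UA := by
  unfold Xnew
  exact (c1_contDiffOn_thEff.smul c1_contDiffOn_Pmap).add
    ((contDiffOn_const.sub c1_contDiffOn_thEff).smul
      (contDiff_jmap.comp c1_contDiff_yco).contDiffOn)

theorem c1_contDiffOn_bS : ContDiffOn ℝ 1 (fun p => bS (xco p).1) UA :=
  c1_contDiff_bS.comp_contDiffOn (contDiff_fst.comp_contDiffOn c1_contDiffOn_xco)

theorem c1_contDiffOn_Nnew : ContDiffOn ℝ 1 (fun p => Nnew (tph p.1) (xco p) (yco p)) UA := by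
  unfold Nnew
  exact (c1_contDiffOn_bS.smul (contDiff_fst.comp_contDiffOn c1_contDiffOn_Xnew)).add
    ((contDiffOn_const.sub c1_contDiffOn_bS).smul
      ((contDiff_fst.comp_contDiffOn c1_contDiffOn_xco).pow 2))

theorem contDiffOn_FA : ContDiffOn ℝ 1 FA UA := by
  unfold FA
  refine ContDiffOn.prodMk ?_ ?_
  · unfold That
    exact contDiffOn_clock.comp
      (f := fun p : CounterexampleAmbient 2 => (p.1, tauB (Rsq (xco p))))
      (contDiff_fst.contDiffOn.prodMk c1_contDiffOn_tau) (fun p hp => hp.1)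
  · rw [contDiffOn_pi]
    intro i
    fin_cases i
    · exact contDiffOn_sinv2.comp
        (f := fun p : CounterexampleAmbient 2 =>
          (Nnew (tph p.1) (xco p) (yco p), bS (xco p).1))
        (c1_contDiffOn_Nnew.prodMk c1_contDiffOn_bS) (fun p _ => Nnew_ne_or _ _ _)
    · exact contDiffOn_sinv2.comp
        (f := fun p : CounterexampleAmbient 2 =>
          ((Xnew (tph p.1) (xco p) (yco p)).2, (1 : ℝ)))
        ((contDiff_snd.comp_contDiffOn c1_contDiffOn_Xnew).prodMk contDiffOn_const)
        (fun p _ => Or.inr one_ne_zero)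
    · exact contDiffOn_sinv2.comp
        (f := fun p : CounterexampleAmbient 2 => (Yreg (xco p), (1 : ℝ)))
        ((contDiff_Yreg.comp_contDiffOn c1_contDiffOn_xco).prodMk contDiffOn_const)
        (fun p _ => Or.inr one_ne_zero)

theorem contDiffOn_FB : ContDiffOn ℝ 1 FB UB := by
  unfold FB
  refine ContDiffOn.prodMk ?_ contDiffOn_const
  have h := contDiffOn_clock.comp
      (f := fun p : CounterexampleAmbient 2 => (p.1, (1 : ℝ))) (s := UB)
      (contDiff_fst.contDiffOn.prodMk contDiffOn_const) (fun p hp => hp.1)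
  refine h.congr fun p _ => ?_
  simp

/-- for `|x₀| ≥ 4` the chart formula gives the sink values -/
theorem FA_eq_FB (z : CounterexampleManifold 2) (h1 : 15 / 17 ≤ (z.2 0).1 2) (h2 : (z.2 0).1 2 < 1) :
    FA (standardEmbedding 2 z) = FB (standardEmbedding 2 z) := by
  set p := standardEmbedding 2 z with hp
  set t := tph p.1 with ht
  set y := yco p with hy
  have hx : xco p = (stereo (z.2 0).1, Kc (z.2 1).1) := rfl
  set x := xco p with hxdef
  have hx1 : x.1 = stereo (z.2 0).1 := by rw [hx]
  have hx2 : x.2 = Kc (z.2 1).1 := by rw [hx]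
  have ha : 16 ≤ ‖x.1‖ ^ 2 := by
    rw [hx1, norm_stereo_sq _ h2, le_div_iff₀ (by linarith)]
    linarith
  have hK : ‖x.2‖ ^ 2 ≤ 39 := by
    rw [hx2]
    exact norm_Kc_sq_le _
  have hR : Rsq x = ‖x.1‖ ^ 2 + ‖x.2‖ ^ 2 := rfl
  have hR16 : 16 ≤ Rsq x := by
    rw [hR]
    have := sq_nonneg ‖x.2‖
    linarith
  have htau : tauB (Rsq x) = 1 := by
    unfold tauB
    rw [stp_of_ge (by norm_num) (by norm_num; linarith),
      stp_of_ge (by norm_num) (by norm_num; linarith)]
    norm_num
  have hthE : thE (Rsq x) = 1 := by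
    unfold thE
    rw [stp_of_ge (by norm_num) (by norm_num; linarith)]
  have hbS : bS x.1 = 0 := by
    unfold bS
    rw [stp_of_ge (by norm_num) ha]
    ring
  have hs : sBl t x = 1 := by
    unfold sBl sig
    rw [htau]
    rw [stp_of_ge (by norm_num) (by norm_num)]
  have hP : Pmap t x = jmap (Psi x) := by
    unfold Pmap
    rw [hs]
    simp
  have hth : thEff t x = 1 := by
    unfold thEff
    rw [hthE]
    ring
  have hX : Xnew t x y = jmap (Psi x) := by
    unfold Xnew
    rw [hth, hP]
    simp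
  have hrm : (Rsq x)⁻¹ ≤ rm34 (Rsq x) := by
    unfold rm34
    have hs1 : 1 ≤ Real.sqrt (Rsq x) := by
      rw [Real.one_le_sqrt]
      linarith
    have hs2 : Real.sqrt (Real.sqrt (Rsq x)) ≤ Real.sqrt (Rsq x) := by
      rw [Real.sqrt_le_left (by linarith)]
      nlinarith
    have hs3 : Real.sqrt (Rsq x) * Real.sqrt (Rsq x) = Rsq x :=
      Real.mul_self_sqrt (by linarith)
    have hs4 : 0 < Real.sqrt (Real.sqrt (Rsq x)) := Real.sqrt_pos.mpr (by linarith)
    apply inv_anti₀ (mul_pos (by linarith) hs4)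
    calc Real.sqrt (Rsq x) * Real.sqrt (Real.sqrt (Rsq x))
        ≤ Real.sqrt (Rsq x) * Real.sqrt (Rsq x) :=
          mul_le_mul_of_nonneg_left hs2 (by linarith)
      _ = Rsq x := hs3
  have hPsi : Psi x = (4 * rm34 (Rsq x) : ℝ) • x.1 ^ 2 :=
    Psi_of_big (by norm_num; linarith)
  have hPn : 0.4 ≤ ‖Psi x‖ := by
    rw [hPsi, norm_smul, norm_pow, Real.norm_eq_abs,
      abs_of_nonneg (mul_nonneg (by norm_num) (rm34_nonneg _))]
    have h3 : (0.1 : ℝ) ≤ (Rsq x)⁻¹ * ‖x.1‖ ^ 2 := by
      rw [inv_mul_eq_div, le_div_iff₀ (by linarith)]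
      rw [hR]
      linarith
    have h4 : (Rsq x)⁻¹ * ‖x.1‖ ^ 2 ≤ rm34 (Rsq x) * ‖x.1‖ ^ 2 :=
      mul_le_mul_of_nonneg_right hrm (by positivity)
    nlinarith
  have hX2 : (Xnew t x y).2 = 0 := by
    rw [hX, jmap_of_ge hPn]
  have hN : Nnew t x y = x.1 ^ 2 := by
    unfold Nnew
    rw [hbS]
    simp
  have hx0 : x.1 ^ 2 ≠ 0 := by
    intro h0
    have : ‖x.1‖ ^ 2 = 0 := by rw [← norm_pow, h0, norm_zero]
    linarith
  have hY : Yreg x = 0 := Yreg_of_big (by norm_num; linarith)
  have hT : That t x = om1 t := by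
    unfold That
    rw [htau]
    ring
  unfold FA FB
  rw [← ht, ← hxdef, ← hy, hT, hN, hbS, hX2, hY, sinv2_zero_right hx0]

/-- general principle: local `C¹` (even continuous) ambient extensions give continuity -/
theorem continuous_of_local_extension (q : ℕ)
    (f : CounterexampleManifold q → CounterexampleManifold q)
    (h : ∀ x : CounterexampleManifold q,
      ∃ U : Set (CounterexampleAmbient q),
        IsOpen U ∧ standardEmbedding q x ∈ U ∧
          ∃ F : CounterexampleAmbient q → CounterexampleAmbient q,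
            ContDiffOn ℝ 1 F U ∧
              ∀ y : CounterexampleManifold q,
                standardEmbedding q y ∈ U →
                  standardEmbedding q (f y) = F (standardEmbedding q y)) :
    Continuous f := by
  have hemb : Continuous (standardEmbedding q) := by
    unfold standardEmbedding
    fun_prop
  have h1 : Continuous (fun x => standardEmbedding q (f x)) := by
    rw [continuous_iff_continuousAt]
    intro x
    obtain ⟨U, hU, hxU, F, hF, hfF⟩ := h x
    have hFc : ContinuousAt F (standardEmbedding q x) :=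
      (hF.continuousOn).continuousAt (hU.mem_nhds hxU)
    have hc : ContinuousAt (fun y => F (standardEmbedding q y)) x :=
      ContinuousAt.comp (f := standardEmbedding q) hFc hemb.continuousAt
    refine hc.congr ?_
    have : (standardEmbedding q) ⁻¹' U ∈ nhds x := (hU.preimage hemb).mem_nhds hxU
    filter_upwards [this] with y hy
    exact (hfF y hy).symm
  exact Continuous.prodMk (Continuous.subtype_mk (continuous_fst.comp h1) fun x => (f x).1.2)
    (continuous_pi fun i => Continuous.subtype_mk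
      ((continuous_apply i).comp (continuous_snd.comp h1)) fun x => ((f x).2 i).2)

theorem isC1SelfMap_fMap : IsC1SelfMap 2 fMap := by
  have H : ∀ x : CounterexampleManifold 2,
      ∃ U : Set (CounterexampleAmbient 2),
        IsOpen U ∧ standardEmbedding 2 x ∈ U ∧
          ∃ F : CounterexampleAmbient 2 → CounterexampleAmbient 2,
            ContDiffOn ℝ 1 F U ∧
              ∀ y : CounterexampleManifold 2,
                standardEmbedding 2 y ∈ U →
                  standardEmbedding 2 (fMap y) = F (standardEmbedding 2 y) := by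
    intro x
    have hx1 : (standardEmbedding 2 x).1 ≠ 0 := by
      intro h0
      have h := x.1.2
      rw [mem_sphere_zero_iff_norm] at h
      have h0' : x.1.1 = 0 := h0
      rw [h0', norm_zero] at h
      exact zero_ne_one h
    by_cases hx : (x.2 0).1 2 < 1
    · refine ⟨UA, isOpen_UA, ⟨hx1, hx⟩, FA, contDiffOn_FA, fun y hy => ?_⟩
      rw [standardEmbedding_fMap]
      unfold Fglob
      rw [if_pos hy.2]
    · refine ⟨UB, isOpen_UB, ⟨hx1, ?_⟩, FB, contDiffOn_FB, fun y hy => ?_⟩
      · have : (1 : ℝ) ≤ (x.2 0).1 2 := not_lt.mp hx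
        show (15 / 17 : ℝ) < (x.2 0).1 2
        linarith
      · rw [standardEmbedding_fMap]
        unfold Fglob
        split_ifs with hy1
        · exact FA_eq_FB y (le_of_lt hy.2) hy1
        · rfl
  exact ⟨continuous_of_local_extension 2 fMap H, H⟩

end Claimed.Agent.R082
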