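import Mathlib

/-!
# Row 82, module J: a criterion for `C^1` at a flat point

A map which is `C^1` off the origin, is `O(‖x‖^2)` and whose derivative tends to `0` at the origin
is `C^1`.
-/

set_option autoImplicit false

namespace Claimed.Agent.R082

open Filter Topology

theorem JFlat_hasFDerivAt_zero {E F : Type*} [NormedAddCommGroup E] [NormedSpace ℝ E]
    [NormedAddCommGroup F] [NormedSpace ℝ F] (f : E → F) (C : ℝ)
    (hq : ∀ x, ‖f x‖ ≤ C * ‖x‖ ^ 2) : HasFDerivAt f (0 : E →L[ℝ] F) 0 := by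
  have h0 : f 0 = 0 := by
    have := hq 0
    simpa using this
  rw [hasFDerivAt_iff_isLittleO_nhds_zero]
  simp only [zero_add, h0, sub_zero, _root_.zero_apply]
  have h1 : (fun h : E => f h) =O[𝓝 0] (fun h : E => ‖h‖ ^ 2) := by
    refine Asymptotics.IsBigO.of_bound C (Eventually.of_forall fun x => ?_)
    rw [Real.norm_of_nonneg (by positivity)]
    exact hq x
  refine h1.trans_isLittleO ?_
  have h2 : (fun h : E => ‖h‖ ^ 2) =o[𝓝 0] (fun h : E => ‖h‖ ^ 1) := by
    have := (Asymptotics.isLittleO_pow_pow (𝕜 := ℝ) (m := 1) (n := 2) (by norm_num))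
    exact this.comp_tendsto (tendsto_norm_zero (E := E))
  have h3 : (fun h : E => ‖h‖ ^ 2) =o[𝓝 0] (fun h : E => ‖h‖) := by simpa using h2
  exact Asymptotics.isLittleO_norm_right.1 h3

theorem JFlat_contDiff_one {E F : Type*} [NormedAddCommGroup E] [NormedSpace ℝ E]
    [NormedAddCommGroup F] [NormedSpace ℝ F] (f : E → F) (C : ℝ)
    (hsm : ∀ x, x ≠ 0 → ContDiffAt ℝ 1 f x)
    (hq : ∀ x, ‖f x‖ ≤ C * ‖x‖ ^ 2)
    (hd : Tendsto (fun x => ‖fderiv ℝ f x‖) (𝓝[≠] 0) (𝓝 0)) : ContDiff ℝ 1 f := by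
  have h0 := JFlat_hasFDerivAt_zero f C hq
  rw [contDiff_one_iff_fderiv]
  constructor
  · intro x
    by_cases hx : x = 0
    · subst hx; exact h0.differentiableAt
    · exact (hsm x hx).differentiableAt (by norm_num)
  · rw [continuous_iff_continuousAt]
    intro x
    by_cases hx : x = 0
    · subst hx
      rw [continuousAt_iff_punctured_nhds, h0.fderiv]
      exact tendsto_zero_iff_norm_tendsto_zero.2 hd
    · exact ((hsm x hx).fderiv_right (m := 0) (by norm_num)).continuousAt

end Claimed.Agent.R082
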