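import Claimed.Agent.R082.Scalar
import Claimed.Agent.R082.JFlat

/-!
# Row 82: the carrier `j : ℂ → ℂ²` (properties J1-J5)
Blueprint: `docs/R082_blueprint.md` §2 on `origin/helper82`.

`jmap w = Linv^[k] (j0 (Dmap^[k] w))`, `k = jlev w` the least `k` with `4^k |w| ≥ 0.1`.
Key remark: the same formula holds for EVERY `k` with `0.1 ≤ 4^k |w| ≤ 1`
(because `j0 (D v) = L (j0 v)` for `0.1 ≤ |v| ≤ 0.25`: both are `(16 v², 0)`).
-/

set_option autoImplicit false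

namespace Claimed.Agent.R082

open Filter Topology

theorem Dmap_zero : Dmap 0 = 0 := by
  simp [Dmap]

theorem norm_Dmap (w : ℂ) : ‖Dmap w‖ = 4 * ‖w‖ := by
  by_cases hw : w = 0
  · subst hw; simp [Dmap]
  · have hpos : 0 < ‖w‖ := norm_pos_iff.2 hw
    unfold Dmap
    rw [norm_div, norm_mul, norm_pow, Complex.norm_real, norm_norm]
    have : ‖(4 : ℂ)‖ = 4 := by simp
    rw [this]
    field_simp

theorem Carrier_Dmap_ne_zero {w : ℂ} (hw : w ≠ 0) : Dmap w ≠ 0 := by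
  intro h
  have := norm_Dmap w
  rw [h, norm_zero] at this
  have hpos : 0 < ‖w‖ := norm_pos_iff.2 hw
  linarith

/-- the key inequality for the Lipschitz constant, in real coordinates -/
theorem Carrier_lip_aux (w v : ℂ) (hw : w ≠ 0) (hv : v ≠ 0) :
    ‖w ^ 2 / (‖w‖ : ℂ) - v ^ 2 / (‖v‖ : ℂ)‖ ^ 2 ≤ 4 * ‖w - v‖ ^ 2 := by
  have ha : 0 < ‖w‖ := norm_pos_iff.2 hw
  have hb : 0 < ‖v‖ := norm_pos_iff.2 hv
  set a := ‖w‖ with hadef
  set b := ‖v‖ with hbdef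
  have ha2 : a ^ 2 = w.re ^ 2 + w.im ^ 2 := by
    rw [hadef, Complex.sq_norm, Complex.normSq_apply]; ring
  have hb2 : b ^ 2 = v.re ^ 2 + v.im ^ 2 := by
    rw [hbdef, Complex.sq_norm, Complex.normSq_apply]; ring
  set p := w.re * v.re + w.im * v.im with hp
  have e1 : ‖w - v‖ ^ 2 = a ^ 2 + b ^ 2 - 2 * p := by
    rw [Complex.sq_norm, Complex.normSq_apply, ha2, hb2, hp]
    simp only [Complex.sub_re, Complex.sub_im]; ring
  have hdiv : w ^ 2 / (a : ℂ) - v ^ 2 / (b : ℂ)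
      = ((a⁻¹ : ℝ) : ℂ) * w ^ 2 - ((b⁻¹ : ℝ) : ℂ) * v ^ 2 := by
    push_cast; ring
  have e2 : ‖w ^ 2 / (a : ℂ) - v ^ 2 / (b : ℂ)‖ ^ 2
      = a ^ 2 + b ^ 2 - 2 * (2 * p ^ 2 - a ^ 2 * b ^ 2) / (a * b) := by
    rw [hdiv, Complex.sq_norm, Complex.normSq_apply]
    simp only [Complex.sub_re, Complex.sub_im, Complex.mul_re, Complex.mul_im, Complex.ofReal_re,
      Complex.ofReal_im, zero_mul, sub_zero, add_zero, pow_two]
    have key : (a⁻¹ * (w.re * w.re - w.im * w.im) - b⁻¹ * (v.re * v.re - v.im * v.im))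
          * (a⁻¹ * (w.re * w.re - w.im * w.im) - b⁻¹ * (v.re * v.re - v.im * v.im))
        + (a⁻¹ * (w.re * w.im + w.im * w.re) - b⁻¹ * (v.re * v.im + v.im * v.re))
          * (a⁻¹ * (w.re * w.im + w.im * w.re) - b⁻¹ * (v.re * v.im + v.im * v.re))
        = a⁻¹ ^ 2 * (a ^ 2) ^ 2 + b⁻¹ ^ 2 * (b ^ 2) ^ 2
          - 2 * a⁻¹ * b⁻¹ * (2 * p ^ 2 - a ^ 2 * b ^ 2) := by
      rw [ha2, hb2, hp]; ring
    rw [key]
    field_simp
  rw [e1, e2]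
  have h3 : 2 * (2 * p ^ 2 - a ^ 2 * b ^ 2) / (a * b) = 4 * p ^ 2 / (a * b) - 2 * (a * b) := by
    field_simp
    ring
  rw [h3]
  have h4 : 0 ≤ 4 * (a * b - p) ^ 2 / (a * b) := by positivity
  have h5 : 4 * (a * b - p) ^ 2 / (a * b) = 4 * (a * b) - 8 * p + 4 * p ^ 2 / (a * b) := by
    field_simp; ring
  nlinarith [sq_nonneg (a - b)]

/-- with `a = |w|, b = |v|, p = Re (w conj v) = a b c`:
`4|w-v|² - |w²/a - v²/b|² = 3(a-b)² + 4ab(1-c)² ≥ 0`. -/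
theorem lipschitzWith_Dmap : LipschitzWith 8 Dmap := by
  apply LipschitzWith.of_dist_le_mul
  intro w v
  rw [dist_eq_norm, dist_eq_norm]
  have h8 : ((8 : NNReal) : ℝ) = 8 := by norm_num
  rw [h8]
  by_cases hw : w = 0
  · subst hw
    rw [Dmap_zero, zero_sub, zero_sub, norm_neg, norm_neg, norm_Dmap]
    have := norm_nonneg v
    linarith
  by_cases hv : v = 0
  · subst hv
    rw [Dmap_zero, sub_zero, sub_zero, norm_Dmap]
    have := norm_nonneg w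
    linarith
  have h := Carrier_lip_aux w v hw hv
  have h1 : ‖w ^ 2 / (‖w‖ : ℂ) - v ^ 2 / (‖v‖ : ℂ)‖ ≤ 2 * ‖w - v‖ := by
    apply abs_le_of_sq_le_sq' _ (by positivity) |>.2
    nlinarith
  have h2 : Dmap w - Dmap v = 4 * (w ^ 2 / (‖w‖ : ℂ) - v ^ 2 / (‖v‖ : ℂ)) := by
    unfold Dmap; ring
  rw [h2, norm_mul]
  have h7 : ‖(4 : ℂ)‖ = 4 := by simp
  rw [h7]
  linarith

theorem Carrier_norm_fderiv_Dmap_le (w : ℂ) : ‖fderiv ℝ Dmap w‖ ≤ 8 := by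
  have := norm_fderiv_le_of_lipschitz ℝ (x₀ := w) lipschitzWith_Dmap
  simpa using this

theorem Carrier_contDiffAt_ofReal_norm {w : ℂ} (hw : w ≠ 0) :
    ContDiffAt ℝ 1 (fun w : ℂ => ((‖w‖ : ℝ) : ℂ)) w :=
  Complex.ofRealCLM.contDiff.contDiffAt.comp w (contDiffAt_norm ℝ hw)

theorem contDiffAt_Dmap {w : ℂ} (hw : w ≠ 0) : ContDiffAt ℝ 1 Dmap w := by
  have hne : (‖w‖ : ℂ) ≠ 0 := by exact_mod_cast (norm_pos_iff.2 hw).ne'
  unfold Dmap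
  have h1 : ContDiffAt ℝ 1 (fun w : ℂ => 4 * w ^ 2) w :=
    contDiffAt_const.mul (contDiffAt_id.pow 2)
  have h2 : ContDiffAt ℝ 1 (fun w : ℂ => ((‖w‖ : ℝ) : ℂ)⁻¹) w :=
    (Carrier_contDiffAt_ofReal_norm hw).inv hne
  simpa [div_eq_mul_inv] using h1.mul h2

theorem Lmap_Linv (x : ℂ × ℂ) : Lmap (Linv x) = x := by
  ext <;> simp [Lmap, Linv] <;> ring

theorem Linv_Lmap (x : ℂ × ℂ) : Linv (Lmap x) = x := by
  ext <;> simp [Lmap, Linv]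

theorem Rsq_Lmap (x : ℂ × ℂ) : Rsq (Lmap x) = 256 * Rsq x := by
  unfold Rsq Lmap
  simp only [norm_mul]
  have : ‖(16 : ℂ)‖ = 16 := by simp
  rw [this]
  ring

theorem Carrier_Rsq_Linv (x : ℂ × ℂ) : Rsq (Linv x) = Rsq x / 256 := by
  unfold Rsq Linv
  simp only [norm_div]
  have : ‖(16 : ℂ)‖ = 16 := by simp
  rw [this]
  ring

theorem Rsq_j0 (v : ℂ) : Rsq (j0 v) = ‖v‖ ^ 4 := by
  unfold Rsq j0
  simp only [norm_smul, norm_pow, Real.norm_eq_abs, abs_mul, abs_norm]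
  have h := Real.sin_sq_add_cos_sq (vth (‖v‖ ^ 2))
  have h1 : (|Real.sin (vth (‖v‖ ^ 2))| * ‖v‖ * ‖v‖) ^ 2 + (|Real.cos (vth (‖v‖ ^ 2))| * ‖v‖ ^ 2) ^ 2
      = (Real.sin (vth (‖v‖ ^ 2)) ^ 2 + Real.cos (vth (‖v‖ ^ 2)) ^ 2) * ‖v‖ ^ 4 := by
    rw [mul_pow, mul_pow, mul_pow, sq_abs, sq_abs]; ring
  rw [h1, h, one_mul]

theorem Carrier_lev_exists (w : ℂ) (hw : w ≠ 0) : ∃ k : ℕ, (1 / 10 : ℝ) ≤ 4 ^ k * ‖w‖ := by
  have hpos : 0 < ‖w‖ := norm_pos_iff.2 hw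
  obtain ⟨k, hk⟩ := pow_unbounded_of_one_lt (1 / 10 / ‖w‖) (by norm_num : (1 : ℝ) < 4)
  refine ⟨k, ?_⟩
  rw [div_lt_iff₀ hpos] at hk
  exact hk.le

theorem Carrier_jlev_zero : jlev 0 = 0 := by
  unfold jlev
  have : {k : ℕ | (1 / 10 : ℝ) ≤ 4 ^ k * ‖(0 : ℂ)‖} = ∅ := by
    ext k; simp
  rw [this, Nat.sInf_empty]

theorem Carrier_j0_zero : j0 0 = 0 := by
  simp [j0]

theorem jmap_zero : jmap 0 = 0 := by
  unfold jmap
  rw [Carrier_jlev_zero]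
  exact Carrier_j0_zero

theorem Carrier_jlev_of_ge {w : ℂ} (hw : 1 / 10 ≤ ‖w‖) : jlev w = 0 := by
  unfold jlev
  rw [Nat.sInf_eq_zero]
  left
  simpa using hw

theorem Carrier_jlev_of_lt {w : ℂ} (hw0 : w ≠ 0) (hw : ‖w‖ < 1 / 10) :
    jlev w = jlev (Dmap w) + 1 := by
  have hD0 := Carrier_Dmap_ne_zero hw0
  have hn := norm_Dmap w
  have hne : {k : ℕ | (1 / 10 : ℝ) ≤ 4 ^ k * ‖w‖}.Nonempty := Carrier_lev_exists w hw0
  have hneD : {k : ℕ | (1 / 10 : ℝ) ≤ 4 ^ k * ‖Dmap w‖}.Nonempty := Carrier_lev_exists _ hD0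
  have h1 : (1 / 10 : ℝ) ≤ 4 ^ (jlev w) * ‖w‖ := Nat.sInf_mem hne
  have h2 : (1 / 10 : ℝ) ≤ 4 ^ (jlev (Dmap w)) * ‖Dmap w‖ := Nat.sInf_mem hneD
  apply le_antisymm
  · apply Nat.sInf_le
    show (1 / 10 : ℝ) ≤ 4 ^ (jlev (Dmap w) + 1) * ‖w‖
    rw [hn] at h2
    rw [pow_succ]
    linarith
  · rcases hk : jlev w with _ | m
    · rw [hk] at h1
      simp at h1
      linarith
    · have : jlev (Dmap w) ≤ m := by
        apply Nat.sInf_le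
        show (1 / 10 : ℝ) ≤ 4 ^ m * ‖Dmap w‖
        rw [hk, pow_succ] at h1
        rw [hn]
        linarith
      omega

/-- J5 -/
theorem jmap_eq_j0 {w : ℂ} (h : 0.1 ≤ ‖w‖) : jmap w = j0 w := by
  unfold jmap
  rw [Carrier_jlev_of_ge (by norm_num at h ⊢; linarith)]
  rfl

theorem Carrier_jmap_of_lt {w : ℂ} (hw : ‖w‖ < 1 / 10) : jmap w = Linv (jmap (Dmap w)) := by
  by_cases hw0 : w = 0
  · subst hw0
    rw [Dmap_zero, jmap_zero]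
    ext <;> simp [Linv]
  · unfold jmap
    rw [Carrier_jlev_of_lt hw0 hw, Function.iterate_succ_apply', Function.iterate_succ_apply]

theorem Carrier_vth_of_le {m : ℝ} (hr : m ≤ 0.3 ^ 2) : vth m = 0 := by
  unfold vth
  rw [stp_of_le (by norm_num) hr, mul_zero]

theorem Carrier_vth_of_ge {m : ℝ} (hr : 0.4 ^ 2 ≤ m) : vth m = Real.pi / 2 := by
  unfold vth
  rw [stp_of_ge (by norm_num) hr, mul_one]

theorem Carrier_j0_of_le {w : ℂ} (hw : ‖w‖ ≤ 0.3) : j0 w = (0, w ^ 2) := by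
  unfold j0
  rw [Carrier_vth_of_le (by gcongr)]
  simp

theorem Carrier_j0_of_ge {w : ℂ} (hw : 0.4 ≤ ‖w‖) : j0 w = ((‖w‖ : ℝ) • w, 0) := by
  unfold j0
  rw [Carrier_vth_of_ge (by gcongr)]
  simp

/-- J4 -/
theorem jmap_of_ge {w : ℂ} (h : 0.4 ≤ ‖w‖) : jmap w = ((‖w‖ : ℝ) • w, 0) := by
  rw [jmap_eq_j0 (by norm_num at h ⊢; linarith), Carrier_j0_of_ge h]

theorem jmap_mid {w : ℂ} (h1 : 0.1 ≤ ‖w‖) (h2 : ‖w‖ ≤ 0.3) : jmap w = (0, w ^ 2) := by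
  rw [jmap_eq_j0 h1, Carrier_j0_of_le h2]

theorem Carrier_Rsq_jmap_aux (k : ℕ) :
    ∀ w : ℂ, 1 / 10 ≤ (4 : ℝ) ^ k * ‖w‖ → Rsq (jmap w) = ‖w‖ ^ 4 := by
  induction k with
  | zero =>
    intro w hw
    rw [jmap_eq_j0 (by norm_num at hw ⊢; linarith), Rsq_j0]
  | succ k ih =>
    intro w hw
    by_cases h : ‖w‖ < 1 / 10
    · rw [Carrier_jmap_of_lt h, Carrier_Rsq_Linv,
        ih (Dmap w) (by rw [norm_Dmap, pow_succ] at *; linarith), norm_Dmap]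
      ring
    · push Not at h
      rw [jmap_eq_j0 (by norm_num at h ⊢; linarith), Rsq_j0]

/-- J2 -/
theorem Rsq_jmap (w : ℂ) : Rsq (jmap w) = ‖w‖ ^ 4 := by
  by_cases hw : w = 0
  · subst hw; simp [jmap_zero, Rsq]
  · obtain ⟨k, hk⟩ := Carrier_lev_exists w hw
    exact Carrier_Rsq_jmap_aux k w hk

/-- J3, on the maximal range -/
theorem Carrier_jmap_Dmap {w : ℂ} (hw : ‖w‖ ≤ 3 / 10) : jmap (Dmap w) = Lmap (jmap w) := by
  by_cases h : ‖w‖ < 1 / 10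
  · rw [Carrier_jmap_of_lt h, Lmap_Linv]
  · push Not at h
    have hpos : 0 < ‖w‖ := by linarith
    have hne : (‖w‖ : ℂ) ≠ 0 := by exact_mod_cast hpos.ne'
    rw [jmap_mid (w := w) (by norm_num at h ⊢; linarith) (by norm_num at hw ⊢; linarith),
      jmap_of_ge (w := Dmap w) (by rw [norm_Dmap]; norm_num at h ⊢; linarith), norm_Dmap]
    unfold Lmap Dmap
    ext
    · simp only [Complex.real_smul]
      push_cast
      field_simp
      ring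
    · simp

/-- J3 -/
theorem jmap_Dmap {w : ℂ} (h : ‖w‖ ≤ 1 / 4) : jmap (Dmap w) = Lmap (jmap w) :=
  Carrier_jmap_Dmap (by linarith)

/-- local formula -/
theorem jmap_eq_of_level {w : ℂ} (k : ℕ) (h1 : 0.1 ≤ 4 ^ k * ‖w‖) (h2 : 4 ^ k * ‖w‖ ≤ 1) :
    jmap w = Linv^[k] (j0 (Dmap^[k] w)) := by
  induction k generalizing w with
  | zero =>
    rw [jmap_eq_j0 (by simpa using h1)]
    rfl
  | succ k ih =>
    have hp : (1 : ℝ) ≤ 4 ^ k := one_le_pow₀ (by norm_num)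
    have hw : ‖w‖ ≤ 1 / 4 := by
      rw [pow_succ] at h2
      have : 0 ≤ ‖w‖ := norm_nonneg w
      nlinarith
    have h3 := ih (w := Dmap w) (by rw [norm_Dmap]; rw [pow_succ] at h1; linarith)
      (by rw [norm_Dmap]; rw [pow_succ] at h2; linarith)
    rw [Function.iterate_succ_apply', Function.iterate_succ_apply, ← h3, jmap_Dmap hw, Linv_Lmap]

theorem norm_jmap_snd_le (w : ℂ) : ‖(jmap w).2‖ ≤ 0.16 := by
  by_cases h : 0.4 ≤ ‖w‖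
  · rw [jmap_of_ge h]; simp; norm_num
  · push Not at h
    have h1 := Rsq_jmap w
    unfold Rsq at h1
    apply abs_le_of_sq_le_sq' _ (by norm_num) |>.2
    have h2 : 0 ≤ ‖(jmap w).1‖ ^ 2 := by positivity
    have h3 : ‖w‖ ^ 4 ≤ 0.4 ^ 4 := by gcongr
    norm_num at h3 ⊢
    linarith

/-- every `(ξ, 0)` with `|ξ| ≥ 0.16` lies on the carrier -/
theorem exists_jmap_eq_axis {ξ : ℂ} (h : 0.16 ≤ ‖ξ‖) :
    ∃ w : ℂ, jmap w = (ξ, 0) ∧ ‖w‖ ^ 2 = ‖ξ‖ := by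
  have hpos : 0 < ‖ξ‖ := by norm_num at h; linarith
  have hs : 0 < Real.sqrt ‖ξ‖ := Real.sqrt_pos.2 hpos
  have hss : Real.sqrt ‖ξ‖ ^ 2 = ‖ξ‖ := Real.sq_sqrt hpos.le
  have hn : ‖((Real.sqrt ‖ξ‖)⁻¹ : ℝ) • ξ‖ = Real.sqrt ‖ξ‖ := by
    rw [norm_smul, Real.norm_of_nonneg (by positivity)]
    field_simp
    linarith
  refine ⟨((Real.sqrt ‖ξ‖)⁻¹ : ℝ) • ξ, ?_, by rw [hn, hss]⟩
  rw [jmap_of_ge, hn, smul_smul, mul_inv_cancel₀ hs.ne', one_smul]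
  rw [hn]
  apply Real.le_sqrt_of_sq_le
  norm_num at h ⊢
  linarith

theorem Carrier_norm_sq_sub_le (x z : ℂ) :
    ‖(‖x‖ : ℝ) • x - (‖z‖ : ℝ) • z‖ ≤ (‖x‖ + ‖z‖) * ‖x - z‖ := by
  have h1 : (‖x‖ : ℝ) • x - (‖z‖ : ℝ) • z = (‖x‖ : ℝ) • (x - z) + (‖x‖ - ‖z‖ : ℝ) • z := by
    rw [smul_sub, sub_smul]; abel
  rw [h1]
  refine (norm_add_le _ _).trans ?_
  rw [norm_smul, norm_smul, norm_norm, Real.norm_eq_abs]
  have h3 : |‖x‖ - ‖z‖| ≤ ‖x - z‖ := abs_norm_sub_norm_le x z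
  have := mul_le_mul_of_nonneg_right h3 (norm_nonneg z)
  nlinarith

theorem Carrier_norm_sq (z : ℂ) : ‖(‖z‖ : ℝ) • z‖ ≤ 1 * ‖z‖ ^ 2 := by
  rw [norm_smul, norm_norm]; nlinarith

theorem Carrier_norm_fderiv_sq_le (z : ℂ) :
    ‖fderiv ℝ (fun z : ℂ => (‖z‖ : ℝ) • z) z‖ ≤ 2 * ‖z‖ + 1 * ‖z‖ := by
  by_cases hz : z = 0
  · subst hz
    have : HasFDerivAt (fun z : ℂ => (‖z‖ : ℝ) • z) (0 : ℂ →L[ℝ] ℂ) 0 :=
      JFlat_hasFDerivAt_zero _ 1 Carrier_norm_sq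
    rw [this.fderiv]; simp
  · have hpos : 0 < ‖z‖ := norm_pos_iff.2 hz
    apply norm_fderiv_le_of_lip' ℝ (by positivity)
    have hopen : IsOpen {x : ℂ | ‖x‖ < 2 * ‖z‖} := isOpen_lt continuous_norm continuous_const
    filter_upwards [hopen.mem_nhds (show ‖z‖ < 2 * ‖z‖ by linarith)] with x hx
    refine (Carrier_norm_sq_sub_le x z).trans ?_
    have hx' : ‖x‖ < 2 * ‖z‖ := hx
    gcongr
    linarith

/-- `z ↦ |z| z` is `C¹` -/
theorem contDiff_norm_smul_self : ContDiff ℝ 1 (fun z : ℂ => (‖z‖ : ℝ) • z) := by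
  refine JFlat_contDiff_one _ 1 (fun z hz => (contDiffAt_norm ℝ hz).smul contDiffAt_id)
    Carrier_norm_sq ?_
  have h1 : Tendsto (fun z : ℂ => 2 * ‖z‖ + 1 * ‖z‖) (𝓝[≠] 0) (𝓝 0) := by
    have : Tendsto (fun z : ℂ => 2 * ‖z‖ + 1 * ‖z‖) (𝓝 0) (𝓝 (2 * ‖(0 : ℂ)‖ + 1 * ‖(0 : ℂ)‖)) :=
      (by fun_prop : Continuous fun z : ℂ => 2 * ‖z‖ + 1 * ‖z‖).tendsto 0
    simp only [norm_zero, mul_zero, add_zero] at this
    exact this.mono_left nhdsWithin_le_nhds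
  exact squeeze_zero (fun _ => norm_nonneg _) Carrier_norm_fderiv_sq_le h1

theorem contDiff_j0 : ContDiff ℝ 1 j0 := by
  have hn : ContDiff ℝ 1 (fun v : ℂ => ‖v‖ ^ 2) := contDiff_norm_sq ℝ
  have hv : ContDiff ℝ 1 (fun v : ℂ => vth (‖v‖ ^ 2)) := by
    unfold vth
    exact contDiff_const.mul ((contDiff_stp _ _).comp hn)
  have hs : ContDiff ℝ 1 (fun v : ℂ => Real.sin (vth (‖v‖ ^ 2))) := Real.contDiff_sin.comp hv
  have hc : ContDiff ℝ 1 (fun v : ℂ => Real.cos (vth (‖v‖ ^ 2))) := Real.contDiff_cos.comp hv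
  have h1 : ContDiff ℝ 1 (fun v : ℂ => Real.sin (vth (‖v‖ ^ 2)) • ((‖v‖ : ℝ) • v)) :=
    hs.smul contDiff_norm_smul_self
  have h2 : ContDiff ℝ 1 (fun v : ℂ => Real.cos (vth (‖v‖ ^ 2)) • v ^ 2) :=
    hc.smul (contDiff_id.pow 2)
  have : j0 = fun v : ℂ => (Real.sin (vth (‖v‖ ^ 2)) • ((‖v‖ : ℝ) • v),
      Real.cos (vth (‖v‖ ^ 2)) • v ^ 2) := by
    funext v
    unfold j0
    rw [smul_smul]
  rw [this]
  exact h1.prodMk h2

/-- `Linv` as a continuous linear map. -/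
noncomputable def CarrierLinvCLM : ℂ × ℂ →L[ℝ] ℂ × ℂ :=
  (1 / 16 : ℝ) • ((ContinuousLinearMap.snd ℝ ℂ ℂ).prod (ContinuousLinearMap.fst ℝ ℂ ℂ))

theorem CarrierLinvCLM_apply (X : ℂ × ℂ) : CarrierLinvCLM X = Linv X := by
  unfold CarrierLinvCLM Linv
  ext
  · simp; ring
  · simp; ring

theorem Carrier_norm_LinvCLM_le : ‖CarrierLinvCLM‖ ≤ 1 / 16 := by
  apply ContinuousLinearMap.opNorm_le_bound _ (by norm_num)
  intro X
  rw [CarrierLinvCLM_apply]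
  unfold Linv
  rw [Prod.norm_def, Prod.norm_def]
  simp only [norm_div]
  have : ‖(16 : ℂ)‖ = 16 := by simp
  rw [this]
  rcases le_total ‖X.1‖ ‖X.2‖ with h | h
  · rw [max_eq_left (by gcongr), max_eq_right h]; ring_nf; rfl
  · rw [max_eq_right (by gcongr), max_eq_left h]; ring_nf; rfl

theorem Carrier_jmap_eventuallyEq {w : ℂ} (hw : ‖w‖ < 3 / 10) :
    jmap =ᶠ[𝓝 w] fun z => CarrierLinvCLM (jmap (Dmap z)) := by
  have hopen : IsOpen {z : ℂ | ‖z‖ < 3 / 10} := isOpen_lt continuous_norm continuous_const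
  filter_upwards [hopen.mem_nhds hw] with z hz
  rw [CarrierLinvCLM_apply, Carrier_jmap_Dmap (le_of_lt hz), Linv_Lmap]

theorem Carrier_jmap_eventuallyEq_j0 {w : ℂ} (hw : 1 / 10 < ‖w‖) : jmap =ᶠ[𝓝 w] j0 := by
  have hopen : IsOpen {z : ℂ | 1 / 10 < ‖z‖} := isOpen_lt continuous_const continuous_norm
  filter_upwards [hopen.mem_nhds hw] with z hz
  have hz' : 1 / 10 < ‖z‖ := hz
  exact jmap_eq_j0 (by norm_num at hz' ⊢; linarith)

theorem Carrier_jmap_contDiffAt_aux (k : ℕ) :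
    ∀ w : ℂ, 1 / 10 < (4 : ℝ) ^ k * ‖w‖ → ContDiffAt ℝ 1 jmap w := by
  induction k with
  | zero =>
    intro w hw
    have hw' : 1 / 10 < ‖w‖ := by simpa using hw
    exact contDiff_j0.contDiffAt.congr_of_eventuallyEq (Carrier_jmap_eventuallyEq_j0 hw')
  | succ k ih =>
    intro w hw
    have hw0 : w ≠ 0 := by
      intro h; rw [h, norm_zero] at hw; norm_num at hw
    by_cases h : 1 / 10 < ‖w‖
    · exact contDiff_j0.contDiffAt.congr_of_eventuallyEq (Carrier_jmap_eventuallyEq_j0 h)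
    · push Not at h
      have h1 : ContDiffAt ℝ 1 jmap (Dmap w) := ih _ (by rw [norm_Dmap, pow_succ] at *; linarith)
      have h2 : ContDiffAt ℝ 1 (fun z => CarrierLinvCLM (jmap (Dmap z))) w :=
        CarrierLinvCLM.contDiff.contDiffAt.comp w (h1.comp w (contDiffAt_Dmap hw0))
      exact h2.congr_of_eventuallyEq (Carrier_jmap_eventuallyEq (by linarith))

/-- the carrier is `C¹` off the origin. -/
theorem Carrier_jmap_contDiffAt {w : ℂ} (hw : w ≠ 0) : ContDiffAt ℝ 1 jmap w := by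
  have hpos : 0 < ‖w‖ := norm_pos_iff.2 hw
  obtain ⟨k, hk⟩ := pow_unbounded_of_one_lt (1 / 10 / ‖w‖) (by norm_num : (1 : ℝ) < 4)
  rw [div_lt_iff₀ hpos] at hk
  exact Carrier_jmap_contDiffAt_aux k w hk

theorem Carrier_norm_fderiv_jmap_le {w : ℂ} (hw0 : w ≠ 0) (hw : ‖w‖ < 3 / 10) :
    ‖fderiv ℝ jmap w‖ ≤ 1 / 2 * ‖fderiv ℝ jmap (Dmap w)‖ := by
  rw [(Carrier_jmap_eventuallyEq hw).fderiv_eq]
  have h1 : DifferentiableAt ℝ jmap (Dmap w) :=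
    (Carrier_jmap_contDiffAt (Carrier_Dmap_ne_zero hw0)).differentiableAt (by norm_num)
  have h2 : DifferentiableAt ℝ Dmap w := (contDiffAt_Dmap hw0).differentiableAt (by norm_num)
  have h3 : HasFDerivAt (fun z => CarrierLinvCLM (jmap (Dmap z)))
      (CarrierLinvCLM.comp ((fderiv ℝ jmap (Dmap w)).comp (fderiv ℝ Dmap w))) w :=
    CarrierLinvCLM.hasFDerivAt.comp w (h1.hasFDerivAt.comp w h2.hasFDerivAt)
  rw [h3.fderiv]
  calc ‖CarrierLinvCLM.comp ((fderiv ℝ jmap (Dmap w)).comp (fderiv ℝ Dmap w))‖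
      ≤ ‖CarrierLinvCLM‖ * (‖fderiv ℝ jmap (Dmap w)‖ * ‖fderiv ℝ Dmap w‖) :=
        (ContinuousLinearMap.opNorm_comp_le _ _).trans
          (mul_le_mul_of_nonneg_left (ContinuousLinearMap.opNorm_comp_le _ _) (norm_nonneg _))
    _ ≤ 1 / 16 * (‖fderiv ℝ jmap (Dmap w)‖ * 8) := by
        gcongr
        · exact Carrier_norm_LinvCLM_le
        · exact Carrier_norm_fderiv_Dmap_le w
    _ = 1 / 2 * ‖fderiv ℝ jmap (Dmap w)‖ := by ring

theorem Carrier_exists_bound_fderiv :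
    ∃ M : ℝ, 0 ≤ M ∧ ∀ w : ℂ, 1 / 10 ≤ ‖w‖ → ‖w‖ ≤ 2 / 5 → ‖fderiv ℝ jmap w‖ ≤ M := by
  have hK : IsCompact {w : ℂ | 1 / 10 ≤ ‖w‖ ∧ ‖w‖ ≤ 2 / 5} := by
    apply Metric.isCompact_of_isClosed_isBounded
    · exact (isClosed_le continuous_const continuous_norm).inter
        (isClosed_le continuous_norm continuous_const)
    · rw [isBounded_iff_forall_norm_le]
      exact ⟨2 / 5, fun w hw => hw.2⟩
  have hc : ContinuousOn (fderiv ℝ jmap) {w : ℂ | 1 / 10 ≤ ‖w‖ ∧ ‖w‖ ≤ 2 / 5} := by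
    intro w hw
    have hw0 : w ≠ 0 := by
      intro h; rw [h] at hw; simp at hw; norm_num at hw
    exact ((Carrier_jmap_contDiffAt hw0).fderiv_right (m := 0)
      (by norm_num)).continuousAt.continuousWithinAt
  obtain ⟨M, hM⟩ := hK.exists_bound_of_continuousOn hc
  refine ⟨max M 0, le_max_right _ _, fun w h1 h2 => (hM w ⟨h1, h2⟩).trans (le_max_left _ _)⟩

theorem Carrier_norm_fderiv_bound_aux {M : ℝ} (hM0 : 0 ≤ M)
    (hM : ∀ w : ℂ, 1 / 10 ≤ ‖w‖ → ‖w‖ ≤ 2 / 5 → ‖fderiv ℝ jmap w‖ ≤ M) (n : ℕ) :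
    ∀ w : ℂ, 1 / 10 ≤ (4 : ℝ) ^ n * ‖w‖ → ‖w‖ ≤ 2 / 5 → ‖fderiv ℝ jmap w‖ ≤ M := by
  induction n with
  | zero => intro w h1 h2; exact hM w (by simpa using h1) h2
  | succ n ih =>
    intro w h1 h2
    by_cases h : 1 / 10 ≤ ‖w‖
    · exact hM w h h2
    · push Not at h
      have hw0 : w ≠ 0 := by
        intro h'; rw [h', norm_zero] at h1; norm_num at h1
      have := ih (Dmap w) (by rw [norm_Dmap, pow_succ] at *; linarith)
        (by rw [norm_Dmap]; linarith)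
      have h3 := Carrier_norm_fderiv_jmap_le hw0 (by linarith)
      linarith

theorem Carrier_norm_fderiv_decay {M : ℝ} (hM0 : 0 ≤ M)
    (hM : ∀ w : ℂ, 1 / 10 ≤ ‖w‖ → ‖w‖ ≤ 2 / 5 → ‖fderiv ℝ jmap w‖ ≤ M) (k : ℕ) :
    ∀ w : ℂ, w ≠ 0 → (4 : ℝ) ^ k * ‖w‖ ≤ 2 / 5 → ‖fderiv ℝ jmap w‖ ≤ (1 / 2) ^ k * M := by
  induction k with
  | zero =>
    intro w hw0 h
    obtain ⟨n, hn⟩ := Carrier_lev_exists w hw0
    simpa using Carrier_norm_fderiv_bound_aux hM0 hM n w hn (by simpa using h)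
  | succ k ih =>
    intro w hw0 h
    have hp : (1 : ℝ) ≤ 4 ^ k := one_le_pow₀ (by norm_num)
    have hw : ‖w‖ ≤ 1 / 10 := by
      rw [pow_succ] at h
      have : 0 ≤ ‖w‖ := norm_nonneg w
      nlinarith
    have h1 := ih (Dmap w) (Carrier_Dmap_ne_zero hw0) (by rw [norm_Dmap, pow_succ] at *; linarith)
    have h3 := Carrier_norm_fderiv_jmap_le hw0 (by linarith)
    rw [pow_succ]
    linarith

theorem Carrier_tendsto_norm_fderiv :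
    Tendsto (fun w => ‖fderiv ℝ jmap w‖) (𝓝[≠] 0) (𝓝 0) := by
  obtain ⟨M, hM0, hM⟩ := Carrier_exists_bound_fderiv
  rw [Metric.tendsto_nhdsWithin_nhds]
  intro ε hε
  obtain ⟨k, hk⟩ := exists_pow_lt_of_lt_one (show 0 < ε / (M + 1) by positivity)
    (show (1 / 2 : ℝ) < 1 by norm_num)
  refine ⟨2 / 5 / 4 ^ k, by positivity, fun w hw0 hw => ?_⟩
  rw [dist_zero_right] at hw
  rw [dist_zero_right, norm_norm]
  have h1 := Carrier_norm_fderiv_decay hM0 hM k w hw0 (by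
    rw [lt_div_iff₀ (by positivity)] at hw
    linarith)
  rw [lt_div_iff₀ (by positivity)] at hk
  have h2 : (0 : ℝ) ≤ (1 / 2) ^ k := by positivity
  nlinarith

theorem Carrier_norm_jmap_le (w : ℂ) : ‖jmap w‖ ≤ 1 * ‖w‖ ^ 2 := by
  have h := Rsq_jmap w
  unfold Rsq at h
  rw [one_mul, Prod.norm_def]
  apply max_le
  · apply abs_le_of_sq_le_sq' _ (by positivity) |>.2
    have : 0 ≤ ‖(jmap w).2‖ ^ 2 := by positivity
    nlinarith
  · apply abs_le_of_sq_le_sq' _ (by positivity) |>.2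
    have : 0 ≤ ‖(jmap w).1‖ ^ 2 := by positivity
    nlinarith

/-- J1.  Away from `0`: local formula + chain rule.  At `0`: `‖j w‖ = |w|²` gives derivative `0`;
on `0.1 ≤ 4^k |w| ≤ 1` one has `‖fderiv j w‖ ≤ 16^(-k) · C₀ · 8^k` (`D^[k]` is `8^k`-Lipschitz,
`C₀ = sup` of `‖fderiv j0‖` on the compact annulus), so `fderiv j` is continuous at `0`. -/
theorem contDiff_jmap : ContDiff ℝ 1 jmap :=
  JFlat_contDiff_one jmap 1 (fun _ hw => Carrier_jmap_contDiffAt hw) Carrier_norm_jmap_le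
    Carrier_tendsto_norm_fderiv

end Claimed.Agent.R082
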