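import Claimed.Prelude.Def_0146

/-!
# Row 82 (S0181): definitions of the counterexample map (version V5)

`M = S¹ × (S²)³` (`q = 2`).  Coordinates: clock phase `t ∈ (-1/2, 1/2]`, `x₀ ∈ ℂ ∪ {∞}`
(stereographic coordinate of the sphere number 0), `x₁`, `y` (compressed stereographic
coordinates of the spheres number 1 and 2).
Blueprint: `docs/R082_blueprint.md` on branch `origin/helper82`.
-/

set_option autoImplicit false

open Claims Claims.C0146 Claims.C0146.Problem340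

namespace Claimed.Agent.R082

noncomputable section

/-! ## scalar functions -/

/-- smooth step: `0` for `x ≤ a`, `1` for `b ≤ x` (`a < b`) -/
def stp (a b x : ℝ) : ℝ := Real.smoothTransition ((x - a) / (b - a))

/-- clamped cubic `3u² - 2u³` (a `C¹` step with explicit algebra, used for the clock maps) -/
def Hc (u : ℝ) : ℝ := 3 * (max 0 (min u 1)) ^ 2 - 2 * (max 0 (min u 1)) ^ 3

/-- `R ↦ R^(-3/4)` -/
def rm34 (R : ℝ) : ℝ := (Real.sqrt R * Real.sqrt (Real.sqrt R))⁻¹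

/-! ## the plane maps -/

/-- `D(w) = 4 w² / |w|`: doubles angles, multiplies moduli by `4` -/
def Dmap (w : ℂ) : ℂ := 4 * w ^ 2 / (‖w‖ : ℂ)

/-- `L(x₀, x₁) = 16 (x₁, x₀)` -/
def Lmap (x : ℂ × ℂ) : ℂ × ℂ := (16 * x.2, 16 * x.1)

/-- inverse of `Lmap` -/
def Linv (x : ℂ × ℂ) : ℂ × ℂ := (x.2 / 16, x.1 / 16)

/-- squared euclidean norm on `ℂ²`; we write `r = R^(1/4)` in the blueprint -/
def Rsq (x : ℂ × ℂ) : ℝ := ‖x.1‖ ^ 2 + ‖x.2‖ ^ 2

/-- rotation angle of the carrier, as a function of `m = |v|²`: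
`0` for `|v| ≤ 0.3`, `π/2` for `|v| ≥ 0.4` -/
def vth (m : ℝ) : ℝ := (Real.pi / 2) * stp (0.3 ^ 2) (0.4 ^ 2) m

/-- outer part of the carrier: `(sin ϑ · |v| v, cos ϑ · v²)` -/
def j0 (v : ℂ) : ℂ × ℂ :=
  ((Real.sin (vth (‖v‖ ^ 2)) * ‖v‖ : ℝ) • v, (Real.cos (vth (‖v‖ ^ 2)) : ℝ) • v ^ 2)

/-- number of applications of `D` needed to reach `|·| ≥ 0.1` (`0` for `w = 0`) -/
def jlev (w : ℂ) : ℕ := sInf {k : ℕ | (1 / 10 : ℝ) ≤ 4 ^ k * ‖w‖}

/-- the carrier `j : ℂ → ℂ²` -/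
def jmap (w : ℂ) : ℂ × ℂ := Linv^[jlev w] (j0 (Dmap^[jlev w] w))

/-! ## cut-offs in `R = r⁴` -/

def c1 (R : ℝ) : ℝ := stp (0.10 ^ 4) (0.12 ^ 4) R * (1 - stp (0.42 ^ 4) (0.50 ^ 4) R)

def c0 (R : ℝ) : ℝ := stp (0.23 ^ 4) (0.28 ^ 4) R

/-- landing coordinate -/
def Psi (x : ℂ × ℂ) : ℂ :=
  (4 * rm34 (Rsq x) : ℝ) • ((c1 (Rsq x) * ‖x.2‖ : ℝ) • x.2 + (c0 (Rsq x) : ℝ) • x.1 ^ 2)

/-- time shift across the exit window -/
def tauB (R : ℝ) : ℝ := 0.35 * stp (0.14 ^ 4) (0.16 ^ 4) R + 0.65 * stp (0.18 ^ 4) (0.20 ^ 4) R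

def chiY (R : ℝ) : ℝ := stp (0.12 ^ 4) (0.14 ^ 4) R * (1 - stp (0.20 ^ 4) (0.22 ^ 4) R)

/-- value written into the register -/
def Yreg (x : ℂ × ℂ) : ℂ := (16 * chiY (Rsq x) * rm34 (Rsq x) : ℝ) • x.2 ^ 2

/-- big states ignore the flag -/
def thE (R : ℝ) : ℝ := stp (0.64 ^ 4) (0.80 ^ 4) R

/-! ## functions of the phase -/

def aG : ℝ := 23 / 128

def gT (t : ℝ) : ℝ := Hc (t / aG)

/-- `1 + ω̃` of the blueprint -/
def om1 (t : ℝ) : ℝ := Hc (8 * (t + 1 / 4))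

def Gb (t : ℝ) : ℝ := gT t * (1 - stp 0.25 0.28 t)

def thT (t : ℝ) : ℝ := 1 - stp 0.20 0.22 t * (1 - stp 0.28 0.30 t)

def sig (a : ℝ) : ℝ := stp 0.22 0.25 a

/-! ## the core map in coordinates -/

/-- unreduced new phase -/
def That (t : ℝ) (x : ℂ × ℂ) : ℝ := (1 - tauB (Rsq x)) * gT t + tauB (Rsq x) * om1 t

def sBl (t : ℝ) (x : ℂ × ℂ) : ℝ := sig (tauB (Rsq x) + Gb t * (1 - tauB (Rsq x)))

def Pmap (t : ℝ) (x : ℂ × ℂ) : ℂ × ℂ := (1 - sBl t x) • Lmap x + sBl t x • jmap (Psi x)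

def thEff (t : ℝ) (x : ℂ × ℂ) : ℝ := 1 - (1 - thT t) * (1 - thE (Rsq x))

/-- new `x` before the modification near the sink -/
def Xnew (t : ℝ) (x : ℂ × ℂ) (y : ℂ) : ℂ × ℂ := thEff t x • Pmap t x + (1 - thEff t x) • jmap y

def bS (x0 : ℂ) : ℝ := 1 - stp 9 16 (‖x0‖ ^ 2)

/-- numerator of the new `x₀` (the denominator is `bS x₀`) -/
def Nnew (t : ℝ) (x : ℂ × ℂ) (y : ℂ) : ℂ := (bS x.1 : ℝ) • (Xnew t x y).1 + (1 - bS x.1 : ℝ) • x.1 ^ 2

/-! ## charts -/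

def zeta (u : SphereAmbient) : ℂ := ⟨u 0, u 1⟩

/-- stereographic coordinate from the north pole `(0,0,1)` -/
def stereo (u : SphereAmbient) : ℂ := ((1 - u 2)⁻¹ : ℝ) • zeta u

/-- compressed stereographic coordinate: `= stereo` for `u 2 ≤ 0.9`, `0` for `u 2 ≥ 0.95` -/
def Kc (u : SphereAmbient) : ℂ := ((1 - stp 0.9 0.95 (u 2)) / (1 - u 2) : ℝ) • zeta u

/-- the point of the sphere with homogeneous stereographic coordinate `[N : d]` -/
def sinv2 (N : ℂ) (d : ℝ) : SphereAmbient :=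
  !₂[2 * d * N.re / (‖N‖ ^ 2 + d ^ 2), 2 * d * N.im / (‖N‖ ^ 2 + d ^ 2),
    (‖N‖ ^ 2 - d ^ 2) / (‖N‖ ^ 2 + d ^ 2)]

def clockOut (T : ℝ) : ClockAmbient := !₂[Real.cos (2 * Real.pi * T), Real.sin (2 * Real.pi * T)]

/-- phase of a clock vector, in `(-1/2, 1/2]` -/
def tph (c : ClockAmbient) : ℝ := Complex.arg ⟨c 0, c 1⟩ / (2 * Real.pi)

/-- coordinates `x = (x₀, x₁)` of an ambient point -/
def xco (p : CounterexampleAmbient 2) : ℂ × ℂ := (stereo (p.2 0), Kc (p.2 1))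

def yco (p : CounterexampleAmbient 2) : ℂ := Kc (p.2 2)

/-! ## the two local formulas and the map -/

/-- formula valid where `x₀ ≠ ∞` -/
def FA (p : CounterexampleAmbient 2) : CounterexampleAmbient 2 :=
  (clockOut (That (tph p.1) (xco p)),
    ![sinv2 (Nnew (tph p.1) (xco p) (yco p)) (bS (xco p).1),
      sinv2 (Xnew (tph p.1) (xco p) (yco p)).2 1,
      sinv2 (Yreg (xco p)) 1])

/-- formula valid where `|x₀| ≥ 4` (including `∞`) -/
def FB (p : CounterexampleAmbient 2) : CounterexampleAmbient 2 :=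
  (clockOut (om1 (tph p.1)), ![sinv2 1 0, sinv2 0 1, sinv2 0 1])

def Fglob (p : CounterexampleAmbient 2) : CounterexampleAmbient 2 :=
  if p.2 0 2 < 1 then FA p else FB p

theorem clockOut_mem (T : ℝ) : clockOut T ∈ Metric.sphere (0 : ClockAmbient) (1 : ℝ) := by
  rw [mem_sphere_zero_iff_norm, EuclideanSpace.norm_eq, Real.sqrt_eq_one, Fin.sum_univ_two]
  simp only [clockOut, Real.norm_eq_abs, sq_abs]
  exact Real.cos_sq_add_sin_sq _

theorem sinv2_mem (N : ℂ) (d : ℝ) (h : N ≠ 0 ∨ d ≠ 0) :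
    sinv2 N d ∈ Metric.sphere (0 : SphereAmbient) (1 : ℝ) := by
  have hD : 0 < ‖N‖ ^ 2 + d ^ 2 := by
    rcases h with h | h
    · have := norm_pos_iff.2 h
      positivity
    · have : 0 < d ^ 2 := by positivity
      positivity
  have hN : ‖N‖ ^ 2 = N.re ^ 2 + N.im ^ 2 := by
    rw [Complex.sq_norm, Complex.normSq_apply]
    ring
  rw [mem_sphere_zero_iff_norm, EuclideanSpace.norm_eq, Real.sqrt_eq_one, Fin.sum_univ_three]
  simp only [sinv2, Real.norm_eq_abs, sq_abs]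
  show (2 * d * N.re / (‖N‖ ^ 2 + d ^ 2)) ^ 2 + (2 * d * N.im / (‖N‖ ^ 2 + d ^ 2)) ^ 2
    + ((‖N‖ ^ 2 - d ^ 2) / (‖N‖ ^ 2 + d ^ 2)) ^ 2 = 1
  rw [hN] at hD ⊢
  field_simp
  ring

theorem Nnew_ne_or (t : ℝ) (x : ℂ × ℂ) (y : ℂ) : Nnew t x y ≠ 0 ∨ bS x.1 ≠ 0 := by
  by_cases h : bS x.1 = 0
  · left
    have hx : x.1 ≠ 0 := by
      intro h0
      have h1 : bS x.1 = 1 := by
        unfold bS stp
        rw [h0, Real.smoothTransition.zero_of_nonpos (by norm_num), sub_zero]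
      rw [h1] at h
      exact one_ne_zero h
    unfold Nnew
    rw [h, zero_smul, zero_add, sub_zero, one_smul]
    exact pow_ne_zero 2 hx
  · exact Or.inr h

theorem Fglob_mem (p : CounterexampleAmbient 2) :
    (Fglob p).1 ∈ Metric.sphere (0 : ClockAmbient) (1 : ℝ) ∧
      ∀ i, (Fglob p).2 i ∈ Metric.sphere (0 : SphereAmbient) (1 : ℝ) := by
  unfold Fglob
  split_ifs
  · refine ⟨clockOut_mem _, fun i => ?_⟩
    fin_cases i
    · exact sinv2_mem _ _ (Nnew_ne_or _ _ _)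
    · exact sinv2_mem _ _ (Or.inr one_ne_zero)
    · exact sinv2_mem _ _ (Or.inr one_ne_zero)
  · refine ⟨clockOut_mem _, fun i => ?_⟩
    fin_cases i
    · exact sinv2_mem _ _ (Or.inl one_ne_zero)
    · exact sinv2_mem _ _ (Or.inr one_ne_zero)
    · exact sinv2_mem _ _ (Or.inr one_ne_zero)

/-- THE MAP -/
def fMap (z : CounterexampleManifold 2) : CounterexampleManifold 2 :=
  (⟨(Fglob (standardEmbedding 2 z)).1, (Fglob_mem _).1⟩,
    fun i => ⟨(Fglob (standardEmbedding 2 z)).2 i, (Fglob_mem _).2 i⟩)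

theorem standardEmbedding_fMap (z : CounterexampleManifold 2) :
    standardEmbedding 2 (fMap z) = Fglob (standardEmbedding 2 z) := rfl

end

end Claimed.Agent.R082
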