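import Mathlib

/-!
# Row 82: the entropy lemma

A continuous self-map of a compact metric space all of whose orbits spend a uniformly bounded
time outside any neighbourhood of a finite set of fixed points has zero topological entropy.
Blueprint: `docs/R082_blueprint.md` on `origin/helper82`.
-/

set_option autoImplicit false

namespace Claimed.Agent.R082

open scoped Topology

/-! ### Combinatorics: sequences with few changes -/

section Comb

variable {α : Type*} [DecidableEq α]

/-- code of a sequence: the set of the pairs (time, value) at the times `< n` where the value changes. -/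
def entCode (n : ℕ) (a : ℕ → α) : Finset (ℕ × α) :=
  ((Finset.range n).filter (fun k => k = 0 ∨ a k ≠ a (k - 1))).image (fun k => (k, a k))

theorem entCode_mem_val {n : ℕ} {a : ℕ → α} {k : ℕ} {v : α} (h : (k, v) ∈ entCode n a) :
    v = a k := by
  unfold entCode at h
  rw [Finset.mem_image] at h
  obtain ⟨j, _, hj⟩ := h
  rw [Prod.mk.injEq] at hj
  obtain ⟨rfl, rfl⟩ := hj
  rfl

theorem entCode_mem_of {n : ℕ} {a : ℕ → α} {k : ℕ} (hk : k < n)
    (h : k = 0 ∨ a k ≠ a (k - 1)) : (k, a k) ∈ entCode n a := by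
  unfold entCode
  exact Finset.mem_image.2 ⟨k, Finset.mem_filter.2 ⟨Finset.mem_range.2 hk, h⟩, rfl⟩

theorem entCode_inj {n : ℕ} {a b : ℕ → α} (h : entCode n a = entCode n b) :
    ∀ k < n, a k = b k := by
  intro k
  induction k with
  | zero =>
    intro hk
    have h1 := entCode_mem_of (a := a) hk (Or.inl rfl)
    rw [h] at h1
    exact entCode_mem_val h1
  | succ k ih =>
    intro hk
    by_cases h1 : a (k + 1) = a k
    · by_cases h3 : b (k + 1) = b k
      · rw [h1, h3]
        exact ih (by omega)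
      · have h2 := entCode_mem_of (a := b) hk (Or.inr (by simpa using h3))
        rw [← h] at h2
        exact (entCode_mem_val h2).symm
    · have h2 := entCode_mem_of (a := a) hk (Or.inr (by simpa using h1))
      rw [h] at h2
      exact entCode_mem_val h2

theorem entCode_card_le (n : ℕ) (a : ℕ → α) :
    (entCode n a).card ≤ ((Finset.range n).filter (fun k => k = 0 ∨ a k ≠ a (k - 1))).card :=
  Finset.card_image_le

theorem entCode_subset {n : ℕ} {a : ℕ → α} {Lab : Finset α} (ha : ∀ k, a k ∈ Lab) :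
    entCode n a ⊆ Finset.range n ×ˢ Lab := by
  intro q hq
  unfold entCode at hq
  obtain ⟨j, hj, rfl⟩ := Finset.mem_image.1 hq
  exact Finset.mem_product.2 ⟨(Finset.mem_filter.1 hj).1, ha j⟩

theorem ent_card_small_subsets_le (E : Finset α) (M : ℕ) :
    ((E.powerset).filter (fun c => c.card ≤ M)).card ≤ (M + 1) * (E.card + 1) ^ M := by
  have hsub : (E.powerset).filter (fun c => c.card ≤ M)
      ⊆ (Finset.range (M + 1)).biUnion (fun j => E.powersetCard j) := by
    intro c hc
    rw [Finset.mem_filter, Finset.mem_powerset] at hc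
    rw [Finset.mem_biUnion]
    exact ⟨c.card, Finset.mem_range.2 (by omega), Finset.mem_powersetCard.2 ⟨hc.1, rfl⟩⟩
  calc ((E.powerset).filter (fun c => c.card ≤ M)).card
      ≤ ((Finset.range (M + 1)).biUnion (fun j => E.powersetCard j)).card :=
        Finset.card_le_card hsub
    _ ≤ ∑ j ∈ Finset.range (M + 1), (E.powersetCard j).card := Finset.card_biUnion_le
    _ ≤ ∑ j ∈ Finset.range (M + 1), (E.card + 1) ^ M := by
        refine Finset.sum_le_sum fun j hj => ?_
        rw [Finset.card_powersetCard]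
        calc E.card.choose j ≤ E.card ^ j := Nat.choose_le_pow _ _
          _ ≤ (E.card + 1) ^ j := Nat.pow_le_pow_left (by omega) _
          _ ≤ (E.card + 1) ^ M :=
              Nat.pow_le_pow_right (by omega) (by have := Finset.mem_range.1 hj; omega)
    _ = (M + 1) * (E.card + 1) ^ M := by simp

end Comb

/-- one representative for every realised code. -/
theorem ent_exists_reps {X γ : Type*} [Nonempty X] (c : X → γ) (Codes : Finset γ)
    (hc : ∀ x, c x ∈ Codes) :
    ∃ s : Finset X, s.card ≤ Codes.card ∧ ∀ x, ∃ y ∈ s, c y = c x := by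
  classical
  exact ⟨Codes.image (Function.invFun c), Finset.card_image_le, fun x =>
    ⟨Function.invFun c (c x), Finset.mem_image_of_mem _ (hc x), Function.invFun_eq ⟨x, rfl⟩⟩⟩

/-! ### Topology: the radius `ε` and the labels -/

theorem ent_exists_eps {X : Type*} [MetricSpace X] (f : X → X) (hf : Continuous f) (P : Set X)
    (hP : P.Finite) (hfix : ∀ p ∈ P, f p = p) (δ : ℝ) (hδ : 0 < δ) :
    ∃ ε : ℝ, 0 < ε ∧ ε ≤ δ ∧
      ∀ p ∈ P, ∀ p' ∈ P, p ≠ p' → ∀ z, dist z p < ε → ε ≤ dist (f z) p' := by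
  have h1 : ∀ᶠ ε in 𝓝[>] (0 : ℝ), ε ≤ δ :=
    Filter.Eventually.filter_mono nhdsWithin_le_nhds (Iic_mem_nhds hδ)
  have h2 : ∀ᶠ ε in 𝓝[>] (0 : ℝ), ∀ p ∈ P, ∀ p' ∈ P, p ≠ p' →
      ∀ z, dist z p < ε → ε ≤ dist (f z) p' := by
    rw [Filter.eventually_all_finite hP]
    intro p hp
    rw [Filter.eventually_all_finite hP]
    intro p' hp'
    by_cases hne : p = p'
    · exact Filter.Eventually.of_forall fun ε h => absurd hne h
    · have hd : 0 < dist p p' := dist_pos.2 hne
      have hc : ∀ᶠ z in 𝓝 p, dist p p' / 2 < dist (f z) p' := by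
        have ht : Filter.Tendsto (fun z => dist (f z) p') (𝓝 p) (𝓝 (dist (f p) p')) :=
          (hf.dist continuous_const).tendsto p
        rw [hfix p hp] at ht
        exact ht.eventually (lt_mem_nhds (by linarith))
      obtain ⟨ε₀, hε₀, hball⟩ := Metric.eventually_nhds_iff.1 hc
      have h3 : ∀ᶠ ε in 𝓝[>] (0 : ℝ), ε ≤ min ε₀ (dist p p' / 2) :=
        Filter.Eventually.filter_mono nhdsWithin_le_nhds
          (Iic_mem_nhds (lt_min hε₀ (by linarith)))
      filter_upwards [h3] with ε hε _ z hz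
      have h4 := hball (lt_of_lt_of_le hz (hε.trans (min_le_left _ _)))
      exact (hε.trans (min_le_right _ _)).trans h4.le
  obtain ⟨ε, ⟨h1', h2'⟩, h0⟩ := ((h1.and h2).and self_mem_nhdsWithin).exists
  exact ⟨ε, h0, h1', h2'⟩

theorem ent_exists_label {X : Type*} [MetricSpace X] [CompactSpace X] (f : X → X) (P : Set X)
    (hP : P.Finite) (δ ε : ℝ) (hδ : 0 < δ) (hεδ : ε ≤ δ)
    (hsep : ∀ p ∈ P, ∀ p' ∈ P, p ≠ p' → ∀ z, dist z p < ε → ε ≤ dist (f z) p') :
    ∃ (Lab : Finset X) (l : X → X), (∀ z, l z ∈ Lab) ∧ (∀ z, dist z (l z) < δ) ∧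
      ∀ z, (∃ p ∈ P, dist z p < ε) → (∃ p ∈ P, dist (f z) p < ε) → l (f z) = l z := by
  classical
  obtain ⟨t, -, ht, hcov⟩ := finite_cover_balls_of_compact (isCompact_univ (X := X)) hδ
  have hcov' : ∀ z : X, ∃ c ∈ t, dist z c < δ := by
    intro z
    have := hcov (Set.mem_univ z)
    simpa using this
  refine ⟨hP.toFinset ∪ ht.toFinset,
    fun z => if h : ∃ p ∈ P, dist z p < ε then h.choose else (hcov' z).choose, ?_, ?_, ?_⟩
  · intro z
    by_cases h : ∃ p ∈ P, dist z p < ε
    · simp only [dif_pos h]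
      exact Finset.mem_union_left _ (hP.mem_toFinset.2 h.choose_spec.1)
    · simp only [dif_neg h]
      exact Finset.mem_union_right _ (ht.mem_toFinset.2 (hcov' z).choose_spec.1)
  · intro z
    by_cases h : ∃ p ∈ P, dist z p < ε
    · simp only [dif_pos h]
      exact lt_of_lt_of_le h.choose_spec.2 hεδ
    · simp only [dif_neg h]
      exact (hcov' z).choose_spec.2
  · intro z h1 h2
    simp only [dif_pos h1, dif_pos h2]
    by_contra hne
    have h3 := hsep _ h1.choose_spec.1 _ h2.choose_spec.1 (fun h => hne h.symm) z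
      h1.choose_spec.2
    exact absurd h2.choose_spec.2 (not_lt.2 h3)

/-! ### Dynamical covers of polynomial size -/

theorem ent_exists_poly_cover {X : Type*} [MetricSpace X] [CompactSpace X] [Nonempty X]
    (f : X → X) (hf : Continuous f) (P : Set X) (hP : P.Finite) (hfix : ∀ p ∈ P, f p = p)
    (h : ∀ ε : ℝ, 0 < ε → ∃ N : ℕ, ∀ x : X, ∀ s : Finset ℕ,
      (∀ k ∈ s, ∀ p ∈ P, ε ≤ dist (f^[k] x) p) → s.card ≤ N) (δ : ℝ) (hδ : 0 < δ) :
    ∃ M c₀ : ℕ, ∀ n : ℕ, ∃ s : Finset X, s.card ≤ (M + 1) * (n * c₀ + 1) ^ M ∧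
      ∀ x, ∃ y ∈ s, ∀ k < n, dist (f^[k] x) (f^[k] y) < δ := by
  classical
  obtain ⟨ε, hε0, hεδ, hsep⟩ := ent_exists_eps f hf P hP hfix (δ / 2) (by linarith)
  obtain ⟨Lab, l, hl1, hl2, hl3⟩ := ent_exists_label f P hP (δ / 2) ε (by linarith) hεδ hsep
  obtain ⟨N, hN⟩ := h ε hε0
  refine ⟨2 * N + 1, Lab.card, fun n => ?_⟩
  have hc : ∀ x : X, entCode n (fun k => l (f^[k] x))
      ∈ ((Finset.range n ×ˢ Lab).powerset).filter (fun c => c.card ≤ 2 * N + 1) := by
    intro x
    rw [Finset.mem_filter, Finset.mem_powerset]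
    refine ⟨entCode_subset fun k => hl1 _, (entCode_card_le _ _).trans ?_⟩
    set Out : Finset ℕ := (Finset.range n).filter (fun k => ∀ p ∈ P, ε ≤ dist (f^[k] x) p)
      with hOut
    have hOutN : Out.card ≤ N := hN x Out fun k hk => (Finset.mem_filter.1 hk).2
    have hsub : (Finset.range n).filter
        (fun k => k = 0 ∨ l (f^[k] x) ≠ l (f^[k - 1] x))
        ⊆ {0} ∪ Out ∪ Out.image (fun k => k + 1) := by
      intro k hk
      rw [Finset.mem_filter, Finset.mem_range] at hk
      obtain ⟨hkn, hk0 | hk1⟩ := hk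
      · subst hk0
        simp
      · by_contra hnot
        rw [Finset.mem_union, Finset.mem_union, not_or, not_or] at hnot
        obtain ⟨⟨hk0, hkO⟩, hkI⟩ := hnot
        have hk0' : k ≠ 0 := by simpa using hk0
        obtain ⟨j, rfl⟩ : ∃ j, k = j + 1 := ⟨k - 1, by omega⟩
        have hjO : j ∉ Out := fun hj => hkI (Finset.mem_image_of_mem _ hj)
        have e1 : ∃ p ∈ P, dist (f^[j] x) p < ε := by
          by_contra hcon
          apply hjO
          rw [hOut, Finset.mem_filter, Finset.mem_range]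
          refine ⟨by omega, fun p hp => ?_⟩
          by_contra hlt
          exact hcon ⟨p, hp, not_le.1 hlt⟩
        have e2 : ∃ p ∈ P, dist (f (f^[j] x)) p < ε := by
          by_contra hcon
          apply hkO
          rw [hOut, Finset.mem_filter, Finset.mem_range]
          refine ⟨hkn, fun p hp => ?_⟩
          by_contra hlt
          rw [Function.iterate_succ_apply'] at hlt
          exact hcon ⟨p, hp, not_le.1 hlt⟩
        apply hk1
        rw [Function.iterate_succ_apply']
        simpa using hl3 _ e1 e2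
    calc ((Finset.range n).filter (fun k => k = 0 ∨ l (f^[k] x) ≠ l (f^[k - 1] x))).card
        ≤ ({0} ∪ Out ∪ Out.image (fun k => k + 1)).card := Finset.card_le_card hsub
      _ ≤ ({0} ∪ Out).card + (Out.image (fun k => k + 1)).card := Finset.card_union_le _ _
      _ ≤ (({0} : Finset ℕ).card + Out.card) + Out.card :=
          add_le_add (Finset.card_union_le _ _) Finset.card_image_le
      _ ≤ 2 * N + 1 := by
          rw [Finset.card_singleton]
          omega
  obtain ⟨s, hs, hrep⟩ := ent_exists_reps _ _ hc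
  refine ⟨s, hs.trans ?_, fun x => ?_⟩
  · have := ent_card_small_subsets_le (Finset.range n ×ˢ Lab) (2 * N + 1)
    rwa [Finset.card_product, Finset.card_range] at this
  · obtain ⟨y, hy, hxy⟩ := hrep x
    refine ⟨y, hy, fun k hk => ?_⟩
    have hlab : l (f^[k] y) = l (f^[k] x) := entCode_inj hxy k hk
    calc dist (f^[k] x) (f^[k] y) ≤ dist (f^[k] x) (l (f^[k] x)) + dist (l (f^[k] x)) (f^[k] y) :=
          dist_triangle _ _ _
      _ < δ / 2 + δ / 2 := by
          apply add_lt_add (hl2 _)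
          rw [← hlab, dist_comm]
          exact hl2 _
      _ = δ := by ring

/-! ### Polynomials are beaten by exponentials -/

theorem ent_eventually_poly_le_exp (M c₀ : ℕ) (c : ℝ) (hc : 0 < c) :
    ∀ᶠ n : ℕ in Filter.atTop, (((M + 1) * (n * c₀ + 1) ^ M : ℕ) : ℝ) ≤ Real.exp (c * n) := by
  have hK : (0 : ℝ) < ((M : ℝ) + 1) * ((c₀ : ℝ) + 1) ^ M := by positivity
  have h1 := (isLittleO_pow_exp_pos_mul_atTop (k := M) hc).def (c := (((M : ℝ) + 1) * ((c₀ : ℝ) + 1) ^ M)⁻¹)
    (inv_pos.2 hK)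
  have h2 := tendsto_natCast_atTop_atTop (R := ℝ) |>.eventually h1
  filter_upwards [h2, Filter.eventually_ge_atTop 1] with n hn hn1
  have hn1' : (1 : ℝ) ≤ n := by exact_mod_cast hn1
  rw [Real.norm_of_nonneg (by positivity), Real.norm_of_nonneg (Real.exp_pos _).le,
    inv_mul_eq_div, le_div_iff₀ hK] at hn
  push_cast
  calc ((M : ℝ) + 1) * ((n : ℝ) * c₀ + 1) ^ M ≤ ((M : ℝ) + 1) * ((n : ℝ) * ((c₀ : ℝ) + 1)) ^ M := by
        apply mul_le_mul_of_nonneg_left _ (by positivity)
        apply pow_le_pow_left₀ (by positivity)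
        nlinarith
    _ = (n : ℝ) ^ M * (((M : ℝ) + 1) * ((c₀ : ℝ) + 1) ^ M) := by
        rw [mul_pow]
        ring
    _ ≤ Real.exp (c * n) := hn

/-- (E) entropy lemma. -/
theorem coverEntropy_eq_zero_of_bounded_outside {X : Type*} [MetricSpace X] [CompactSpace X]
    [Nonempty X]
    (f : X → X) (hf : Continuous f) (P : Set X) (hP : P.Finite) (hfix : ∀ p ∈ P, f p = p)
    (h : ∀ ε : ℝ, 0 < ε → ∃ N : ℕ, ∀ x : X, ∀ s : Finset ℕ,
      (∀ k ∈ s, ∀ p ∈ P, ε ≤ dist (f^[k] x) p) → s.card ≤ N) :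
    Dynamics.coverEntropy f (Set.univ : Set X) = (0 : EReal) := by
  apply le_antisymm _ (Dynamics.coverEntropy_nonneg f Set.univ_nonempty)
  rw [Dynamics.coverEntropy_eq_iSup_basis Metric.uniformity_basis_dist f Set.univ]
  refine iSup₂_le fun δ hδ => ?_
  obtain ⟨M, c₀, hcov⟩ := ent_exists_poly_cover f hf P hP hfix h δ hδ
  unfold Dynamics.coverEntropyEntourage
  rw [ExpGrowth.expGrowthSup_le_iff]
  intro b hb
  obtain ⟨c, hc0, hcb⟩ := EReal.lt_iff_exists_real_btwn.1 hb
  have hc0' : 0 < c := by exact_mod_cast hc0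
  filter_upwards [ent_eventually_poly_le_exp M c₀ c hc0'] with n hn
  obtain ⟨s, hs, hsc⟩ := hcov n
  have hdyn : Dynamics.IsDynCoverOf f Set.univ {p : X × X | dist p.1 p.2 < δ} n s := by
    intro x _
    obtain ⟨y, hy, hxy⟩ := hsc x
    exact ⟨y, hy, Dynamics.mem_dynEntourage.2 hxy⟩
  have hs' : (s.card : ℝ) ≤ Real.exp (c * n) := le_trans (by exact_mod_cast hs) hn
  calc ((Dynamics.coverMincard f Set.univ {p : X × X | dist p.1 p.2 < δ} n : ℕ∞) : ENNReal)
      ≤ ((s.card : ℕ∞) : ENNReal) := ENat.toENNReal_mono hdyn.coverMincard_le_card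
    _ = ENNReal.ofReal (s.card : ℝ) := by simp
    _ ≤ ENNReal.ofReal (Real.exp (c * n)) := ENNReal.ofReal_le_ofReal hs'
    _ = EReal.exp ((c * n : ℝ) : EReal) := (EReal.exp_coe _).symm
    _ ≤ EReal.exp (b * n) := by
        apply EReal.exp_monotone
        rw [EReal.coe_mul, EReal.coe_natCast]
        exact mul_le_mul_of_nonneg_right hcb.le (by positivity)

end Claimed.Agent.R082
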