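import Claimed.Agent.R082.HLin

/-!
# Row 82 homology package: affine simplices
Blueprint: `docs/R082_homology.md` §3 on `origin/helper82`.   (deputy for §3-§6: helper762)

* `sxBary m n v` : barycentre of an `(n+1)`-tuple of points of `Δᵐ`;
* `aff v : C(Δⁿ, Δᵐ)` : the affine simplex with vertices `v`;  `sxVert n` : the vertices of `Δⁿ`.
-/

set_option autoImplicit false

namespace Claimed.Agent.R082

section HAff

/-! ## affine simplices -/

/-- barycentre of an `(n+1)`-tuple of points of `Δᵐ` -/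
noncomputable def sxBary (m n : ℕ) (v : Fin (n + 1) → Sx m) : Sx m :=
  ⟨∑ i, ((n : ℝ) + 1)⁻¹ • (v i : Fin (m + 1) → ℝ),
    (convex_stdSimplex ℝ (Fin (m + 1))).sum_mem (fun _ _ => by positivity)
      (by
        rw [Finset.sum_const, Finset.card_univ, Fintype.card_fin, nsmul_eq_mul]
        push_cast
        field_simp)
      (fun i _ => (v i).2)⟩

/-- the affine simplex with vertices `v` -/
noncomputable def aff {n m : ℕ} (v : Fin (n + 1) → Sx m) : C(Sx n, Sx m) where
  toFun t := ⟨∑ i, (t : Fin (n + 1) → ℝ) i • (v i : Fin (m + 1) → ℝ),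
    (convex_stdSimplex ℝ (Fin (m + 1))).sum_mem (fun i _ => t.2.1 i) t.2.2 (fun i _ => (v i).2)⟩
  continuous_toFun := by
    apply Continuous.subtype_mk
    apply continuous_finsetSum
    intro i _
    exact ((continuous_apply i).comp continuous_subtype_val).smul continuous_const

/-- the vertices of `Δⁿ` -/
noncomputable def sxVert (n : ℕ) : Fin (n + 1) → Sx n := fun i => stdSimplex.vertex i

theorem sxBary_coe (m n : ℕ) (v : Fin (n + 1) → Sx m) :
    (sxBary m n v : Fin (m + 1) → ℝ) = ∑ i, ((n : ℝ) + 1)⁻¹ • (v i : Fin (m + 1) → ℝ) := rfl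

theorem aff_coe {n m : ℕ} (v : Fin (n + 1) → Sx m) (t : Sx n) :
    (aff v t : Fin (m + 1) → ℝ) = ∑ i, (t : Fin (n + 1) → ℝ) i • (v i : Fin (m + 1) → ℝ) := rfl

theorem hAff_sxVert_coe (n : ℕ) (i : Fin (n + 1)) :
    ((sxVert n i : Sx n) : Fin (n + 1) → ℝ) = Pi.single i 1 := stdSimplex.vertex_coe i

theorem aff_sxVert_apply {n m : ℕ} (v : Fin (n + 1) → Sx m) (i : Fin (n + 1)) :
    aff v (sxVert n i) = v i := by
  apply stdSimplex.ext
  rw [aff_coe, hAff_sxVert_coe, Finset.sum_eq_single i]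
  · simp
  · intro j _ hj
    simp [hj]
  · simp

theorem aff_sxVert (n : ℕ) : aff (sxVert n) = ContinuousMap.id (Sx n) := by
  ext1 t
  apply stdSimplex.ext
  rw [aff_coe]
  funext k
  simp only [hAff_sxVert_coe, Finset.sum_apply, Pi.smul_apply, smul_eq_mul, Pi.single_apply,
    ContinuousMap.id_apply]
  simp

theorem aff_comp_aff {n m k : ℕ} (v : Fin (m + 1) → Sx k) (w : Fin (n + 1) → Sx m) :
    (aff v).comp (aff w) = aff (aff v ∘ w) := by
  ext1 t
  apply stdSimplex.ext
  rw [ContinuousMap.comp_apply, aff_coe, aff_coe]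
  funext l
  simp only [aff_coe, Function.comp_apply, Finset.sum_apply, Pi.smul_apply, smul_eq_mul,
    Finset.sum_mul, Finset.mul_sum]
  rw [Finset.sum_comm]
  refine Finset.sum_congr rfl fun j _ => Finset.sum_congr rfl fun i _ => ?_
  ring

theorem aff_sxBary {n m k : ℕ} (v : Fin (m + 1) → Sx k) (w : Fin (n + 1) → Sx m) :
    aff v (sxBary m n w) = sxBary k n (aff v ∘ w) := by
  apply stdSimplex.ext
  rw [aff_coe, sxBary_coe, sxBary_coe]
  funext l
  simp only [aff_coe, Function.comp_apply, Finset.sum_apply, Pi.smul_apply, smul_eq_mul,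
    Finset.sum_mul, Finset.mul_sum]
  rw [Finset.sum_comm]
  refine Finset.sum_congr rfl fun j _ => Finset.sum_congr rfl fun i _ => ?_
  ring

theorem face_eq_aff (n : ℕ) (i : Fin (n + 2)) : face n i = aff (sxVert (n + 1) ∘ i.succAbove) := by
  ext1 t
  apply stdSimplex.ext
  rw [aff_coe]
  have h : ((face n i t : Sx (n + 1)) : Fin (n + 2) → ℝ) =
      (FunOnFinite.linearMap ℝ ℝ i.succAbove) (t : Fin (n + 1) → ℝ) := stdSimplex.map_coe _ t
  rw [h]
  funext y
  rw [FunOnFinite.linearMap_apply_apply, Finset.sum_filter]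
  simp only [Function.comp_apply, hAff_sxVert_coe, Finset.sum_apply, Pi.smul_apply, smul_eq_mul,
    Pi.single_apply]
  refine Finset.sum_congr rfl fun x _ => ?_
  by_cases hxy : i.succAbove x = y
  · simp [hxy]
  · rw [if_neg hxy, if_neg (fun h => hxy h.symm), mul_zero]

theorem aff_comp_face {n m : ℕ} (v : Fin (n + 2) → Sx m) (i : Fin (n + 2)) :
    (aff v).comp (face n i) = aff (v ∘ i.succAbove) := by
  rw [face_eq_aff, aff_comp_aff]
  congr 1
  funext j
  exact aff_sxVert_apply v (i.succAbove j)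

theorem sxBary_zero (m : ℕ) (v : Fin 1 → Sx m) : sxBary m 0 v = v 0 := by
  apply stdSimplex.ext
  rw [sxBary_coe]
  simp

end HAff

end Claimed.Agent.R082
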