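import Claimed.Prelude.Def_0146

/-!
# Row 82 homology package: concrete singular chains and their homology classes
Blueprint: `docs/R082_homology.md` on branch `origin/helper82`.

Exports (besides the interface `bd_bd … cls0_push`):
* general chain complexes `K : ChainComplex (ModuleCat ℝ) ℕ`: `gcyc`, `gcls` (class of an element killed by `d`),
  `gcls_surjective`, `gcls_eq_zero_iff`, `gcls_map`;
* `KK X` (Mathlib's singular chain complex), `KKmap f`;
* `CC X : ChainComplex (ModuleCat ℝ) ℕ` built from `Ch`, `bd` (`CC_X`, `CC_d`), `CCmap f` (`CCmap_f`),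
  `CCiso X : KK X ≅ CC X`, `CCiso_naturality`;
* `hccEquiv n X : RealSingularHomology n X ≃ₗ[ℝ] (CC X).homology n`, `hccEquiv_naturality`;
* `cls_eq`, `cls0_eq`: `cls`/`cls0` in terms of `gcls (CC X)`.
-/

set_option autoImplicit false

open Claims Claims.C0146 Claims.C0146.Problem340
open CategoryTheory

namespace Claimed.Agent.R082

/-! ### elements of the homology of a chain complex of real vector spaces -/

section Gen

variable (K L : ChainComplex (ModuleCat.{0} ℝ) ℕ)

/-- the cycle (in the categorical sense) of an element killed by the differential -/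
noncomputable def gcyc (i j : ℕ) (hj : (ComplexShape.down ℕ).next i = j) :
    LinearMap.ker (K.d i j).hom →ₗ[ℝ] K.cycles i :=
  (K.liftCycles (ModuleCat.ofHom (LinearMap.ker (K.d i j).hom).subtype) j hj
    (by ext z; exact z.2)).hom

theorem gcyc_i (i j : ℕ) (hj : (ComplexShape.down ℕ).next i = j) (z : LinearMap.ker (K.d i j).hom) :
    (K.iCycles i).hom (gcyc K i j hj z) = z.1 := by
  have h := K.liftCycles_i (ModuleCat.ofHom (LinearMap.ker (K.d i j).hom).subtype) j hj
    (by ext z; exact z.2)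
  exact congrArg (fun φ => φ.hom z) h

theorem iCycles_hom_injective (i : ℕ) : Function.Injective (K.iCycles i).hom :=
  (ModuleCat.mono_iff_injective _).mp inferInstance

theorem gcyc_surjective (i j : ℕ) (hj : (ComplexShape.down ℕ).next i = j) :
    Function.Surjective (gcyc K i j hj) := by
  intro x
  have hx : (K.d i j).hom ((K.iCycles i).hom x) = 0 :=
    congrArg (fun φ => φ.hom x) (K.iCycles_d i j)
  refine ⟨⟨(K.iCycles i).hom x, hx⟩, ?_⟩
  apply iCycles_hom_injective
  rw [gcyc_i]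

/-- the homology class of an element killed by the differential -/
noncomputable def gcls (i j : ℕ) (hj : (ComplexShape.down ℕ).next i = j) :
    LinearMap.ker (K.d i j).hom →ₗ[ℝ] K.homology i :=
  (K.homologyπ i).hom ∘ₗ gcyc K i j hj

theorem gcls_surjective (i j : ℕ) (hj : (ComplexShape.down ℕ).next i = j) :
    Function.Surjective (gcls K i j hj) := by
  have h1 : Function.Surjective (K.homologyπ i).hom :=
    (ModuleCat.epi_iff_surjective _).mp inferInstance
  exact h1.comp (gcyc_surjective K i j hj)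

theorem gcls_eq_zero_iff (i j k : ℕ) (hj : (ComplexShape.down ℕ).next i = j)
    (hk : (ComplexShape.down ℕ).prev i = k) (z : LinearMap.ker (K.d i j).hom) :
    gcls K i j hj z = 0 ↔ ∃ e : K.X k, (K.d k i).hom e = z.1 := by
  have hex : (ShortComplex.mk (K.toCycles k i) (K.homologyπ i)
      (K.toCycles_comp_homologyπ k i)).Exact :=
    ShortComplex.exact_of_g_is_cokernel _ (K.homologyIsCokernel k i hk)
  rw [ShortComplex.moduleCat_exact_iff] at hex
  have hti : ∀ e : K.X k, (K.iCycles i).hom ((K.toCycles k i).hom e) = (K.d k i).hom e := fun e =>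
    congrArg (fun φ => φ.hom e) (K.toCycles_i k i)
  constructor
  · intro h
    obtain ⟨e, he⟩ := hex (gcyc K i j hj z) h
    refine ⟨e, ?_⟩
    have he' : (K.toCycles k i).hom e = gcyc K i j hj z := he
    rw [← hti, he', gcyc_i]
  · rintro ⟨e, he⟩
    have h1 : gcyc K i j hj z = (K.toCycles k i).hom e := by
      apply iCycles_hom_injective
      rw [gcyc_i, hti, he]
    show (K.homologyπ i).hom (gcyc K i j hj z) = 0
    rw [h1]
    exact congrArg (fun φ => φ.hom e) (K.toCycles_comp_homologyπ k i)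

variable {K L}

theorem gcls_map (φ : K ⟶ L) (i j : ℕ) (hj : (ComplexShape.down ℕ).next i = j)
    (z : LinearMap.ker (K.d i j).hom) (hz : (φ.f i).hom z.1 ∈ LinearMap.ker (L.d i j).hom) :
    (HomologicalComplex.homologyMap φ i).hom (gcls K i j hj z)
      = gcls L i j hj ⟨(φ.f i).hom z.1, hz⟩ := by
  have h1 : (HomologicalComplex.homologyMap φ i).hom ((K.homologyπ i).hom (gcyc K i j hj z))
      = (L.homologyπ i).hom ((HomologicalComplex.cyclesMap φ i).hom (gcyc K i j hj z)) :=
    congrArg (fun ψ => ψ.hom (gcyc K i j hj z)) (HomologicalComplex.homologyπ_naturality φ i)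
  show (HomologicalComplex.homologyMap φ i).hom ((K.homologyπ i).hom (gcyc K i j hj z)) = _
  rw [h1]
  show _ = (L.homologyπ i).hom (gcyc L i j hj ⟨(φ.f i).hom z.1, hz⟩)
  congr 1
  apply iCycles_hom_injective
  rw [gcyc_i]
  have h2 : (L.iCycles i).hom ((HomologicalComplex.cyclesMap φ i).hom (gcyc K i j hj z))
      = (φ.f i).hom ((K.iCycles i).hom (gcyc K i j hj z)) :=
    congrArg (fun ψ => ψ.hom (gcyc K i j hj z)) (HomologicalComplex.cyclesMap_i φ i)
  rw [h2, gcyc_i]

end Gen

section HBridge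

/-- the standard topological `n`-simplex -/
abbrev Sx (n : ℕ) := stdSimplex ℝ (Fin (n + 1))

/-- concrete singular `n`-chains with real coefficients -/
abbrev Ch (n : ℕ) (X : Type) [TopologicalSpace X] := C(Sx n, X) →₀ ℝ

/-- the `i`-th face inclusion `Δⁿ → Δⁿ⁺¹` -/
noncomputable def face (n : ℕ) (i : Fin (n + 2)) : C(Sx n, Sx (n + 1)) :=
  ⟨stdSimplex.map (Fin.succAbove i), stdSimplex.continuous_map _⟩

variable {X Y : Type} [TopologicalSpace X] [TopologicalSpace Y]

/-- the singular boundary operator -/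
noncomputable def bd (n : ℕ) : Ch (n + 1) X →ₗ[ℝ] Ch n X :=
  Finsupp.lsum ℝ fun σ : C(Sx (n + 1), X) =>
    LinearMap.toSpanSingleton ℝ (Ch n X)
      (∑ i : Fin (n + 2), (-1 : ℝ) ^ (i : ℕ) • Finsupp.single (σ.comp (face n i)) (1 : ℝ))

/-- push-forward of chains -/
noncomputable def push (n : ℕ) (f : C(X, Y)) : Ch n X →ₗ[ℝ] Ch n Y :=
  Finsupp.lmapDomain ℝ ℝ (fun σ : C(Sx n, X) => f.comp σ)

theorem hb_bd_single (n : ℕ) (σ : C(Sx (n + 1), X)) (r : ℝ) :
    bd n (Finsupp.single σ r) =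
      r • ∑ i : Fin (n + 2), (-1 : ℝ) ^ (i : ℕ) • Finsupp.single (σ.comp (face n i)) (1 : ℝ) := by
  unfold bd
  rw [Finsupp.lsum_single]
  rfl

theorem hb_push_single (n : ℕ) (f : C(X, Y)) (σ : C(Sx n, X)) (r : ℝ) :
    push n f (Finsupp.single σ r) = Finsupp.single (f.comp σ) r := by
  unfold push
  exact Finsupp.mapDomain_single

theorem hb_push_id (n : ℕ) (c : Ch n X) : push n (ContinuousMap.id X) c = c := by
  unfold push
  exact Finsupp.mapDomain_id

theorem hb_push_comp {Z : Type} [TopologicalSpace Z] (n : ℕ) (g : C(Y, Z)) (f : C(X, Y)) (c : Ch n X) :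
    push n (g.comp f) c = push n g (push n f c) := by
  unfold push
  exact Finsupp.mapDomain_comp (f := fun σ : C(Sx n, X) => f.comp σ)
    (g := fun σ : C(Sx n, Y) => g.comp σ)

/-! ### Mathlib's singular chain complex -/

open Simplicial

/-- the singular simplicial set -/
noncomputable abbrev SS (X : Type) [TopologicalSpace X] : SSet.{0} := TopCat.toSSet.obj (TopCat.of X)

/-- Mathlib's singular chain complex with real coefficients
(definitionally `((singularChainComplexFunctor (ModuleCat ℝ)).obj (ModuleCat.of ℝ ℝ)).obj (TopCat.of X)`) -/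
noncomputable abbrev KK (X : Type) [TopologicalSpace X] : ChainComplex (ModuleCat.{0} ℝ) ℕ :=
  (SS X).chainComplex (ModuleCat.of ℝ ℝ)

/-- the map induced on Mathlib's singular chain complexes -/
noncomputable abbrev KKmap (f : C(X, Y)) : KK X ⟶ KK Y :=
  SSet.chainComplexMap (TopCat.toSSet.map (TopCat.ofHom f)) (ModuleCat.of ℝ ℝ)

theorem KK_eq (X : Type) [TopologicalSpace X] : KK X =
    ((AlgebraicTopology.singularChainComplexFunctor (ModuleCat.{0} ℝ)).obj (ModuleCat.of ℝ ℝ)).obj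
      (TopCat.of X) := rfl

theorem KKmap_eq (f : C(X, Y)) : KKmap f =
    ((AlgebraicTopology.singularChainComplexFunctor (ModuleCat.{0} ℝ)).obj (ModuleCat.of ℝ ℝ)).map
      (TopCat.ofHom f) := rfl

/-- simplices of the singular simplicial set are continuous maps -/
noncomputable def sEq (n : ℕ) : (SS X) _⦋n⦌ ≃ C(Sx n, X) :=
  TopCat.toSSetObjEquiv (TopCat.of X) (Opposite.op ⦋n⦌)

theorem sEq_δ (n : ℕ) (i : Fin (n + 2)) (x : (SS X) _⦋n + 1⦌) :
    sEq n ((SS X).δ i x) = (sEq (n + 1) x).comp (face n i) := rfl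

theorem sEq_map (n : ℕ) (f : C(X, Y)) (x : (SS X) _⦋n⦌) :
    sEq n ((TopCat.toSSet.map (TopCat.ofHom f)).app _ x) = f.comp (sEq n x) := rfl

/-- `(KK X).X n ⟶ Ch n X` -/
noncomputable def toCh (X : Type) [TopologicalSpace X] (n : ℕ) :
    (KK X).X n ⟶ ModuleCat.of ℝ (Ch n X) :=
  ((SS X).isColimitChainComplexXCofan (ModuleCat.of ℝ ℝ) n).desc
    (Limits.Cofan.mk _ fun x => ModuleCat.ofHom (Finsupp.lsingle (sEq n x)))

theorem ι_toCh (n : ℕ) (x : (SS X) _⦋n⦌) :
    (SS X).ιChainComplex x ≫ toCh X n = ModuleCat.ofHom (Finsupp.lsingle (sEq n x)) :=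
  ((SS X).isColimitChainComplexXCofan (ModuleCat.of ℝ ℝ) n).fac _ ⟨x⟩

/-- `Ch n X ⟶ (KK X).X n` -/
noncomputable def ofCh (X : Type) [TopologicalSpace X] (n : ℕ) :
    ModuleCat.of ℝ (Ch n X) ⟶ (KK X).X n :=
  ModuleCat.ofHom (Finsupp.lsum ℝ fun σ : C(Sx n, X) =>
    ((SS X).ιChainComplex (R := ModuleCat.of ℝ ℝ) ((sEq n).symm σ)).hom)

theorem lsingle_ofCh (n : ℕ) (σ : C(Sx n, X)) :
    ModuleCat.ofHom (Finsupp.lsingle σ : ℝ →ₗ[ℝ] Ch n X) ≫ ofCh X n
      = (SS X).ιChainComplex ((sEq n).symm σ) := by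
  apply ModuleCat.hom_ext
  apply LinearMap.ext
  intro r
  show (Finsupp.lsum ℝ fun σ : C(Sx n, X) =>
    ((SS X).ιChainComplex (R := ModuleCat.of ℝ ℝ) ((sEq n).symm σ)).hom) (Finsupp.single σ r) = _
  rw [Finsupp.lsum_single]

theorem toCh_ofCh (n : ℕ) : toCh X n ≫ ofCh X n = 𝟙 _ := by
  apply SSet.chainComplex_hom_ext
  intro x
  rw [← Category.assoc, ι_toCh, lsingle_ofCh, Equiv.symm_apply_apply, Category.comp_id]

theorem ofCh_toCh (n : ℕ) : ofCh X n ≫ toCh X n = 𝟙 _ := by
  apply ModuleCat.hom_ext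
  apply Finsupp.lhom_ext'
  intro σ
  have h : ModuleCat.ofHom (Finsupp.lsingle σ : ℝ →ₗ[ℝ] Ch n X) ≫ (ofCh X n ≫ toCh X n)
      = ModuleCat.ofHom (Finsupp.lsingle σ : ℝ →ₗ[ℝ] Ch n X) ≫ 𝟙 _ := by
    rw [← Category.assoc, lsingle_ofCh, ι_toCh, Equiv.apply_symm_apply, Category.comp_id]
  exact congrArg ModuleCat.Hom.hom h

/-- the degreewise isomorphism -/
noncomputable def chIso (X : Type) [TopologicalSpace X] (n : ℕ) :
    (KK X).X n ≅ ModuleCat.of ℝ (Ch n X) where
  hom := toCh X n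
  inv := ofCh X n
  hom_inv_id := toCh_ofCh n
  inv_hom_id := ofCh_toCh n

theorem toCh_bd (n : ℕ) :
    toCh X (n + 1) ≫ ModuleCat.ofHom (bd n) = (KK X).d (n + 1) n ≫ toCh X n := by
  apply SSet.chainComplex_hom_ext
  intro x
  rw [← Category.assoc, ι_toCh, ← Category.assoc, SSet.ιChainComplex_d, Preadditive.sum_comp]
  apply ModuleCat.hom_ext
  apply LinearMap.ext
  intro r
  show bd n (Finsupp.single (sEq (n + 1) x) r) = _
  rw [hb_bd_single, ModuleCat.hom_sum, LinearMap.sum_apply, Finset.smul_sum]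
  refine Finset.sum_congr rfl fun i _ => ?_
  rw [Preadditive.zsmul_comp, ι_toCh, ModuleCat.hom_zsmul, LinearMap.smul_apply]
  show _ = (-1 : ℤ) ^ (i : ℕ) • Finsupp.single (sEq n ((SS X).δ i x)) r
  rw [sEq_δ, smul_comm, Finsupp.smul_single, smul_eq_mul, mul_one]
  rcases Nat.even_or_odd (i : ℕ) with h | h
  · rw [h.neg_one_pow, h.neg_one_pow, one_smul, one_smul]
  · rw [h.neg_one_pow, h.neg_one_pow, neg_one_smul, neg_one_smul]

theorem bd_bd (n : ℕ) (c : Ch (n + 2) X) : bd n (bd (n + 1) c) = 0 := by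
  have h : toCh X (n + 2) ≫ (ModuleCat.ofHom (bd (n + 1)) ≫ ModuleCat.ofHom (bd n)) = 0 := by
    rw [← Category.assoc, toCh_bd, Category.assoc, toCh_bd, ← Category.assoc,
      HomologicalComplex.d_comp_d, Limits.zero_comp]
  have h2 : ModuleCat.ofHom (bd (n + 1)) ≫ ModuleCat.ofHom (bd n)
      = (0 : ModuleCat.of ℝ (Ch (n + 2) X) ⟶ ModuleCat.of ℝ (Ch n X)) := by
    have h3 := congrArg (fun φ => ofCh X (n + 2) ≫ φ) h
    simp only [Limits.comp_zero] at h3
    rwa [← Category.assoc, ofCh_toCh, Category.id_comp] at h3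
  exact congrArg (fun φ => φ.hom c) h2

theorem bd_push (n : ℕ) (f : C(X, Y)) (c : Ch (n + 1) X) :
    bd n (push (n + 1) f c) = push n f (bd n c) := by
  have h : (bd n) ∘ₗ (push (n + 1) f) = (push n f) ∘ₗ (bd n : Ch (n + 1) X →ₗ[ℝ] Ch n X) := by
    apply Finsupp.lhom_ext
    intro σ r
    simp only [LinearMap.comp_apply, hb_push_single, hb_bd_single, map_smul, map_sum]
    rfl
  exact congrArg (fun φ => φ c) h

/-! ### the concrete chain complex -/

/-- the singular chain complex built from `Ch`, `bd` -/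
noncomputable abbrev CC (X : Type) [TopologicalSpace X] : ChainComplex (ModuleCat.{0} ℝ) ℕ :=
  ChainComplex.of (fun n => ModuleCat.of ℝ (Ch n X)) (fun n => ModuleCat.ofHom (bd n))
    (fun n => by
      apply ModuleCat.hom_ext
      apply LinearMap.ext
      intro c
      exact bd_bd n c)

theorem CC_X (X : Type) [TopologicalSpace X] (n : ℕ) : (CC X).X n = ModuleCat.of ℝ (Ch n X) := rfl

theorem CC_d (X : Type) [TopologicalSpace X] (n : ℕ) :
    (CC X).d (n + 1) n = ModuleCat.ofHom (bd n) :=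
  ChainComplex.of_d (fun n => ModuleCat.of ℝ (Ch n X)) (fun n => ModuleCat.ofHom (bd n)) n

theorem CC_d_hom (X : Type) [TopologicalSpace X] (n : ℕ) :
    ((CC X).d (n + 1) n).hom = (bd n : Ch (n + 1) X →ₗ[ℝ] Ch n X) := by
  rw [CC_d]
  rfl

/-- the chain map induced by a continuous map -/
noncomputable def CCmap (f : C(X, Y)) : CC X ⟶ CC Y :=
  ChainComplex.ofHom (fun n => ModuleCat.ofHom (push n f)) (fun n => by
    rw [CC_d, CC_d]
    apply ModuleCat.hom_ext
    apply LinearMap.ext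
    intro c
    exact bd_push n f c)

theorem CCmap_f (f : C(X, Y)) (n : ℕ) : (CCmap f).f n = ModuleCat.ofHom (push n f) := rfl

theorem CCmap_id (X : Type) [TopologicalSpace X] : CCmap (ContinuousMap.id X) = 𝟙 (CC X) := by
  apply HomologicalComplex.hom_ext
  intro n
  apply ModuleCat.hom_ext
  apply LinearMap.ext
  intro c
  exact hb_push_id n c

theorem CCmap_comp {Z : Type} [TopologicalSpace Z] (g : C(Y, Z)) (f : C(X, Y)) :
    CCmap (g.comp f) = CCmap f ≫ CCmap g := by
  apply HomologicalComplex.hom_ext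
  intro n
  apply ModuleCat.hom_ext
  apply LinearMap.ext
  intro c
  exact hb_push_comp n g f c

/-- Mathlib's singular chain complex is isomorphic to the concrete one -/
noncomputable def CCiso (X : Type) [TopologicalSpace X] : KK X ≅ CC X :=
  HomologicalComplex.Hom.isoOfComponents (fun n => chIso X n) (by
    intro i j hij
    have hij' : j + 1 = i := hij
    subst hij'
    rw [CC_d]
    exact toCh_bd j)

theorem CCiso_hom_f (X : Type) [TopologicalSpace X] (n : ℕ) : (CCiso X).hom.f n = toCh X n := rfl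

theorem CCiso_inv_f (X : Type) [TopologicalSpace X] (n : ℕ) : (CCiso X).inv.f n = ofCh X n := rfl

theorem toCh_push (f : C(X, Y)) (n : ℕ) :
    (KKmap f).f n ≫ toCh Y n = toCh X n ≫ ModuleCat.ofHom (push n f) := by
  apply SSet.chainComplex_hom_ext
  intro x
  rw [← Category.assoc, SSet.ι_chainComplexMap_f, ι_toCh, ← Category.assoc, ι_toCh]
  apply ModuleCat.hom_ext
  apply LinearMap.ext
  intro r
  show Finsupp.single (sEq n ((TopCat.toSSet.map (TopCat.ofHom f)).app _ x)) r
    = push n f (Finsupp.single (sEq n x) r)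
  rw [hb_push_single, sEq_map]

theorem CCiso_naturality (f : C(X, Y)) : KKmap f ≫ (CCiso Y).hom = (CCiso X).hom ≫ CCmap f := by
  apply HomologicalComplex.hom_ext
  intro n
  exact toCh_push f n

/-! ### homology -/

/-- Mathlib's singular homology is the homology of the concrete chain complex -/
noncomputable def hccEquiv (n : ℕ) (X : Type) [TopologicalSpace X] :
    RealSingularHomology n X ≃ₗ[ℝ] (CC X).homology n :=
  ((HomologicalComplex.homologyFunctor (ModuleCat.{0} ℝ) (ComplexShape.down ℕ) n).mapIso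
    (CCiso X)).toLinearEquiv

theorem hccEquiv_apply (n : ℕ) (x : RealSingularHomology n X) :
    hccEquiv n X x = (HomologicalComplex.homologyMap (CCiso X).hom n).hom x := rfl

theorem realHomologyMap_eq (n : ℕ) (f : C(X, Y)) (x : RealSingularHomology n X) :
    realHomologyMap n f f.continuous x = (HomologicalComplex.homologyMap (KKmap f) n).hom x := rfl

theorem hccEquiv_naturality (n : ℕ) (f : C(X, Y)) (x : RealSingularHomology n X) :
    hccEquiv n Y (realHomologyMap n f f.continuous x)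
      = (HomologicalComplex.homologyMap (CCmap f) n).hom (hccEquiv n X x) := by
  rw [hccEquiv_apply, hccEquiv_apply, realHomologyMap_eq]
  have h := congrArg (fun φ => HomologicalComplex.homologyMap φ n) (CCiso_naturality f)
  simp only [HomologicalComplex.homologyMap_comp] at h
  exact congrArg (fun φ => φ.hom x) h

theorem mem_ker_CC_d (n : ℕ) (z : Ch (n + 1) X) :
    z ∈ LinearMap.ker ((CC X).d (n + 1) n).hom ↔ bd n z = 0 := by
  rw [LinearMap.mem_ker, CC_d_hom]

theorem mem_ker_CC_d_zero (z : Ch 0 X) : z ∈ LinearMap.ker ((CC X).d 0 0).hom := by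
  rw [LinearMap.mem_ker, (CC X).shape 0 0 (by simp)]
  rfl

/-- cycles of positive degree, as elements of the kernel of the differential of `CC X` -/
noncomputable def zc (n : ℕ) : LinearMap.ker (bd n : Ch (n + 1) X →ₗ[ℝ] Ch n X) →ₗ[ℝ]
    LinearMap.ker ((CC X).d (n + 1) n).hom :=
  LinearMap.codRestrict _ (LinearMap.ker (bd n : Ch (n + 1) X →ₗ[ℝ] Ch n X)).subtype
    (fun z => (mem_ker_CC_d n z.1).mpr z.2)

/-- `0`-chains, as elements of the kernel of the (zero) differential of `CC X` -/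
noncomputable def zc0 : Ch 0 X →ₗ[ℝ] LinearMap.ker ((CC X).d 0 0).hom :=
  LinearMap.codRestrict _ LinearMap.id (fun z => mem_ker_CC_d_zero z)

theorem zc_surjective (n : ℕ) : Function.Surjective (zc n : _ →ₗ[ℝ]
    LinearMap.ker ((CC X).d (n + 1) n).hom) := fun w =>
  ⟨⟨w.1, (mem_ker_CC_d n w.1).mp w.2⟩, rfl⟩

theorem zc0_surjective : Function.Surjective (zc0 : _ →ₗ[ℝ]
    LinearMap.ker ((CC X).d 0 0).hom) := fun w => ⟨w.1, rfl⟩

/-- homology class of a cycle of positive degree -/
noncomputable def cls (n : ℕ) :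
    LinearMap.ker (bd n : Ch (n + 1) X →ₗ[ℝ] Ch n X) →ₗ[ℝ] RealSingularHomology (n + 1) X :=
  (hccEquiv (n + 1) X).symm.toLinearMap ∘ₗ
    gcls (CC X) (n + 1) n (ChainComplex.next_nat_succ n) ∘ₗ zc n

/-- homology class of a `0`-chain -/
noncomputable def cls0 : Ch 0 X →ₗ[ℝ] RealSingularHomology 0 X :=
  (hccEquiv 0 X).symm.toLinearMap ∘ₗ gcls (CC X) 0 0 ChainComplex.next_nat_zero ∘ₗ zc0

theorem cls_eq (n : ℕ) (z : LinearMap.ker (bd n : Ch (n + 1) X →ₗ[ℝ] Ch n X)) :
    hccEquiv (n + 1) X (cls n z) = gcls (CC X) (n + 1) n (ChainComplex.next_nat_succ n) (zc n z) := by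
  unfold cls
  simp only [LinearMap.comp_apply, LinearEquiv.coe_coe, LinearEquiv.apply_symm_apply]

theorem cls0_eq (z : Ch 0 X) :
    hccEquiv 0 X (cls0 z) = gcls (CC X) 0 0 ChainComplex.next_nat_zero (zc0 z) := by
  unfold cls0
  simp only [LinearMap.comp_apply, LinearEquiv.coe_coe, LinearEquiv.apply_symm_apply]

theorem cls_surjective (n : ℕ) :
    Function.Surjective (cls n : LinearMap.ker (bd n : Ch (n + 1) X →ₗ[ℝ] Ch n X) →ₗ[ℝ] _) :=
  (hccEquiv (n + 1) X).symm.surjective.comp
    ((gcls_surjective (CC X) (n + 1) n (ChainComplex.next_nat_succ n)).comp (zc_surjective n))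

theorem cls_eq_zero_iff (n : ℕ) (z : LinearMap.ker (bd n : Ch (n + 1) X →ₗ[ℝ] Ch n X)) :
    cls n z = 0 ↔ ∃ e : Ch (n + 2) X, bd (n + 1) e = z.1 := by
  rw [← (hccEquiv (n + 1) X).map_eq_zero_iff, cls_eq,
    gcls_eq_zero_iff (CC X) (n + 1) n (n + 2) _ (ChainComplex.prev ℕ (n + 1)), CC_d_hom]
  rfl

theorem cls0_surjective : Function.Surjective (cls0 : Ch 0 X →ₗ[ℝ] _) :=
  (hccEquiv 0 X).symm.surjective.comp
    ((gcls_surjective (CC X) 0 0 ChainComplex.next_nat_zero).comp zc0_surjective)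

theorem cls0_eq_zero_iff (z : Ch 0 X) : cls0 z = 0 ↔ ∃ e : Ch 1 X, bd 0 e = z := by
  rw [← (hccEquiv 0 X).map_eq_zero_iff, cls0_eq,
    gcls_eq_zero_iff (CC X) 0 0 1 _ (ChainComplex.prev ℕ 0), CC_d_hom]
  rfl

theorem cls_push (n : ℕ) (f : C(X, Y)) (z : LinearMap.ker (bd n : Ch (n + 1) X →ₗ[ℝ] Ch n X)) :
    realHomologyMap (n + 1) f f.continuous (cls n z) =
      cls n ⟨push (n + 1) f z.1, by
        rw [LinearMap.mem_ker, bd_push, LinearMap.mem_ker.mp z.2, map_zero]⟩ := by
  apply (hccEquiv (n + 1) Y).injective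
  rw [hccEquiv_naturality, cls_eq, cls_eq]
  exact gcls_map (CCmap f) (n + 1) n _ (zc n z) _

theorem cls0_push (f : C(X, Y)) (z : Ch 0 X) :
    realHomologyMap 0 f f.continuous (cls0 z) = cls0 (push 0 f z) := by
  apply (hccEquiv 0 Y).injective
  rw [hccEquiv_naturality, cls0_eq, cls0_eq]
  exact gcls_map (CCmap f) 0 0 _ (zc0 z) _

end HBridge

/-! ### hygiene (rule 6, on-demand lemmas): the equation lemmas of the definitions of this file are realised HERE once. -/
theorem Hyg.HBridge : True := by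
  have := @Claimed.Agent.R082.gcyc.eq_1
  have := @Claimed.Agent.R082.gcls.eq_1
  have := @Claimed.Agent.R082.Sx.eq_1
  have := @Claimed.Agent.R082.Ch.eq_1
  have := @Claimed.Agent.R082.face.eq_1
  have := @Claimed.Agent.R082.bd.eq_1
  have := @Claimed.Agent.R082.push.eq_1
  have := @Claimed.Agent.R082.SS.eq_1
  have := @Claimed.Agent.R082.KK.eq_1
  have := @Claimed.Agent.R082.KKmap.eq_1
  have := @Claimed.Agent.R082.sEq.eq_1
  have := @Claimed.Agent.R082.toCh.eq_1
  have := @Claimed.Agent.R082.ofCh.eq_1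
  have := @Claimed.Agent.R082.chIso.eq_1
  have := @Claimed.Agent.R082.CC.eq_1
  have := @Claimed.Agent.R082.CCmap.eq_1
  have := @Claimed.Agent.R082.CCiso.eq_1
  have := @Claimed.Agent.R082.hccEquiv.eq_1
  have := @Claimed.Agent.R082.zc.eq_1
  have := @Claimed.Agent.R082.zc0.eq_1
  have := @Claimed.Agent.R082.cls.eq_1
  have := @Claimed.Agent.R082.cls0.eq_1
  trivial

end Claimed.Agent.R082
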