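import Claimed.Agent.R082.HGoodCover

/-!
# Row 82 homology package: the hemisphere cover of `S¹ × (S²)^(q+1)`
Blueprint: `docs/R082_homology.md` on branch `origin/helper82`.

Instead of an explicit straight-line homotopy we use: a nonempty intersection `V` of products of hemispheres is a retract
(normalisation in every factor) of the convex set `K` of the ambient vector space cut out by the same strict linear inequalities;
a retract of a contractible space is contractible.
-/

set_option autoImplicit false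

open Claims Claims.C0146 Claims.C0146.Problem340
open CategoryTheory

namespace Claimed.Agent.R082

/-- a retract of a contractible space is contractible -/
theorem hCover_contractible_of_retract {X Y : Type*} [TopologicalSpace X] [TopologicalSpace Y]
    [ContractibleSpace Y] (i : C(X, Y)) (r : C(Y, X)) (h : ∀ x, r (i x) = x) :
    ContractibleSpace X := by
  rw [contractible_iff_id_nullhomotopic]
  have h1 : (ContinuousMap.id Y).Nullhomotopic := id_nullhomotopic Y
  have h2 := (h1.comp_left i).comp_right r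
  have h3 : r.comp ((ContinuousMap.id Y).comp i) = ContinuousMap.id X := by
    ext x; exact h x
  rwa [h3] at h2

/-- the sign of a hemisphere -/
def hCoverSgn (b : Bool) : ℝ := if b then 1 else -1

theorem hCover_exists_sgn {a : ℝ} (ha : a ≠ 0) : ∃ b : Bool, 0 < hCoverSgn b * a := by
  rcases lt_or_gt_of_ne ha with h | h
  · exact ⟨false, by simp [hCoverSgn, h]⟩
  · exact ⟨true, by simp [hCoverSgn, h]⟩

/-- every point of a unit sphere lies in a coordinate hemisphere -/
theorem hCover_exists_coord {n : ℕ} (x : Metric.sphere (0 : EuclideanSpace ℝ (Fin n)) (1 : ℝ)) :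
    ∃ c : Fin n × Bool, 0 < hCoverSgn c.2 * x.1 c.1 := by
  have hx : x.1 ≠ 0 := by
    intro h0
    have h1 : ‖x.1‖ = 1 := by simp
    rw [h0, norm_zero] at h1
    exact zero_ne_one h1
  have : ∃ k, x.1 k ≠ 0 := by
    by_contra hcon
    push Not at hcon
    apply hx
    ext k
    exact hcon k
  obtain ⟨k, hk⟩ := this
  obtain ⟨b, hb⟩ := hCover_exists_sgn hk
  exact ⟨(k, b), hb⟩

/-- the index type of the cover -/
abbrev HCoverIdx (q : ℕ) : Type := (Fin 2 × Bool) × (Fin (q + 1) → Fin 3 × Bool)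

/-- the inequalities of the index `i`, in the ambient vector space -/
def hCoverK (q : ℕ) (i : HCoverIdx q) : Set (CounterexampleAmbient q) :=
  {y | 0 < hCoverSgn i.1.2 * y.1 i.1.1 ∧ ∀ j, 0 < hCoverSgn (i.2 j).2 * (y.2 j) (i.2 j).1}

/-- the products of hemispheres -/
def hCoverU (q : ℕ) (i : HCoverIdx q) : Set (CounterexampleManifold q) :=
  {x | standardEmbedding q x ∈ hCoverK q i}

theorem hCover_continuous_embedding (q : ℕ) : Continuous (standardEmbedding q) := by
  unfold standardEmbedding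
  fun_prop

theorem hCover_isOpen_K (q : ℕ) (i : HCoverIdx q) : IsOpen (hCoverK q i) := by
  have e : hCoverK q i = {y | 0 < hCoverSgn i.1.2 * y.1 i.1.1} ∩
      ⋂ j, {y | 0 < hCoverSgn (i.2 j).2 * (y.2 j) (i.2 j).1} := by
    ext y
    simp [hCoverK]
  rw [e]
  refine IsOpen.inter ?_ (isOpen_iInter_of_finite fun j => ?_)
  · exact isOpen_lt continuous_const (by fun_prop)
  · exact isOpen_lt continuous_const (by fun_prop)

theorem hCover_isOpen_U (q : ℕ) (i : HCoverIdx q) : IsOpen (hCoverU q i) :=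
  (hCover_isOpen_K q i).preimage (hCover_continuous_embedding q)

theorem hCover_pos_comb {u v a b : ℝ} (hu : 0 < u) (hv : 0 < v) (ha : 0 ≤ a) (hb : 0 ≤ b)
    (hab : a + b = 1) : 0 < a * u + b * v := by
  rcases ha.lt_or_eq with h | h
  · have := mul_pos h hu
    have := mul_nonneg hb hv.le
    linarith
  · have hb1 : b = 1 := by linarith
    rw [← h, hb1]; simpa using hv

theorem hCover_convex_K (q : ℕ) (i : HCoverIdx q) : Convex ℝ (hCoverK q i) := by
  intro y hy z hz a b ha hb hab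
  refine ⟨?_, fun j => ?_⟩
  · have := hCover_pos_comb hy.1 hz.1 ha hb hab
    have e : hCoverSgn i.1.2 * (a • y + b • z).1 i.1.1
        = a * (hCoverSgn i.1.2 * y.1 i.1.1) + b * (hCoverSgn i.1.2 * z.1 i.1.1) := by
      simp; ring
    rw [e]; exact this
  · have := hCover_pos_comb (hy.2 j) (hz.2 j) ha hb hab
    have e : hCoverSgn (i.2 j).2 * ((a • y + b • z).2 j) (i.2 j).1
        = a * (hCoverSgn (i.2 j).2 * (y.2 j) (i.2 j).1)
          + b * (hCoverSgn (i.2 j).2 * (z.2 j) (i.2 j).1) := by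
      simp; ring
    rw [e]; exact this

/-- normalisation -/
noncomputable def hCoverNrm {n : ℕ} (y : EuclideanSpace ℝ (Fin n)) (hy : y ≠ 0) :
    Metric.sphere (0 : EuclideanSpace ℝ (Fin n)) (1 : ℝ) :=
  ⟨‖y‖⁻¹ • y, by simp [norm_smul, hy]⟩

theorem hCoverNrm_coe {n : ℕ} (x : Metric.sphere (0 : EuclideanSpace ℝ (Fin n)) (1 : ℝ))
    (hx : x.1 ≠ 0) : hCoverNrm x.1 hx = x := by
  have h1 : ‖x.1‖ = 1 := by simp
  apply Subtype.ext
  show ‖x.1‖⁻¹ • x.1 = x.1
  rw [h1, inv_one, one_smul]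

theorem hCoverNrm_pos {n : ℕ} {y : EuclideanSpace ℝ (Fin n)} (hy : y ≠ 0) {s : ℝ} {k : Fin n}
    (h : 0 < s * y k) : 0 < s * (hCoverNrm y hy).1 k := by
  have e : s * (hCoverNrm y hy).1 k = ‖y‖⁻¹ * (s * y k) := by
    show s * (‖y‖⁻¹ • y) k = _
    simp; ring
  rw [e]
  exact mul_pos (inv_pos.2 (norm_pos_iff.2 hy)) h

theorem hCover_ne_zero {n : ℕ} {y : EuclideanSpace ℝ (Fin n)} {s : ℝ} {k : Fin n}
    (h : 0 < s * y k) : y ≠ 0 := by
  intro h0
  rw [h0] at h
  simp at h

theorem hCoverNrm_continuous {n : ℕ} {Y : Type*} [TopologicalSpace Y]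
    (f : Y → EuclideanSpace ℝ (Fin n)) (hf : Continuous f) (h0 : ∀ y, f y ≠ 0) :
    Continuous fun y => hCoverNrm (f y) (h0 y) := by
  refine Continuous.subtype_mk ?_ _
  exact (hf.norm.inv₀ fun y => norm_ne_zero_iff.2 (h0 y)).smul hf

/-- a nonempty intersection of products of hemispheres is contractible -/
theorem hCover_contractible (q : ℕ) (t : Finset (HCoverIdx q)) (ht : t.Nonempty)
    (hne : (⋂ i ∈ t, hCoverU q i).Nonempty) : ContractibleSpace ↥(⋂ i ∈ t, hCoverU q i) := by
  obtain ⟨i₀, hi₀⟩ := ht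
  have hconv : Convex ℝ (⋂ i ∈ t, hCoverK q i) := convex_iInter₂ fun i _ => hCover_convex_K q i
  have hemb : ∀ x : ↥(⋂ i ∈ t, hCoverU q i), standardEmbedding q x.1 ∈ ⋂ i ∈ t, hCoverK q i := by
    intro x
    have hx := x.2
    simp only [Set.mem_iInter] at hx ⊢
    exact fun i hi => hx i hi
  have hKne : (⋂ i ∈ t, hCoverK q i).Nonempty := by
    obtain ⟨x, hx⟩ := hne
    exact ⟨_, hemb ⟨x, hx⟩⟩
  have hK : ContractibleSpace ↥(⋂ i ∈ t, hCoverK q i) := hconv.contractibleSpace hKne
  have hmem : ∀ y : ↥(⋂ i ∈ t, hCoverK q i), ∀ i ∈ t, y.1 ∈ hCoverK q i := by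
    intro y
    have hy := y.2
    simp only [Set.mem_iInter] at hy
    exact hy
  have h1 : ∀ y : ↥(⋂ i ∈ t, hCoverK q i), y.1.1 ≠ 0 := fun y =>
    hCover_ne_zero (hmem y i₀ hi₀).1
  have h2 : ∀ (y : ↥(⋂ i ∈ t, hCoverK q i)) (j : Fin (q + 1)), y.1.2 j ≠ 0 := fun y j =>
    hCover_ne_zero ((hmem y i₀ hi₀).2 j)
  have hrc : Continuous fun y : ↥(⋂ i ∈ t, hCoverK q i) =>
      ((hCoverNrm y.1.1 (h1 y), fun j => hCoverNrm (y.1.2 j) (h2 y j)) :
        CounterexampleManifold q) := by
    refine Continuous.prodMk ?_ (continuous_pi fun j => ?_)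
    · exact hCoverNrm_continuous (fun y : ↥(⋂ i ∈ t, hCoverK q i) => y.1.1) (by fun_prop) h1
    · exact hCoverNrm_continuous (fun y : ↥(⋂ i ∈ t, hCoverK q i) => y.1.2 j) (by fun_prop)
        (fun y => h2 y j)
  have hrm : ∀ y : ↥(⋂ i ∈ t, hCoverK q i),
      ((hCoverNrm y.1.1 (h1 y), fun j => hCoverNrm (y.1.2 j) (h2 y j)) :
        CounterexampleManifold q) ∈ ⋂ i ∈ t, hCoverU q i := by
    intro y
    simp only [Set.mem_iInter]
    intro i hi
    exact ⟨hCoverNrm_pos (h1 y) (hmem y i hi).1, fun j => hCoverNrm_pos (h2 y j) ((hmem y i hi).2 j)⟩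
  refine hCover_contractible_of_retract (Y := ↥(⋂ i ∈ t, hCoverK q i))
    ⟨fun x => ⟨standardEmbedding q x.1, hemb x⟩,
      ((hCover_continuous_embedding q).comp continuous_subtype_val).subtype_mk _⟩
    ⟨fun y => ⟨_, hrm y⟩, hrc.subtype_mk _⟩ ?_
  intro x
  apply Subtype.ext
  refine Prod.ext ?_ (funext fun j => ?_)
  · exact hCoverNrm_coe x.1.1 (h1 ⟨standardEmbedding q x.1, hemb x⟩)
  · exact hCoverNrm_coe (x.1.2 j) (h2 ⟨standardEmbedding q x.1, hemb x⟩ j)

theorem hCover_iUnion (q : ℕ) :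
    (⋃ i ∈ (Finset.univ : Finset (HCoverIdx q)), hCoverU q i) = Set.univ := by
  apply Set.eq_univ_of_forall
  intro x
  obtain ⟨c, hc⟩ := hCover_exists_coord x.1
  choose d hd using fun j => hCover_exists_coord (x.2 j)
  simp only [Set.mem_iUnion]
  exact ⟨(c, d), Finset.mem_univ _, hc, hd⟩

theorem FV_counterexampleManifold (q : ℕ) : FV (CounterexampleManifold q) := by
  have h := FV_of_goodCover (Finset.univ : Finset (HCoverIdx q)) (hCoverU q) (hCover_isOpen_U q)
    (fun t _ ht => by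
      by_cases hne : (⋂ i ∈ t, hCoverU q i).Nonempty
      · exact Or.inr (hCover_contractible q t ht hne)
      · exact Or.inl (Set.isEmpty_coe_sort.2 (Set.not_nonempty_iff_eq_empty.1 hne)))
  rw [hCover_iUnion] at h
  exact FV_of_homeomorph (Homeomorph.Set.univ (CounterexampleManifold q)) h

end Claimed.Agent.R082
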