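import Claimed.Agent.R082.HBasic
import Claimed.Agent.R082.HMV

/-!
# Row 82 homology package: finite good covers
Blueprint: `docs/R082_homology.md` on branch `origin/helper82`.
-/

set_option autoImplicit false

open Claims Claims.C0146 Claims.C0146.Problem340
open CategoryTheory

namespace Claimed.Agent.R082

section HGoodCover

/-- finite-dimensional in every degree and zero in high degrees -/
def FV (X : Type) [TopologicalSpace X] : Prop :=
  (∀ n, Module.Finite ℝ (RealSingularHomology n X)) ∧
    ∃ N : ℕ, ∀ n, N ≤ n → Subsingleton (RealSingularHomology n X)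

theorem HGoodCover_map_congr {X Y : Type} [TopologicalSpace X] [TopologicalSpace Y] (n : ℕ)
    {f g : X → Y} (hf : Continuous f) (hg : Continuous g) (h : f = g) :
    realHomologyMap n f hf = realHomologyMap n g hg := by
  subst h
  rfl

theorem HGoodCover_equiv {X Y : Type} [TopologicalSpace X] [TopologicalSpace Y] (e : X ≃ₜ Y)
    (n : ℕ) : Nonempty (RealSingularHomology n X ≃ₗ[ℝ] RealSingularHomology n Y) := by
  refine ⟨LinearEquiv.ofLinearMap (realHomologyMap n e e.continuous)
    (realHomologyMap n e.symm e.symm.continuous) ?_ ?_⟩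
  · rw [← realHomologyMap_comp, ← realHomologyMap_id]
    exact HGoodCover_map_congr n _ _ (funext e.apply_symm_apply)
  · rw [← realHomologyMap_comp, ← realHomologyMap_id]
    exact HGoodCover_map_congr n _ _ (funext e.symm_apply_apply)

theorem FV_of_homeomorph {X Y : Type} [TopologicalSpace X] [TopologicalSpace Y] (e : X ≃ₜ Y)
    (h : FV X) : FV Y := by
  obtain ⟨h1, N, h2⟩ := h
  refine ⟨fun n => ?_, N, fun n hn => ?_⟩
  · obtain ⟨φ⟩ := HGoodCover_equiv e n
    have := h1 n
    exact Module.Finite.equiv φ
  · obtain ⟨φ⟩ := HGoodCover_equiv e n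
    have := h2 n hn
    exact φ.symm.toEquiv.subsingleton

/-- `A → B → C` exact at `B`, `A` and `C` finite-dimensional: `B` is finite-dimensional -/
theorem HGoodCover_finite_of_exact {A B C : Type*} [AddCommGroup A] [Module ℝ A] [AddCommGroup B]
    [Module ℝ B] [AddCommGroup C] [Module ℝ C] [Module.Finite ℝ A] [Module.Finite ℝ C]
    (f : A →ₗ[ℝ] B) (g : B →ₗ[ℝ] C) (h : ∀ x, g x = 0 → ∃ a, x = f a) : Module.Finite ℝ B := by
  rw [Module.finite_def]
  refine Submodule.fg_of_fg_map_of_fg_inf_ker g ?_ ?_
  · exact IsNoetherian.noetherian _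
  · rw [top_inf_eq]
    have hle : LinearMap.ker g ≤ LinearMap.range f := by
      intro x hx
      obtain ⟨a, ha⟩ := h x hx
      exact ⟨a, ha.symm⟩
    have : Module.Finite ℝ (LinearMap.range f) := Module.Finite.range f
    have h2 : (LinearMap.range f).FG := Module.Finite.iff_fg.mp inferInstance
    have : IsNoetherian ℝ (LinearMap.range f) := inferInstance
    have h3 := IsNoetherian.noetherian (Submodule.comap (LinearMap.range f).subtype (LinearMap.ker g))
    have h4 := h3.map (LinearMap.range f).subtype
    rwa [Submodule.map_comap_subtype, inf_eq_right.mpr hle] at h4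

theorem FV_union {X : Type} [TopologicalSpace X] (U V : Set X) (hU : IsOpen U) (hV : IsOpen V)
    (h1 : FV U) (h2 : FV V) (h3 : FV ↥(U ∩ V)) : FV ↥(U ∪ V) := by
  obtain ⟨f1, N1, v1⟩ := h1
  obtain ⟨f2, N2, v2⟩ := h2
  obtain ⟨f3, N3, v3⟩ := h3
  refine ⟨fun n => ?_, max (max N1 N2) (N3 + 1), fun n hn => ?_⟩
  · have := f1 n
    have := f2 n
    cases n with
    | zero =>
      refine Module.Finite.of_surjective
        ((inclH 0 (Set.subset_union_left (s := U) (t := V))).coprod
          (inclH 0 (Set.subset_union_right (s := U) (t := V)))) ?_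
      intro x
      obtain ⟨a, b, hab⟩ := mv_surj_zero U V hU hV x
      exact ⟨(a, b), by rw [LinearMap.coprod_apply]; exact hab.symm⟩
    | succ n =>
      have := f3 n
      refine HGoodCover_finite_of_exact
        ((inclH (n + 1) (Set.subset_union_left (s := U) (t := V))).coprod
          (inclH (n + 1) (Set.subset_union_right (s := U) (t := V)))) (mvδ U V hU hV n) ?_
      intro x hx
      obtain ⟨a, b, hab⟩ := (mv_exact_union U V hU hV n x).mp hx
      exact ⟨(a, b), by rw [LinearMap.coprod_apply]; exact hab⟩
  · obtain ⟨m, rfl⟩ : ∃ m, n = m + 1 := ⟨n - 1, by omega⟩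
    have := v1 (m + 1) (by omega)
    have := v2 (m + 1) (by omega)
    have := v3 m (by omega)
    refine ⟨fun x y => ?_⟩
    have key : ∀ z : RealSingularHomology (m + 1) ↥(U ∪ V), z = 0 := by
      intro z
      obtain ⟨a, b, hab⟩ := (mv_exact_union U V hU hV m z).mp (Subsingleton.elim _ _)
      rw [hab, Subsingleton.elim a 0, Subsingleton.elim b 0, map_zero, map_zero, add_zero]
    rw [key x, key y]

theorem HGoodCover_FV_of_isEmpty {X : Type} [TopologicalSpace X] [IsEmpty X] : FV X := by
  refine ⟨fun n => ?_, 0, fun n _ => subsingleton_homology_of_isEmpty n⟩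
  have := subsingleton_homology_of_isEmpty (X := X) n
  infer_instance

theorem HGoodCover_FV_of_contractible {X : Type} [TopologicalSpace X] [ContractibleSpace X] :
    FV X := by
  refine ⟨fun n => ?_, 1, fun n hn => subsingleton_homology_of_contractible n (by omega)⟩
  cases n with
  | zero => exact finite_homology_zero_of_contractible
  | succ n =>
    have := subsingleton_homology_of_contractible (X := X) (n + 1) (by omega)
    infer_instance

theorem FV_of_goodCover {X : Type} [TopologicalSpace X] {ι : Type} (s : Finset ι) (U : ι → Set X)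
    (hU : ∀ i, IsOpen (U i))
    (hgood : ∀ t : Finset ι, t ⊆ s → t.Nonempty →
      (IsEmpty ↥(⋂ i ∈ t, U i) ∨ ContractibleSpace ↥(⋂ i ∈ t, U i))) :
    FV ↥(⋃ i ∈ s, U i) := by
  classical
  induction s using Finset.induction_on generalizing U with
  | empty =>
    have : IsEmpty ↥(⋃ i ∈ (∅ : Finset ι), U i) := by
      simp
    exact HGoodCover_FV_of_isEmpty
  | insert k s hk ih =>
    rw [Finset.set_biUnion_insert]
    refine FV_union (U k) (⋃ i ∈ s, U i) (hU k)
      (isOpen_biUnion fun i _ => hU i) ?_ ?_ ?_
    · have h := hgood {k} (by simp) (Finset.singleton_nonempty k)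
      rw [Finset.set_biInter_singleton] at h
      rcases h with h | h
      · exact HGoodCover_FV_of_isEmpty
      · exact HGoodCover_FV_of_contractible
    · exact ih U hU fun t ht hne => hgood t (ht.trans (Finset.subset_insert k s)) hne
    · rw [Set.inter_iUnion₂]
      refine ih (fun i => U k ∩ U i) (fun i => (hU k).inter (hU i)) fun t ht hne => ?_
      have h := hgood (insert k t) (Finset.insert_subset_insert k ht) (Finset.insert_nonempty k t)
      rw [Finset.set_biInter_insert] at h
      have e : (⋂ i ∈ t, U k ∩ U i) = U k ∩ ⋂ i ∈ t, U i :=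
        Set.inter_biInter (s := (t : Set ι)) hne U (U k)
      rw [e]
      exact h

end HGoodCover

end Claimed.Agent.R082
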