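import Claimed.Agent.R082.HAff

/-!
# Row 82 homology package: diameters and convex hulls of tuples of points of `Δᵐ`
Blueprint: `docs/R082_homology.md` §4 on `origin/helper82`.   (deputy for §3-§6: helper762)
-/

set_option autoImplicit false

namespace Claimed.Agent.R082

section HHull

/-- all mutual distances of the tuple are `≤ d` -/
def TupDiam {m n : ℕ} (v : Fin n → Sx m) (d : ℝ) : Prop := ∀ i j, dist (v i) (v j) ≤ d

/-- the convex hull (in `ℝ^{m+1}`) of the points of a tuple -/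
def tupHull {m n : ℕ} (v : Fin n → Sx m) : Set (Fin (m + 1) → ℝ) :=
  convexHull ℝ (Set.range fun i => (v i : Fin (m + 1) → ℝ))

theorem TupDiam.mono {m n : ℕ} {v : Fin n → Sx m} {d d' : ℝ} (h : TupDiam v d) (hd : d ≤ d') :
    TupDiam v d' := fun i j => (h i j).trans hd

theorem TupDiam.comp {m n k : ℕ} {v : Fin n → Sx m} {d : ℝ} (h : TupDiam v d) (e : Fin k → Fin n) :
    TupDiam (v ∘ e) d := fun i j => h (e i) (e j)

theorem tupHull_comp_subset {m n k : ℕ} (v : Fin n → Sx m) (e : Fin k → Fin n) :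
    tupHull (v ∘ e) ⊆ tupHull v := by
  apply convexHull_mono
  rintro _ ⟨i, rfl⟩
  exact ⟨e i, rfl⟩

theorem mem_tupHull {m n : ℕ} (v : Fin n → Sx m) (i : Fin n) :
    (v i : Fin (m + 1) → ℝ) ∈ tupHull v :=
  subset_convexHull ℝ _ ⟨i, rfl⟩

theorem sxBary_mem_tupHull (m n : ℕ) (v : Fin (n + 1) → Sx m) :
    (sxBary m n v : Fin (m + 1) → ℝ) ∈ tupHull v := by
  rw [sxBary_coe]
  refine (convex_convexHull ℝ _).sum_mem (fun _ _ => by positivity) ?_
    (fun i _ => mem_tupHull v i)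
  rw [Finset.sum_const, Finset.card_univ, Fintype.card_fin, nsmul_eq_mul]
  push_cast
  field_simp

theorem aff_mem_tupHull {m n : ℕ} (v : Fin (n + 1) → Sx m) (t : Sx n) :
    (aff v t : Fin (m + 1) → ℝ) ∈ tupHull v := by
  rw [aff_coe]
  exact (convex_convexHull ℝ _).sum_mem (fun i _ => t.2.1 i) t.2.2 (fun i _ => mem_tupHull v i)

/-- `dist` in `Sx m` is the distance of `ℝ^{m+1}` (sup norm) -/
theorem dist_sx {m : ℕ} (x y : Sx m) :
    dist x y = dist (x : Fin (m + 1) → ℝ) (y : Fin (m + 1) → ℝ) := rfl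

/-- a point at distance `≤ r` from all `v i` is at distance `≤ r` from the hull -/
theorem dist_le_of_mem_tupHull {m n : ℕ} (v : Fin n → Sx m) (x y : Fin (m + 1) → ℝ) (r : ℝ)
    (h : ∀ i, dist x (v i : Fin (m + 1) → ℝ) ≤ r) (hy : y ∈ tupHull v) : dist x y ≤ r := by
  have hsub : (Set.range fun i => (v i : Fin (m + 1) → ℝ)) ⊆ Metric.closedBall x r := by
    rintro _ ⟨i, rfl⟩
    rw [Metric.mem_closedBall, dist_comm]
    exact h i
  have := convexHull_min hsub (convex_closedBall x r) hy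
  rw [Metric.mem_closedBall, dist_comm] at this
  exact this

/-- `β v - v_i = (n+1)⁻¹ ∑_j (v_j - v_i)` -/
theorem dist_sxBary_le (m n : ℕ) (v : Fin (n + 1) → Sx m) (d : ℝ) (h : TupDiam v d)
    (i : Fin (n + 1)) : dist (sxBary m n v) (v i) ≤ (n : ℝ) / ((n : ℝ) + 1) * d := by
  have hpos : (0 : ℝ) < (n : ℝ) + 1 := by positivity
  rw [dist_sx, dist_eq_norm, sxBary_coe]
  have hone : ∑ _j : Fin (n + 1), ((n : ℝ) + 1)⁻¹ = 1 := by
    rw [Finset.sum_const, Finset.card_univ, Fintype.card_fin, nsmul_eq_mul]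
    push_cast
    field_simp
  have hvi : (v i : Fin (m + 1) → ℝ)
      = ∑ _j : Fin (n + 1), ((n : ℝ) + 1)⁻¹ • (v i : Fin (m + 1) → ℝ) := by
    rw [← Finset.sum_smul, hone, one_smul]
  have hdiff : (∑ j, ((n : ℝ) + 1)⁻¹ • (v j : Fin (m + 1) → ℝ)) - (v i : Fin (m + 1) → ℝ)
      = ∑ j, ((n : ℝ) + 1)⁻¹ • ((v j : Fin (m + 1) → ℝ) - (v i : Fin (m + 1) → ℝ)) := by
    conv_lhs => rw [hvi]
    rw [← Finset.sum_sub_distrib]
    exact Finset.sum_congr rfl fun j _ => (smul_sub _ _ _).symm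
  rw [hdiff]
  have hterm : ∀ j : Fin (n + 1),
      ‖((n : ℝ) + 1)⁻¹ • ((v j : Fin (m + 1) → ℝ) - (v i : Fin (m + 1) → ℝ))‖
        ≤ if j = i then 0 else ((n : ℝ) + 1)⁻¹ * d := by
    intro j
    by_cases hj : j = i
    · subst hj
      simp
    · rw [if_neg hj, norm_smul, Real.norm_eq_abs, abs_of_pos (inv_pos.mpr hpos)]
      apply mul_le_mul_of_nonneg_left _ (inv_pos.mpr hpos).le
      have := h j i
      rwa [dist_sx, dist_eq_norm] at this
  calc ‖∑ j, ((n : ℝ) + 1)⁻¹ • ((v j : Fin (m + 1) → ℝ) - (v i : Fin (m + 1) → ℝ))‖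
      ≤ ∑ j, ‖((n : ℝ) + 1)⁻¹ • ((v j : Fin (m + 1) → ℝ) - (v i : Fin (m + 1) → ℝ))‖ :=
        norm_sum_le _ _
    _ ≤ ∑ j : Fin (n + 1), (if j = i then 0 else ((n : ℝ) + 1)⁻¹ * d) :=
        Finset.sum_le_sum fun j _ => hterm j
    _ = (n : ℝ) / ((n : ℝ) + 1) * d := by
        have h1 : ∑ j : Fin (n + 1), (if j = i then 0 else ((n : ℝ) + 1)⁻¹ * d)
            = ∑ j : Fin (n + 1), (((n : ℝ) + 1)⁻¹ * d - if j = i then ((n : ℝ) + 1)⁻¹ * d else 0) := by
          refine Finset.sum_congr rfl fun j _ => ?_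
          by_cases hj : j = i <;> simp [hj]
        rw [h1, Finset.sum_sub_distrib, Finset.sum_ite_eq' Finset.univ i, if_pos (Finset.mem_univ i),
          Finset.sum_const, Finset.card_univ, Fintype.card_fin, nsmul_eq_mul]
        push_cast
        field_simp
        ring

theorem tupDiam_sxVert (n : ℕ) : TupDiam (sxVert n) 1 := by
  intro i j
  rw [dist_sx, dist_pi_le_iff zero_le_one]
  intro k
  have h1 : 0 ≤ ((sxVert n i : Sx n) : Fin (n + 1) → ℝ) k := (sxVert n i).2.1 k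
  have h2 : 0 ≤ ((sxVert n j : Sx n) : Fin (n + 1) → ℝ) k := (sxVert n j).2.1 k
  have h3 : ((sxVert n i : Sx n) : Fin (n + 1) → ℝ) k ≤ 1 := by
    have := (sxVert n i).2.2
    calc ((sxVert n i : Sx n) : Fin (n + 1) → ℝ) k
        ≤ ∑ l, ((sxVert n i : Sx n) : Fin (n + 1) → ℝ) l :=
          Finset.single_le_sum (fun l _ => (sxVert n i).2.1 l) (Finset.mem_univ k)
      _ = 1 := this
  have h4 : ((sxVert n j : Sx n) : Fin (n + 1) → ℝ) k ≤ 1 := by
    have := (sxVert n j).2.2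
    calc ((sxVert n j : Sx n) : Fin (n + 1) → ℝ) k
        ≤ ∑ l, ((sxVert n j : Sx n) : Fin (n + 1) → ℝ) l :=
          Finset.single_le_sum (fun l _ => (sxVert n j).2.1 l) (Finset.mem_univ k)
      _ = 1 := this
  rw [Real.dist_eq, abs_le]
  constructor <;> linarith

/-- (M2) -/
theorem dist_aff_le {m n : ℕ} (w : Fin (n + 1) → Sx m) (d : ℝ) (h : TupDiam w d) (s t : Sx n) :
    dist (aff w s) (aff w t) ≤ d := by
  rw [dist_sx]
  apply dist_le_of_mem_tupHull w _ _ d _ (aff_mem_tupHull w t)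
  intro i
  rw [dist_comm]
  apply dist_le_of_mem_tupHull w _ _ d _ (aff_mem_tupHull w s)
  intro j
  exact h i j

end HHull

end Claimed.Agent.R082
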