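import Mathlib

/-!
# Row 82: subdivision algebra on tuples (pure combinatorics)

`K` is any type, `β` any "barycentre" function.  `LC K n` is the free real vector space on
`n`-tuples of points of `K` (AUGMENTED ordered chain complex: `n` = number of vertices).
Blueprint: `docs/R082_homology.md` §2 on `origin/helper82`.
-/

set_option autoImplicit false

namespace Claimed.Agent.R082

/-- free real vector space on `n`-tuples -/
abbrev LC (K : Type) (n : ℕ) := (Fin n → K) →₀ ℝ

variable {K K' : Type}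

/-- boundary of tuples -/
noncomputable def lcBd (n : ℕ) : LC K (n + 1) →ₗ[ℝ] LC K n :=
  Finsupp.lsum ℝ fun v : Fin (n + 1) → K =>
    LinearMap.toSpanSingleton ℝ (LC K n)
      (∑ i : Fin (n + 1), (-1 : ℝ) ^ (i : ℕ) • Finsupp.single (v ∘ i.succAbove) (1 : ℝ))

/-- cone with apex `b` -/
noncomputable def lcCone (b : K) (n : ℕ) : LC K n →ₗ[ℝ] LC K (n + 1) :=
  Finsupp.lmapDomain ℝ ℝ (fun v : Fin n → K => (Fin.cons b v : Fin (n + 1) → K))

/-- push-forward of tuples -/
noncomputable def lcMap (φ : K → K') (n : ℕ) : LC K n →ₗ[ℝ] LC K' n :=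
  Finsupp.lmapDomain ℝ ℝ (fun v : Fin n → K => φ ∘ v)

/-! ### helpers -/

/-- two linear maps on `LC K n` agreeing on the basis tuples agree everywhere -/
theorem HSdAlg_ext {n : ℕ} {V : Type*} [AddCommMonoid V] [Module ℝ V] {f g : LC K n →ₗ[ℝ] V}
    (h : ∀ v : Fin n → K, f (Finsupp.single v 1) = g (Finsupp.single v 1)) (c : LC K n) :
    f c = g c := by
  have : f = g := by
    refine Finsupp.lhom_ext' fun v => LinearMap.ext_ring ?_
    simpa using h v
  rw [this]

theorem HSdAlg_bd_single (n : ℕ) (v : Fin (n + 1) → K) :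
    lcBd n (Finsupp.single v 1) =
      ∑ i : Fin (n + 1), (-1 : ℝ) ^ (i : ℕ) • Finsupp.single (v ∘ i.succAbove) (1 : ℝ) := by
  simp [lcBd]

theorem HSdAlg_cone_single (b : K) (n : ℕ) (v : Fin n → K) (a : ℝ) :
    lcCone b n (Finsupp.single v a) = Finsupp.single (Fin.cons b v : Fin (n + 1) → K) a := by
  simp [lcCone]

theorem HSdAlg_map_single (φ : K → K') (n : ℕ) (v : Fin n → K) (a : ℝ) :
    lcMap φ n (Finsupp.single v a) = Finsupp.single (φ ∘ v) a := by
  simp [lcMap]

theorem HSdAlg_cons_comp_succAbove (b : K) (n : ℕ) (v : Fin (n + 1) → K) (i : Fin (n + 1)) :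
    (Fin.cons b v : Fin (n + 2) → K) ∘ i.succ.succAbove
      = (Fin.cons b (v ∘ i.succAbove) : Fin (n + 1) → K) := by
  funext k
  refine Fin.cases ?_ (fun k => ?_) k
  · simp
  · simp

theorem HSdAlg_bd_cone_succ (b : K) (n : ℕ) (c : LC K (n + 1)) :
    lcBd (n + 1) (lcCone b (n + 1) c) = c - lcCone b n (lcBd n c) := by
  refine HSdAlg_ext (f := (lcBd (n + 1)).comp (lcCone b (n + 1)))
    (g := LinearMap.id - (lcCone b n).comp (lcBd n)) (fun v => ?_) c
  simp only [LinearMap.comp_apply, LinearMap.sub_apply, LinearMap.id_apply]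
  rw [HSdAlg_cone_single, HSdAlg_bd_single, HSdAlg_bd_single, Fin.sum_univ_succ, map_sum]
  have h0 : (Fin.cons b v : Fin (n + 2) → K) ∘ (0 : Fin (n + 2)).succAbove = v := by
    funext k
    simp
  rw [h0]
  simp only [Fin.val_zero, pow_zero, one_smul, sub_eq_add_neg, ← Finset.sum_neg_distrib]
  congr 1
  refine Finset.sum_congr rfl fun i _ => ?_
  rw [HSdAlg_cons_comp_succAbove, map_smul, HSdAlg_cone_single, Fin.val_succ, pow_succ, ← neg_smul]
  congr 1
  ring

theorem HSdAlg_bd_cone_zero (b : K) (c : LC K 0) : lcBd 0 (lcCone b 0 c) = c := by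
  refine HSdAlg_ext (f := (lcBd 0).comp (lcCone b 0)) (g := LinearMap.id) (fun v => ?_) c
  simp only [LinearMap.comp_apply, LinearMap.id_apply]
  rw [HSdAlg_cone_single, HSdAlg_bd_single, Fin.sum_univ_one]
  simp only [Fin.val_zero, pow_zero, one_smul]
  congr 1

/-- every tuple is a cone -/
theorem HSdAlg_single_eq_cone (n : ℕ) (v : Fin (n + 1) → K) :
    (Finsupp.single v 1 : LC K (n + 1)) = lcCone (v 0) n (Finsupp.single (Fin.tail v) 1) := by
  rw [HSdAlg_cone_single, Fin.cons_self_tail]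

theorem lcBd_lcBd (n : ℕ) (c : LC K (n + 2)) : lcBd n (lcBd (n + 1) c) = 0 := by
  induction n with
  | zero =>
    refine HSdAlg_ext (f := (lcBd 0).comp (lcBd 1)) (g := 0) (fun v => ?_) c
    simp only [LinearMap.comp_apply, LinearMap.zero_apply]
    rw [HSdAlg_single_eq_cone, HSdAlg_bd_cone_succ, map_sub, HSdAlg_bd_cone_zero, sub_self]
  | succ n ih =>
    refine HSdAlg_ext (f := (lcBd (n + 1)).comp (lcBd (n + 2))) (g := 0) (fun v => ?_) c
    simp only [LinearMap.comp_apply, LinearMap.zero_apply]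
    rw [HSdAlg_single_eq_cone, HSdAlg_bd_cone_succ, map_sub, HSdAlg_bd_cone_succ, ih, map_zero,
      sub_zero, sub_self]

theorem lcBd_cone_succ (b : K) (n : ℕ) (c : LC K (n + 1)) :
    lcBd (n + 1) (lcCone b (n + 1) c) = c - lcCone b n (lcBd n c) :=
  HSdAlg_bd_cone_succ b n c

theorem lcBd_cone_zero (b : K) (c : LC K 0) : lcBd 0 (lcCone b 0 c) = c :=
  HSdAlg_bd_cone_zero b c

theorem lcBd_lcMap (φ : K → K') (n : ℕ) (c : LC K (n + 1)) :
    lcBd n (lcMap φ (n + 1) c) = lcMap φ n (lcBd n c) := by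
  refine HSdAlg_ext (f := (lcBd n).comp (lcMap φ (n + 1))) (g := (lcMap φ n).comp (lcBd n))
    (fun v => ?_) c
  simp only [LinearMap.comp_apply]
  rw [HSdAlg_map_single, HSdAlg_bd_single, HSdAlg_bd_single, map_sum]
  refine Finset.sum_congr rfl fun i _ => ?_
  rw [map_smul, HSdAlg_map_single]
  rfl

variable (β : ∀ n : ℕ, (Fin (n + 1) → K) → K)

/-- subdivision -/
noncomputable def lcSd : ∀ n : ℕ, LC K n →ₗ[ℝ] LC K n
  | 0 => LinearMap.id
  | n + 1 => Finsupp.lsum ℝ fun v : Fin (n + 1) → K =>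
      LinearMap.toSpanSingleton ℝ (LC K (n + 1))
        (lcCone (β n v) n (lcSd n (lcBd n (Finsupp.single v 1))))

/-- the chain homotopy between subdivision and the identity -/
noncomputable def lcT : ∀ n : ℕ, LC K n →ₗ[ℝ] LC K (n + 1)
  | 0 => 0
  | n + 1 => Finsupp.lsum ℝ fun v : Fin (n + 1) → K =>
      LinearMap.toSpanSingleton ℝ (LC K (n + 2))
        (lcCone (β n v) (n + 1) (Finsupp.single v 1 - lcT n (lcBd n (Finsupp.single v 1))))

theorem HSdAlg_sd_single (n : ℕ) (v : Fin (n + 1) → K) :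
    lcSd β (n + 1) (Finsupp.single v 1)
      = lcCone (β n v) n (lcSd β n (lcBd n (Finsupp.single v 1))) := by
  simp [lcSd]

theorem HSdAlg_T_single (n : ℕ) (v : Fin (n + 1) → K) :
    lcT β (n + 1) (Finsupp.single v 1)
      = lcCone (β n v) (n + 1) (Finsupp.single v 1 - lcT β n (lcBd n (Finsupp.single v 1))) := by
  simp [lcT]

theorem HSdAlg_map_cone (φ : K → K') (b : K) (n : ℕ) (c : LC K n) :
    lcMap φ (n + 1) (lcCone b n c) = lcCone (φ b) n (lcMap φ n c) := by
  refine HSdAlg_ext (f := (lcMap φ (n + 1)).comp (lcCone b n))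
    (g := (lcCone (φ b) n).comp (lcMap φ n)) (fun v => ?_) c
  simp only [LinearMap.comp_apply]
  rw [HSdAlg_cone_single, HSdAlg_map_single, HSdAlg_map_single, HSdAlg_cone_single]
  congr 1
  funext k
  refine Fin.cases ?_ (fun k => ?_) k
  · simp
  · simp

theorem lcBd_lcSd (n : ℕ) (c : LC K (n + 1)) :
    lcBd n (lcSd β (n + 1) c) = lcSd β n (lcBd n c) := by
  induction n with
  | zero =>
    refine HSdAlg_ext (f := (lcBd 0).comp (lcSd β 1)) (g := (lcSd β 0).comp (lcBd 0))
      (fun v => ?_) c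
    simp only [LinearMap.comp_apply]
    rw [HSdAlg_sd_single, lcBd_cone_zero]
  | succ n ih =>
    refine HSdAlg_ext (f := (lcBd (n + 1)).comp (lcSd β (n + 2)))
      (g := (lcSd β (n + 1)).comp (lcBd (n + 1))) (fun v => ?_) c
    simp only [LinearMap.comp_apply]
    rw [HSdAlg_sd_single, lcBd_cone_succ, ih, lcBd_lcBd, map_zero, map_zero, sub_zero]

theorem lcBd_lcT (n : ℕ) (c : LC K (n + 1)) :
    lcBd (n + 1) (lcT β (n + 1) c) + lcT β n (lcBd n c) = c - lcSd β (n + 1) c := by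
  induction n with
  | zero =>
    refine HSdAlg_ext (f := (lcBd 1).comp (lcT β 1) + (lcT β 0).comp (lcBd 0))
      (g := LinearMap.id - lcSd β 1) (fun v => ?_) c
    simp only [LinearMap.comp_apply, LinearMap.add_apply, LinearMap.sub_apply, LinearMap.id_apply]
    rw [HSdAlg_T_single, lcBd_cone_succ, HSdAlg_sd_single]
    simp [lcT, lcSd]
  | succ n ih =>
    refine HSdAlg_ext (f := (lcBd (n + 2)).comp (lcT β (n + 2)) + (lcT β (n + 1)).comp (lcBd (n + 1)))
      (g := LinearMap.id - lcSd β (n + 2)) (fun v => ?_) c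
    simp only [LinearMap.comp_apply, LinearMap.add_apply, LinearMap.sub_apply, LinearMap.id_apply]
    have h1 := ih (lcBd (n + 1) (Finsupp.single v 1))
    rw [lcBd_lcBd, map_zero, add_zero] at h1
    rw [HSdAlg_T_single, lcBd_cone_succ, HSdAlg_sd_single, map_sub, h1, sub_sub_cancel]
    abel

theorem lcSd_one (c : LC K 1) (hβ : ∀ v : Fin 1 → K, β 0 v = v 0) : lcSd β 1 c = c := by
  refine HSdAlg_ext (f := lcSd β 1) (g := LinearMap.id) (fun v => ?_) c
  rw [HSdAlg_sd_single, HSdAlg_bd_single, Fin.sum_univ_one, hβ]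
  simp only [Fin.val_zero, pow_zero, one_smul, lcSd, LinearMap.id_apply]
  rw [HSdAlg_cone_single]
  congr 1
  funext k
  have hk : k = 0 := Fin.eq_zero k
  rw [hk]
  simp

theorem lcMap_lcSd (β' : ∀ n : ℕ, (Fin (n + 1) → K') → K') (φ : K → K')
    (hφ : ∀ n (v : Fin (n + 1) → K), φ (β n v) = β' n (φ ∘ v)) (n : ℕ) (c : LC K n) :
    lcMap φ n (lcSd β n c) = lcSd β' n (lcMap φ n c) := by
  induction n with
  | zero => rfl
  | succ n ih =>
    refine HSdAlg_ext (f := (lcMap φ (n + 1)).comp (lcSd β (n + 1)))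
      (g := (lcSd β' (n + 1)).comp (lcMap φ (n + 1))) (fun v => ?_) c
    simp only [LinearMap.comp_apply]
    rw [HSdAlg_sd_single, HSdAlg_map_cone, ih, ← lcBd_lcMap, HSdAlg_map_single, HSdAlg_sd_single, hφ]

theorem lcMap_lcT (β' : ∀ n : ℕ, (Fin (n + 1) → K') → K') (φ : K → K')
    (hφ : ∀ n (v : Fin (n + 1) → K), φ (β n v) = β' n (φ ∘ v)) (n : ℕ) (c : LC K n) :
    lcMap φ (n + 1) (lcT β n c) = lcT β' n (lcMap φ n c) := by
  induction n with
  | zero => simp [lcT]
  | succ n ih =>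
    refine HSdAlg_ext (f := (lcMap φ (n + 2)).comp (lcT β (n + 1)))
      (g := (lcT β' (n + 1)).comp (lcMap φ (n + 1))) (fun v => ?_) c
    simp only [LinearMap.comp_apply]
    rw [HSdAlg_T_single, HSdAlg_map_cone, map_sub, ih, ← lcBd_lcMap, HSdAlg_map_single,
      HSdAlg_T_single, hφ]

/-- structure of the support of a subdivided tuple (used for the mesh estimate) -/
theorem mem_support_lcSd_succ (n : ℕ) (v : Fin (n + 1) → K) (w : Fin (n + 1) → K)
    (hw : w ∈ (lcSd β (n + 1) (Finsupp.single v 1)).support) :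
    ∃ (i : Fin (n + 1)) (w' : Fin n → K),
      w' ∈ (lcSd β n (Finsupp.single (v ∘ i.succAbove) 1)).support ∧ w = Fin.cons (β n v) w' := by
  classical
  rw [HSdAlg_sd_single, HSdAlg_bd_single, map_sum, map_sum] at hw
  have h1 := Finsupp.support_finsetSum hw
  rw [Finset.mem_biUnion] at h1
  obtain ⟨i, -, hi⟩ := h1
  rw [map_smul, map_smul] at hi
  have h2 := Finsupp.support_smul hi
  have h3 : w ∈ ((lcSd β n (Finsupp.single (v ∘ i.succAbove) 1)).support).image
      (fun u : Fin n → K => (Fin.cons (β n v) u : Fin (n + 1) → K)) :=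
    Finsupp.mapDomain_support h2
  rw [Finset.mem_image] at h3
  obtain ⟨w', hw', rfl⟩ := h3
  exact ⟨i, w', hw', rfl⟩

end Claimed.Agent.R082
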