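import Claimed.Agent.R082.HBridge
import Claimed.Agent.R082.HSdAlg

/-!
# Row 82 homology package: general facts on linear maps between `Finsupp`s, `push`, `bd`, `lcBd`, `lcMap` on generators
Blueprint: `docs/R082_homology.md` §3 on `origin/helper82`.   (deputy for §3-§6: helper762)
-/

set_option autoImplicit false

namespace Claimed.Agent.R082

section HLin

/-! ## general facts on linear maps between `Finsupp`s, `push` -/

/-- two linear maps on `α →₀ ℝ` agreeing on the `single a 1` are equal (pointwise form) -/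
theorem lin_ext_single {α : Type*} {N : Type*} [AddCommGroup N] [Module ℝ N]
    (L L' : (α →₀ ℝ) →ₗ[ℝ] N) (h : ∀ a, L (Finsupp.single a 1) = L' (Finsupp.single a 1))
    (c : α →₀ ℝ) : L c = L' c := by
  have : L = L' := by
    refine Finsupp.lhom_ext' fun a => LinearMap.ext_ring ?_
    simpa using h a
  rw [this]

/-- a linear map sending the generators in `P` to chains supported in `Q` maps `supported P` to `supported Q` -/
theorem lin_map_supported {α β : Type*} (L : (α →₀ ℝ) →ₗ[ℝ] (β →₀ ℝ)) (P : Set α) (Q : Set β)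
    (h : ∀ a ∈ P, L (Finsupp.single a 1) ∈ Finsupp.supported ℝ ℝ Q) (c : α →₀ ℝ)
    (hc : c ∈ Finsupp.supported ℝ ℝ P) : L c ∈ Finsupp.supported ℝ ℝ Q := by
  rw [← Finsupp.sum_single c, map_finsuppSum]
  refine Submodule.sum_mem _ fun a ha => ?_
  have haP : a ∈ P := (Finsupp.mem_supported _ _).1 hc ha
  show L (Finsupp.single a (c a)) ∈ _
  rw [← Finsupp.smul_single_one, map_smul]
  exact Submodule.smul_mem _ _ (h a haP)

variable {X Y Z : Type} [TopologicalSpace X] [TopologicalSpace Y] [TopologicalSpace Z]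

theorem push_single (n : ℕ) (f : C(X, Y)) (σ : C(Sx n, X)) (r : ℝ) :
    push n f (Finsupp.single σ r) = Finsupp.single (f.comp σ) r := by
  show Finsupp.lmapDomain ℝ ℝ (fun σ : C(Sx n, X) => f.comp σ) (Finsupp.single σ r) = _
  rw [Finsupp.lmapDomain_apply, Finsupp.mapDomain_single]

theorem push_push (n : ℕ) (f : C(X, Y)) (g : C(Y, Z)) (c : Ch n X) :
    push n g (push n f c) = push n (g.comp f) c := by
  show Finsupp.lmapDomain ℝ ℝ (fun σ : C(Sx n, Y) => g.comp σ)
    (Finsupp.lmapDomain ℝ ℝ (fun σ : C(Sx n, X) => f.comp σ) c) =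
    Finsupp.lmapDomain ℝ ℝ (fun σ : C(Sx n, X) => (g.comp f).comp σ) c
  rw [Finsupp.lmapDomain_apply, Finsupp.lmapDomain_apply, Finsupp.lmapDomain_apply,
    ← Finsupp.mapDomain_comp]
  rfl

theorem push_id (n : ℕ) (c : Ch n X) : push n (ContinuousMap.id X) c = c := by
  show Finsupp.lmapDomain ℝ ℝ (fun σ : C(Sx n, X) => (ContinuousMap.id X).comp σ) c = c
  rw [Finsupp.lmapDomain_apply]
  have : (fun σ : C(Sx n, X) => (ContinuousMap.id X).comp σ) = id := by
    funext σ
    exact ContinuousMap.id_comp σ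
  rw [this, Finsupp.mapDomain_id]

theorem bd_single (n : ℕ) (σ : C(Sx (n + 1), X)) :
    bd n (Finsupp.single σ 1) =
      ∑ i : Fin (n + 2), (-1 : ℝ) ^ (i : ℕ) • Finsupp.single (σ.comp (face n i)) (1 : ℝ) := by
  show Finsupp.lsum ℝ (fun σ : C(Sx (n + 1), X) =>
    LinearMap.toSpanSingleton ℝ (Ch n X)
      (∑ i : Fin (n + 2), (-1 : ℝ) ^ (i : ℕ) • Finsupp.single (σ.comp (face n i)) (1 : ℝ)))
      (Finsupp.single σ 1) = _
  rw [Finsupp.lsum_single, LinearMap.toSpanSingleton_apply, one_smul]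

theorem lcBd_single {K : Type} (n : ℕ) (v : Fin (n + 1) → K) :
    lcBd n (Finsupp.single v 1) =
      ∑ i : Fin (n + 1), (-1 : ℝ) ^ (i : ℕ) • Finsupp.single (v ∘ i.succAbove) (1 : ℝ) := by
  exact HSdAlg_bd_single n v

theorem lcMap_single {K K' : Type} (φ : K → K') (n : ℕ) (v : Fin n → K) (r : ℝ) :
    lcMap φ n (Finsupp.single v r) = Finsupp.single (φ ∘ v) r := by
  exact HSdAlg_map_single φ n v r

end HLin

end Claimed.Agent.R082
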