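import Claimed.Agent.R082.HSub

/-!
# Row 82 homology package: abstract Mayer-Vietoris (on elements)
Blueprint: `docs/R082_homology.md` §6 on `origin/helper82`.   (helper762)

`MVD I A B W` : a Mayer-Vietoris square `I → A, B → W` (open embeddings covering `W`, `I` = intersection).
`MVD.δ n : H_{n+1}(W) → H_n(I)`; exactness and naturality, proved on elements against the interface of `HBridge.lean`.
-/

set_option autoImplicit false

open Claims Claims.C0146 Claims.C0146.Problem340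

namespace Claimed.Agent.R082

section Cycles

variable {X Y : Type} [TopologicalSpace X] [TopologicalSpace Y]

/-- cycles of degree `n` (all chains in degree `0`) -/
noncomputable def Zy (X : Type) [TopologicalSpace X] : (n : ℕ) → Submodule ℝ (Ch n X)
  | 0 => ⊤
  | n + 1 => LinearMap.ker (bd n)

/-- homology class of a cycle, all degrees -/
noncomputable def clsA : (n : ℕ) → Zy X n →ₗ[ℝ] RealSingularHomology n X
  | 0 => cls0.comp (Submodule.subtype _)
  | n + 1 => cls n

theorem bd_mem_Zy (n : ℕ) (e : Ch (n + 1) X) : bd n e ∈ Zy X n := by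
  cases n with
  | zero => exact Submodule.mem_top
  | succ n => exact LinearMap.mem_ker.mpr (bd_bd n e)

theorem mem_Zy_succ (n : ℕ) (z : Ch (n + 1) X) : z ∈ Zy X (n + 1) ↔ bd n z = 0 := LinearMap.mem_ker

theorem push_mem_Zy (n : ℕ) (f : C(X, Y)) (z : Ch n X) (hz : z ∈ Zy X n) : push n f z ∈ Zy Y n := by
  cases n with
  | zero => exact Submodule.mem_top
  | succ n =>
    rw [mem_Zy_succ] at *
    rw [bd_push, hz, map_zero]

theorem mem_Zy_of_push (n : ℕ) (f : C(X, Y)) (hf : Function.Injective f) (z : Ch n X)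
    (hz : push n f z ∈ Zy Y n) : z ∈ Zy X n := by
  cases n with
  | zero => exact Submodule.mem_top
  | succ n =>
    rw [mem_Zy_succ] at *
    rw [bd_push] at hz
    exact push_injective n f hf (by rw [hz, map_zero])

theorem clsA_surjective (n : ℕ) : Function.Surjective (clsA n : Zy X n →ₗ[ℝ] _) := by
  cases n with
  | zero =>
    intro x
    obtain ⟨z, hz⟩ := cls0_surjective x
    exact ⟨⟨z, Submodule.mem_top⟩, hz⟩
  | succ n => exact cls_surjective n

theorem clsA_eq_zero_iff (n : ℕ) (z : Zy X n) :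
    clsA n z = 0 ↔ ∃ e : Ch (n + 1) X, bd n e = z.1 := by
  cases n with
  | zero => exact cls0_eq_zero_iff z.1
  | succ n => exact cls_eq_zero_iff n z

theorem clsA_push (n : ℕ) (f : C(X, Y)) (z : Zy X n) :
    realHomologyMap n f f.continuous (clsA n z) = clsA n ⟨push n f z.1, push_mem_Zy n f z.1 z.2⟩ := by
  cases n with
  | zero => exact cls0_push f z.1
  | succ n => exact cls_push n f z

/-- two cycles differing by a boundary have the same class -/
theorem clsA_eq_of_sub (n : ℕ) (z z' : Zy X n) (e : Ch (n + 1) X) (h : z.1 - z'.1 = bd n e) :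
    clsA n z = clsA n z' := by
  rw [← sub_eq_zero, ← map_sub, clsA_eq_zero_iff]
  exact ⟨e, h.symm⟩

theorem clsA_congr (n : ℕ) (z z' : Zy X n) (h : z.1 = z'.1) : clsA n z = clsA n z' := by
  rw [Subtype.ext h]

theorem clsA_add_mk (n : ℕ) (u v : Ch n X) (hu : u ∈ Zy X n) (hv : v ∈ Zy X n) :
    clsA n ⟨u + v, Submodule.add_mem _ hu hv⟩ = clsA n ⟨u, hu⟩ + clsA n ⟨v, hv⟩ :=
  (clsA n).map_add ⟨u, hu⟩ ⟨v, hv⟩

end Cycles

section MV

/-- a Mayer-Vietoris square -/
structure MVD (I A B W : Type) [TopologicalSpace I] [TopologicalSpace A] [TopologicalSpace B]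
    [TopologicalSpace W] where
  i : C(I, A)
  j : C(I, B)
  k : C(A, W)
  l : C(B, W)
  hk : Topology.IsEmbedding k
  hl : Topology.IsEmbedding l
  hki : Topology.IsEmbedding (k.comp i)
  hcomm : k.comp i = l.comp j
  hI : Set.range k ∩ Set.range l ⊆ Set.range (k.comp i)
  hkO : IsOpen (Set.range k)
  hlO : IsOpen (Set.range l)
  hcov : Set.range k ∪ Set.range l = Set.univ

variable {I A B W : Type} [TopologicalSpace I] [TopologicalSpace A] [TopologicalSpace B]
  [TopologicalSpace W]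

namespace MVD

variable (D : MVD I A B W)

theorem i_injective : Function.Injective D.i := by
  have h := D.hki.injective
  exact Function.Injective.of_comp (f := D.k) h

theorem j_injective : Function.Injective D.j := by
  have h := D.hki.injective
  rw [D.hcomm] at h
  exact Function.Injective.of_comp (f := D.l) h

theorem push_k_i (n : ℕ) (y : Ch n I) : push n D.k (push n D.i y) = push n D.l (push n D.j y) := by
  rw [push_push, push_push, D.hcomm]

/-- the zig-zags `(a, b, y)`: `i y = ∂ a`, `j y = - ∂ b` -/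
noncomputable def P (n : ℕ) : Submodule ℝ (Ch (n + 1) A × Ch (n + 1) B × Ch n I) where
  carrier := {p | push n D.i p.2.2 = bd n p.1 ∧ push n D.j p.2.2 = - bd n p.2.1}
  add_mem' := by
    rintro p q ⟨h1, h2⟩ ⟨h3, h4⟩
    refine ⟨?_, ?_⟩
    · simp only [Prod.snd_add, Prod.fst_add, map_add, h1, h3]
    · simp only [Prod.snd_add, Prod.fst_add, map_add, h2, h4, neg_add]
  zero_mem' := by
    refine ⟨?_, ?_⟩ <;> simp
  smul_mem' := by
    rintro c p ⟨h1, h2⟩
    refine ⟨?_, ?_⟩
    · simp only [Prod.smul_snd, Prod.smul_fst, map_smul, h1]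
    · simp only [Prod.smul_snd, Prod.smul_fst, map_smul, h2, smul_neg]

theorem mem_P (n : ℕ) (p : Ch (n + 1) A × Ch (n + 1) B × Ch n I) :
    p ∈ D.P n ↔ push n D.i p.2.2 = bd n p.1 ∧ push n D.j p.2.2 = - bd n p.2.1 := Iff.rfl

/-- `(a, b, y) ↦ k a + l b` -/
noncomputable def zL (n : ℕ) : (Ch (n + 1) A × Ch (n + 1) B × Ch n I) →ₗ[ℝ] Ch (n + 1) W :=
  (push (n + 1) D.k).comp (LinearMap.fst ℝ _ _) +
    (push (n + 1) D.l).comp ((LinearMap.fst ℝ _ _).comp (LinearMap.snd ℝ _ _))

theorem zL_apply (n : ℕ) (p : Ch (n + 1) A × Ch (n + 1) B × Ch n I) :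
    D.zL n p = push (n + 1) D.k p.1 + push (n + 1) D.l p.2.1 := rfl

theorem zL_mem (n : ℕ) (p : D.P n) : D.zL n p.1 ∈ Zy W (n + 1) := by
  obtain ⟨h1, h2⟩ := p.2
  rw [mem_Zy_succ, zL_apply, map_add, bd_push, bd_push, ← h1, ← neg_neg (bd n p.1.2.1), ← h2, map_neg,
    D.push_k_i, add_neg_cancel]

theorem y_mem (n : ℕ) (p : D.P n) : p.1.2.2 ∈ Zy I n := by
  apply mem_Zy_of_push n D.i D.i_injective
  rw [p.2.1]
  exact bd_mem_Zy n _

/-- `(a, b, y) ↦ [k a + l b]` -/
noncomputable def piL (n : ℕ) : D.P n →ₗ[ℝ] RealSingularHomology (n + 1) W :=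
  (clsA (n + 1)).comp (LinearMap.codRestrict (Zy W (n + 1)) ((D.zL n).comp (D.P n).subtype) (D.zL_mem n))

/-- `(a, b, y) ↦ [y]` -/
noncomputable def gL (n : ℕ) : D.P n →ₗ[ℝ] RealSingularHomology n I :=
  (clsA n).comp (LinearMap.codRestrict (Zy I n)
    (((LinearMap.snd ℝ _ _).comp (LinearMap.snd ℝ _ _)).comp (D.P n).subtype) (D.y_mem n))

theorem piL_apply (n : ℕ) (p : D.P n) : D.piL n p = clsA (n + 1) ⟨D.zL n p.1, D.zL_mem n p⟩ := rfl

theorem gL_apply (n : ℕ) (p : D.P n) : D.gL n p = clsA n ⟨p.1.2.2, D.y_mem n p⟩ := rfl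

/-- small chains are sums -/
theorem exists_dec (n : ℕ) (c : Ch (n + 1) W) (hc : bd n c ∈ Small (Set.range D.k) (Set.range D.l) n) :
    ∃ (e : Ch (n + 2) W) (a : Ch (n + 1) A) (b : Ch (n + 1) B),
      c - bd (n + 1) e = push (n + 1) D.k a + push (n + 1) D.l b := by
  obtain ⟨e, he⟩ := small_lemma _ _ D.hkO D.hlO D.hcov n c hc
  obtain ⟨a, b, hab⟩ := exists_push_add_push_eq (n + 1) D.k D.l D.hk D.hl _ he
  exact ⟨e, a, b, hab.symm⟩

theorem push_add_push_mem_Small (n : ℕ) (a : Ch n A) (b : Ch n B) :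
    push n D.k a + push n D.l b ∈ Small (Set.range D.k) (Set.range D.l) n := by
  apply Submodule.add_mem
  · exact Finsupp.supported_mono (fun σ hσ => Or.inl hσ) (push_mem_supported_range n D.k a)
  · exact Finsupp.supported_mono (fun σ hσ => Or.inr hσ) (push_mem_supported_range n D.l b)

theorem exists_mid (n : ℕ) (a : Ch n A) (b : Ch n B) (h : push n D.k a + push n D.l b = 0) :
    ∃ w : Ch n I, a = push n D.i w ∧ b = - push n D.j w :=
  exists_of_push_add_push_eq_zero n D.k D.l D.i D.j D.hk.injective D.hl.injective D.hki D.hcomm D.hI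
    a b h

theorem piL_surjective (n : ℕ) : Function.Surjective (D.piL n) := by
  intro x
  obtain ⟨z, rfl⟩ := clsA_surjective (n + 1) x
  have hz : bd n z.1 = 0 := (mem_Zy_succ n z.1).mp z.2
  obtain ⟨e, a, b, h⟩ := D.exists_dec n z.1 (by rw [hz]; exact Submodule.zero_mem _)
  have h0 : push n D.k (bd n a) + push n D.l (bd n b) = 0 := by
    rw [← bd_push, ← bd_push, ← map_add, ← h, map_sub, hz, bd_bd, sub_zero]
  obtain ⟨y, hy1, hy2⟩ := D.exists_mid n _ _ h0
  refine ⟨⟨(a, b, y), ⟨hy1.symm, by rw [hy2, neg_neg]⟩⟩, ?_⟩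
  rw [piL_apply]
  refine (clsA_eq_of_sub (n + 1) _ _ e ?_).symm
  show z.1 - (push (n + 1) D.k a + push (n + 1) D.l b) = bd (n + 1) e
  rw [← h]; abel

theorem gL_eq_zero_of_piL (n : ℕ) (p : D.P n) (hp : D.piL n p = 0) : D.gL n p = 0 := by
  rw [piL_apply, clsA_eq_zero_iff] at hp
  obtain ⟨c, hc⟩ := hp
  change bd (n + 1) c = D.zL n p.1 at hc
  rw [zL_apply] at hc
  obtain ⟨e, a', b', h⟩ := D.exists_dec (n + 1) c (by rw [hc]; exact D.push_add_push_mem_Small _ _ _)
  have h0 : push (n + 1) D.k (p.1.1 - bd (n + 1) a') + push (n + 1) D.l (p.1.2.1 - bd (n + 1) b') = 0 := by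
    have h1 := congrArg (bd (n + 1)) h
    rw [map_sub, bd_bd, sub_zero, hc, map_add, bd_push, bd_push] at h1
    rw [map_sub, map_sub, sub_add_sub_comm, h1, sub_self]
  obtain ⟨w, hw1, -⟩ := D.exists_mid (n + 1) _ _ h0
  rw [gL_apply, clsA_eq_zero_iff]
  refine ⟨w, ?_⟩
  apply push_injective n D.i D.i_injective
  show push n D.i (bd n w) = push n D.i p.1.2.2
  rw [← bd_push, ← hw1, map_sub, bd_bd, sub_zero, p.2.1]

theorem gL_eq_of_piL_eq (n : ℕ) (p q : D.P n) (h : D.piL n p = D.piL n q) : D.gL n p = D.gL n q := by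
  rw [← sub_eq_zero, ← map_sub]
  apply D.gL_eq_zero_of_piL
  rw [map_sub, h, sub_self]

/-- a section of `piL` -/
noncomputable def sec (n : ℕ) (x : RealSingularHomology (n + 1) W) : D.P n :=
  Function.surjInv (D.piL_surjective n) x

theorem piL_sec (n : ℕ) (x : RealSingularHomology (n + 1) W) : D.piL n (D.sec n x) = x :=
  Function.surjInv_eq (D.piL_surjective n) x

/-- the connecting map -/
noncomputable def δ (n : ℕ) : RealSingularHomology (n + 1) W →ₗ[ℝ] RealSingularHomology n I where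
  toFun x := D.gL n (D.sec n x)
  map_add' x y :=
    (D.gL_eq_of_piL_eq n _ (D.sec n x + D.sec n y) (by
        rw [(D.piL n).map_add, D.piL_sec, D.piL_sec, D.piL_sec])).trans
      ((D.gL n).map_add _ _)
  map_smul' c x :=
    (D.gL_eq_of_piL_eq n _ (c • D.sec n x) (by
        rw [(D.piL n).map_smul, D.piL_sec, D.piL_sec])).trans
      ((D.gL n).map_smul _ _)

theorem δ_piL (n : ℕ) (p : D.P n) : D.δ n (D.piL n p) = D.gL n p :=
  D.gL_eq_of_piL_eq n _ _ (D.piL_sec n _)

/-- exactness at `H_{n+1}(W)` -/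
theorem exact_union (n : ℕ) (x : RealSingularHomology (n + 1) W) :
    D.δ n x = 0 ↔
      ∃ (a : RealSingularHomology (n + 1) A) (b : RealSingularHomology (n + 1) B),
        x = realHomologyMap (n + 1) D.k D.k.continuous a +
          realHomologyMap (n + 1) D.l D.l.continuous b := by
  constructor
  · intro hx
    obtain ⟨p, rfl⟩ := D.piL_surjective n x
    rw [δ_piL, gL_apply, clsA_eq_zero_iff] at hx
    obtain ⟨w, hw⟩ := hx
    change bd n w = p.1.2.2 at hw
    have ha : p.1.1 - push (n + 1) D.i w ∈ Zy A (n + 1) := by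
      rw [mem_Zy_succ, map_sub, bd_push, hw, p.2.1, sub_self]
    have hb : p.1.2.1 + push (n + 1) D.j w ∈ Zy B (n + 1) := by
      rw [mem_Zy_succ, map_add, bd_push, hw, p.2.2, add_neg_cancel]
    refine ⟨clsA (n + 1) ⟨_, ha⟩, clsA (n + 1) ⟨_, hb⟩, ?_⟩
    rw [clsA_push, clsA_push, ← clsA_add_mk, piL_apply]
    apply clsA_congr
    show D.zL n p.1 = push (n + 1) D.k (p.1.1 - push (n + 1) D.i w) +
      push (n + 1) D.l (p.1.2.1 + push (n + 1) D.j w)
    rw [zL_apply, map_sub, map_add, D.push_k_i]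
    abel
  · rintro ⟨α, β, rfl⟩
    obtain ⟨a, rfl⟩ := clsA_surjective (n + 1) α
    obtain ⟨b, rfl⟩ := clsA_surjective (n + 1) β
    have hp : ((a.1, b.1, 0) : Ch (n + 1) A × Ch (n + 1) B × Ch n I) ∈ D.P n := by
      rw [mem_P]
      refine ⟨?_, ?_⟩
      · show push n D.i 0 = bd n a.1
        rw [map_zero, (mem_Zy_succ n a.1).mp a.2]
      · show push n D.j 0 = - bd n b.1
        rw [map_zero, (mem_Zy_succ n b.1).mp b.2, neg_zero]
    have h1 : realHomologyMap (n + 1) D.k D.k.continuous (clsA (n + 1) a) +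
        realHomologyMap (n + 1) D.l D.l.continuous (clsA (n + 1) b) = D.piL n ⟨_, hp⟩ := by
      rw [clsA_push, clsA_push, ← clsA_add_mk, piL_apply]
      apply clsA_congr
      rfl
    rw [h1, δ_piL, gL_apply, clsA_eq_zero_iff]
    exact ⟨0, map_zero _⟩

/-- exactness at `H_n(I)` -/
theorem exact_inter (n : ℕ) (y : RealSingularHomology n I) :
    (realHomologyMap n D.i D.i.continuous y = 0 ∧ realHomologyMap n D.j D.j.continuous y = 0) ↔
      ∃ x, D.δ n x = y := by
  constructor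
  · rintro ⟨h1, h2⟩
    obtain ⟨y0, rfl⟩ := clsA_surjective n y
    rw [clsA_push, clsA_eq_zero_iff] at h1 h2
    obtain ⟨a, ha⟩ := h1
    obtain ⟨b, hb⟩ := h2
    change bd n a = push n D.i y0.1 at ha
    change bd n b = push n D.j y0.1 at hb
    have hp : ((a, -b, y0.1) : Ch (n + 1) A × Ch (n + 1) B × Ch n I) ∈ D.P n := by
      rw [mem_P]
      refine ⟨ha.symm, ?_⟩
      show push n D.j y0.1 = - bd n (-b)
      rw [map_neg, neg_neg, hb]
    refine ⟨D.piL n ⟨_, hp⟩, ?_⟩
    rw [δ_piL, gL_apply]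
  · rintro ⟨x, rfl⟩
    obtain ⟨p, rfl⟩ := D.piL_surjective n x
    rw [δ_piL, gL_apply, clsA_push, clsA_push, clsA_eq_zero_iff, clsA_eq_zero_iff]
    refine ⟨⟨p.1.1, p.2.1.symm⟩, ⟨-p.1.2.1, ?_⟩⟩
    show bd n (-p.1.2.1) = push n D.j p.1.2.2
    rw [map_neg, p.2.2]

/-- surjectivity in degree `0` -/
theorem surj_zero (x : RealSingularHomology 0 W) :
    ∃ (a : RealSingularHomology 0 A) (b : RealSingularHomology 0 B),
      x = realHomologyMap 0 D.k D.k.continuous a + realHomologyMap 0 D.l D.l.continuous b := by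
  obtain ⟨z, rfl⟩ := clsA_surjective 0 x
  obtain ⟨a, b, hab⟩ := exists_push_add_push_eq 0 D.k D.l D.hk D.hl z.1
    (mem_Small_zero _ _ D.hcov z.1)
  refine ⟨clsA 0 ⟨a, Submodule.mem_top⟩, clsA 0 ⟨b, Submodule.mem_top⟩, ?_⟩
  rw [clsA_push, clsA_push, ← clsA_add_mk]
  exact clsA_congr 0 _ _ hab.symm

/-- naturality of the connecting map -/
theorem δ_natural {I' A' B' W' : Type} [TopologicalSpace I'] [TopologicalSpace A']
    [TopologicalSpace B'] [TopologicalSpace W'] (D' : MVD I' A' B' W')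
    (fI : C(I, I')) (fA : C(A, A')) (fB : C(B, B')) (fW : C(W, W'))
    (hi : D'.i.comp fI = fA.comp D.i) (hj : D'.j.comp fI = fB.comp D.j)
    (hk : D'.k.comp fA = fW.comp D.k) (hl : D'.l.comp fB = fW.comp D.l) (n : ℕ)
    (x : RealSingularHomology (n + 1) W) :
    D'.δ n (realHomologyMap (n + 1) fW fW.continuous x) =
      realHomologyMap n fI fI.continuous (D.δ n x) := by
  obtain ⟨p, rfl⟩ := D.piL_surjective n x
  have hp : ((push (n + 1) fA p.1.1, push (n + 1) fB p.1.2.1, push n fI p.1.2.2) :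
      Ch (n + 1) A' × Ch (n + 1) B' × Ch n I') ∈ D'.P n := by
    rw [mem_P]
    refine ⟨?_, ?_⟩
    · show push n D'.i (push n fI p.1.2.2) = bd n (push (n + 1) fA p.1.1)
      rw [push_push, hi, ← push_push, p.2.1, bd_push]
    · show push n D'.j (push n fI p.1.2.2) = - bd n (push (n + 1) fB p.1.2.1)
      rw [push_push, hj, ← push_push, p.2.2, bd_push, map_neg]
  have h1 : realHomologyMap (n + 1) fW fW.continuous (D.piL n p) = D'.piL n ⟨_, hp⟩ := by
    rw [piL_apply, piL_apply, clsA_push]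
    apply clsA_congr
    show push (n + 1) fW (D.zL n p.1) = D'.zL n _
    rw [zL_apply, zL_apply, map_add, push_push, push_push, ← hk, ← hl, ← push_push, ← push_push]
  rw [h1, δ_piL, δ_piL, gL_apply, gL_apply, clsA_push]

end MVD

end MV

end Claimed.Agent.R082
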