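import Claimed.Agent.R082.HRho

/-!
# Row 82 homology package: barycentric subdivision of singular chains
Blueprint: `docs/R082_homology.md` §3 on `origin/helper82`.   (deputy for §3-§6: helper762)

`SdX n`, `TX n` : subdivision and the chain homotopy on `Ch n X`;  (S1), (S2), (S3).
-/

set_option autoImplicit false

namespace Claimed.Agent.R082

section HSdSing

variable {X Y : Type} [TopologicalSpace X] [TopologicalSpace Y]

/-! ## subdivision of singular chains -/

/-- barycentric subdivision of singular chains -/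
noncomputable def SdX (n : ℕ) : Ch n X →ₗ[ℝ] Ch n X :=
  Finsupp.lsum ℝ fun σ : C(Sx n, X) =>
    LinearMap.toSpanSingleton ℝ (Ch n X) (push n σ (rho n n (lcSd (sxBary n) (n + 1) (iota n))))

/-- the chain homotopy between subdivision and the identity -/
noncomputable def TX (n : ℕ) : Ch n X →ₗ[ℝ] Ch (n + 1) X :=
  Finsupp.lsum ℝ fun σ : C(Sx n, X) =>
    LinearMap.toSpanSingleton ℝ (Ch (n + 1) X)
      (push (n + 1) σ (rho n (n + 1) (lcT (sxBary n) (n + 1) (iota n))))

theorem SdX_single (n : ℕ) (σ : C(Sx n, X)) :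
    SdX n (Finsupp.single σ 1) = push n σ (rho n n (lcSd (sxBary n) (n + 1) (iota n))) := by
  simp [SdX]

theorem TX_single (n : ℕ) (σ : C(Sx n, X)) :
    TX n (Finsupp.single σ 1) = push (n + 1) σ (rho n (n + 1) (lcT (sxBary n) (n + 1) (iota n))) := by
  simp [TX]

/-- (S1) -/
theorem push_SdX (n : ℕ) (f : C(X, Y)) (c : Ch n X) : push n f (SdX n c) = SdX n (push n f c) := by
  refine lin_ext_single ((push n f).comp (SdX n)) ((SdX n).comp (push n f)) (fun σ => ?_) c
  simp only [LinearMap.comp_apply]
  rw [SdX_single, push_single, SdX_single, push_push]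

/-- (S1) -/
theorem push_TX (n : ℕ) (f : C(X, Y)) (c : Ch n X) :
    push (n + 1) f (TX n c) = TX n (push n f c) := by
  refine lin_ext_single ((push (n + 1) f).comp (TX n)) ((TX n).comp (push n f)) (fun σ => ?_) c
  simp only [LinearMap.comp_apply]
  rw [TX_single, push_single, TX_single, push_push]

/-- on affine chains `SdX` is the combinatorial subdivision -/
theorem SdX_rho (m n : ℕ) (c : LC (Sx m) (n + 1)) :
    SdX n (rho m n c) = rho m n (lcSd (sxBary m) (n + 1) c) := by
  refine lin_ext_single ((SdX n).comp (rho m n)) ((rho m n).comp (lcSd (sxBary m) (n + 1)))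
    (fun v => ?_) c
  simp only [LinearMap.comp_apply]
  rw [rho_single, SdX_single, push_aff_rho,
    lcMap_lcSd (sxBary n) (sxBary m) (aff v) (fun _ w => aff_sxBary v w), lcMap_aff_iota]

/-- on affine chains `TX` is the combinatorial homotopy -/
theorem TX_rho (m n : ℕ) (c : LC (Sx m) (n + 1)) :
    TX n (rho m n c) = rho m (n + 1) (lcT (sxBary m) (n + 1) c) := by
  refine lin_ext_single ((TX n).comp (rho m n)) ((rho m (n + 1)).comp (lcT (sxBary m) (n + 1)))
    (fun v => ?_) c
  simp only [LinearMap.comp_apply]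
  rw [rho_single, TX_single, push_aff_rho,
    lcMap_lcT (sxBary n) (sxBary m) (aff v) (fun _ w => aff_sxBary v w), lcMap_aff_iota]

/-- (S2) -/
theorem bd_SdX (n : ℕ) (c : Ch (n + 1) X) : bd n (SdX (n + 1) c) = SdX n (bd n c) := by
  refine lin_ext_single ((bd n).comp (SdX (n + 1))) ((SdX n).comp (bd n)) (fun σ => ?_) c
  simp only [LinearMap.comp_apply]
  rw [SdX_single, bd_push, bd_rho, lcBd_lcSd, ← SdX_rho, ← bd_rho, rho_iota, push_SdX, ← bd_push,
    push_single, ContinuousMap.comp_id]

/-- (S3), positive degree -/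
theorem bd_TX_succ (n : ℕ) (c : Ch (n + 1) X) :
    bd (n + 1) (TX (n + 1) c) + TX n (bd n c) = c - SdX (n + 1) c := by
  refine lin_ext_single ((bd (n + 1)).comp (TX (n + 1)) + (TX n).comp (bd n))
    (LinearMap.id - SdX (n + 1)) (fun σ => ?_) c
  simp only [LinearMap.comp_apply, LinearMap.add_apply, LinearMap.sub_apply, LinearMap.id_apply]
  have h := lcBd_lcT (sxBary (n + 1)) (n + 1) (iota (n + 1))
  have h2 := congrArg (fun z => push (n + 1) σ (rho (n + 1) (n + 1) z)) h
  simp only [map_add, map_sub] at h2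
  rw [← bd_rho, ← bd_push, ← TX_single, ← TX_rho, ← bd_rho, rho_iota, push_TX, ← bd_push,
    push_single, ContinuousMap.comp_id, ← SdX_single] at h2
  exact h2

/-- iterated subdivision of a singular simplex -/
theorem SdX_iterate_single (n k : ℕ) (σ : C(Sx n, X)) :
    (SdX n)^[k] (Finsupp.single σ 1) =
      push n σ (rho n n ((lcSd (sxBary n) (n + 1))^[k] (iota n))) := by
  induction k with
  | zero => simp [rho_iota, push_single]
  | succ k ih =>
    rw [Function.iterate_succ_apply', ih, ← push_SdX, SdX_rho, Function.iterate_succ_apply']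

end HSdSing

end Claimed.Agent.R082
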