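import Claimed.Agent.R082.HMeshA
import Claimed.Agent.R082.HSdSing

/-!
# Row 82 homology package: small chains, Lebesgue number, (M3)
Blueprint: `docs/R082_homology.md` §4 on `origin/helper82`.   (deputy for §3-§6: helper762)
-/

set_option autoImplicit false

namespace Claimed.Agent.R082

section HMesh

variable {X : Type} [TopologicalSpace X]

/-- chains supported on simplices with range in `U` or in `V` -/
def Small (U V : Set X) (n : ℕ) : Submodule ℝ (Ch n X) :=
  Finsupp.supported ℝ ℝ {σ : C(Sx n, X) | Set.range σ ⊆ U ∨ Set.range σ ⊆ V}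

/-- Lebesgue number of the cover `σ⁻¹ U, σ⁻¹ V` of `Δⁿ` -/
theorem exists_lebesgue (U V : Set X) (hU : IsOpen U) (hV : IsOpen V) (hUV : U ∪ V = Set.univ)
    (n : ℕ) (σ : C(Sx n, X)) :
    ∃ δ : ℝ, 0 < δ ∧ ∀ x : Sx n, Metric.ball x δ ⊆ σ ⁻¹' U ∨ Metric.ball x δ ⊆ σ ⁻¹' V := by
  obtain ⟨δ, hδ, h⟩ := lebesgue_number_lemma_of_metric
    (s := (Set.univ : Set (Sx n))) (c := fun b : Bool => if b then σ ⁻¹' U else σ ⁻¹' V)
    isCompact_univ
    (by
      intro b
      cases b
      · simpa using hV.preimage σ.continuous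
      · simpa using hU.preimage σ.continuous)
    (by
      intro x _
      have hx : σ x ∈ U ∪ V := by rw [hUV]; trivial
      rw [Set.mem_iUnion]
      rcases hx with hx | hx
      · exact ⟨true, by simpa using hx⟩
      · exact ⟨false, by simpa using hx⟩)
  refine ⟨δ, hδ, fun x => ?_⟩
  obtain ⟨b, hb⟩ := h x (Set.mem_univ x)
  cases b
  · right
    simpa using hb
  · left
    simpa using hb

/-- (M3) -/
theorem exists_iterate_single_mem_Small (U V : Set X) (hU : IsOpen U) (hV : IsOpen V)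
    (hUV : U ∪ V = Set.univ) (n : ℕ) (σ : C(Sx n, X)) :
    ∃ k : ℕ, (SdX n)^[k] (Finsupp.single σ 1) ∈ Small U V n := by
  obtain ⟨δ, hδ, hleb⟩ := exists_lebesgue U V hU hV hUV n σ
  have hr0 : (0 : ℝ) ≤ (n : ℝ) / ((n : ℝ) + 1) := by positivity
  have hr1 : (n : ℝ) / ((n : ℝ) + 1) < 1 := by
    rw [div_lt_one (by positivity)]
    linarith
  obtain ⟨k, hk⟩ := exists_pow_lt_of_lt_one hδ hr1
  refine ⟨k, ?_⟩
  rw [SdX_iterate_single]
  have hsupp := lcSd_iterate_supported n n k (sxVert n) 1 zero_le_one (tupDiam_sxVert n)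
  have key := lin_map_supported ((push n σ).comp (rho n n))
    {w : Fin (n + 1) → Sx n | TupDiam w (((n : ℝ) / ((n : ℝ) + 1)) ^ k * 1)}
    {τ : C(Sx n, X) | Set.range τ ⊆ U ∨ Set.range τ ⊆ V} ?_ _ hsupp
  · exact key
  · intro w hw
    rw [LinearMap.comp_apply, rho_single, push_single]
    apply Finsupp.single_mem_supported
    have hw' : TupDiam w (((n : ℝ) / ((n : ℝ) + 1)) ^ k * 1) := hw
    have hball : ∀ t : Sx n, aff w t ∈ Metric.ball (aff w (sxVert n 0)) δ := by
      intro t
      rw [Metric.mem_ball]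
      refine lt_of_le_of_lt (dist_aff_le w _ hw' t (sxVert n 0)) ?_
      rwa [mul_one]
    rcases hleb (aff w (sxVert n 0)) with h | h
    · left
      rintro _ ⟨t, rfl⟩
      exact h (hball t)
    · right
      rintro _ ⟨t, rfl⟩
      exact h (hball t)

end HMesh

end Claimed.Agent.R082
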