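import Claimed.Agent.R082.HHull

/-!
# Row 82 homology package: mesh estimate (M1) for the combinatorial subdivision
Blueprint: `docs/R082_homology.md` §4 on `origin/helper82`.   (deputy for §3-§6: helper762)
-/

set_option autoImplicit false

namespace Claimed.Agent.R082

section HMeshA

/-- (M1), hull part -/
theorem lcSd_support_hull (m n : ℕ) (v w : Fin n → Sx m)
    (hw : w ∈ (lcSd (sxBary m) n (Finsupp.single v 1)).support) (k : Fin n) :
    (w k : Fin (m + 1) → ℝ) ∈ tupHull v := by
  induction n with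
  | zero => exact k.elim0
  | succ n ih =>
    obtain ⟨i, w', hw', rfl⟩ := mem_support_lcSd_succ (sxBary m) n v w hw
    refine Fin.cases ?_ (fun k' => ?_) k
    · simpa using sxBary_mem_tupHull m n v
    · simpa using tupHull_comp_subset v i.succAbove (ih (v ∘ i.succAbove) w' hw' k')

/-- (M1), mesh part -/
theorem lcSd_support_diam (m n : ℕ) (v w : Fin (n + 1) → Sx m) (d : ℝ) (hd : 0 ≤ d)
    (h : TupDiam v d) (hw : w ∈ (lcSd (sxBary m) (n + 1) (Finsupp.single v 1)).support) :
    TupDiam w ((n : ℝ) / ((n : ℝ) + 1) * d) := by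
  induction n with
  | zero =>
    intro i j
    have hij : i = j := by
      have hi := i.2
      have hj := j.2
      exact Fin.ext (by omega)
    rw [hij, dist_self]
    simp
  | succ n ih =>
    obtain ⟨i, w', hw', rfl⟩ := mem_support_lcSd_succ (sxBary m) (n + 1) v w hw
    have hr : 0 ≤ ((n + 1 : ℕ) : ℝ) / (((n + 1 : ℕ) : ℝ) + 1) * d := by positivity
    have h1 : ∀ k' : Fin (n + 1),
        dist (sxBary m (n + 1) v) (w' k') ≤ ((n + 1 : ℕ) : ℝ) / (((n + 1 : ℕ) : ℝ) + 1) * d := by
      intro k'
      rw [dist_sx]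
      exact dist_le_of_mem_tupHull v _ _ _ (fun a => dist_sxBary_le m (n + 1) v d h a)
        (tupHull_comp_subset v i.succAbove (lcSd_support_hull m (n + 1) _ w' hw' k'))
    have h2 := ih (v ∘ i.succAbove) w' (h.comp _) hw'
    have h3 : (n : ℝ) / ((n : ℝ) + 1) * d ≤ ((n + 1 : ℕ) : ℝ) / (((n + 1 : ℕ) : ℝ) + 1) * d := by
      apply mul_le_mul_of_nonneg_right _ hd
      rw [div_le_div_iff₀ (by positivity) (by positivity)]
      push_cast
      nlinarith
    intro a b
    refine Fin.cases ?_ (fun a' => ?_) a <;> refine Fin.cases ?_ (fun b' => ?_) b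
    · simpa using hr
    · simpa using h1 b'
    · rw [dist_comm]; simpa using h1 a'
    · simpa using (h2 a' b').trans h3

/-- (M1), iterated -/
theorem lcSd_iterate_supported (m n k : ℕ) (v : Fin (n + 1) → Sx m) (d : ℝ) (hd : 0 ≤ d)
    (h : TupDiam v d) :
    (lcSd (sxBary m) (n + 1))^[k] (Finsupp.single v 1) ∈
      Finsupp.supported ℝ ℝ {w : Fin (n + 1) → Sx m | TupDiam w (((n : ℝ) / ((n : ℝ) + 1)) ^ k * d)} := by
  induction k with
  | zero =>
    apply Finsupp.single_mem_supported
    simpa using h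
  | succ k ih =>
    rw [Function.iterate_succ_apply']
    refine lin_map_supported (lcSd (sxBary m) (n + 1)) _ _ ?_ _ ih
    intro w hw
    rw [Finsupp.mem_supported]
    intro u hu
    have := lcSd_support_diam m n w u _ (by positivity) hw hu
    show TupDiam u _
    rw [pow_succ, mul_comm _ ((n : ℝ) / ((n : ℝ) + 1)), mul_assoc]
    exact this

end HMeshA

end Claimed.Agent.R082
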