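import Claimed.Agent.R082.HAff

/-!
# Row 82 homology package: `rho m n : LC (Sx m) (n+1) → Ch n (Sx m)`, `[v] ↦ aff v`
Blueprint: `docs/R082_homology.md` §3 on `origin/helper82`.   (deputy for §3-§6: helper762)
-/

set_option autoImplicit false

namespace Claimed.Agent.R082

section HRho

/-! ## `rho` -/

/-- `[v] ↦ aff v` -/
noncomputable def rho (m n : ℕ) : LC (Sx m) (n + 1) →ₗ[ℝ] Ch n (Sx m) :=
  Finsupp.lmapDomain ℝ ℝ (fun v : Fin (n + 1) → Sx m => aff v)

theorem rho_single (m n : ℕ) (v : Fin (n + 1) → Sx m) (r : ℝ) :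
    rho m n (Finsupp.single v r) = Finsupp.single (aff v) r := by
  simp [rho, Finsupp.lmapDomain_apply, Finsupp.mapDomain_single]

theorem bd_rho (m n : ℕ) (c : LC (Sx m) (n + 2)) :
    bd n (rho m (n + 1) c) = rho m n (lcBd (n + 1) c) := by
  have key := lin_ext_single ((bd n).comp (rho m (n + 1))) ((rho m n).comp (lcBd (n + 1)))
    (fun v => by
      rw [LinearMap.comp_apply, LinearMap.comp_apply, rho_single, bd_single, lcBd_single, map_sum]
      refine Finset.sum_congr rfl fun i _ => ?_
      rw [map_smul, rho_single, aff_comp_face]) c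
  simpa only [LinearMap.comp_apply] using key

theorem push_aff_rho {m k : ℕ} (n : ℕ) (v : Fin (m + 1) → Sx k) (c : LC (Sx m) (n + 1)) :
    push n (aff v) (rho m n c) = rho k n (lcMap (aff v) (n + 1) c) := by
  have key := lin_ext_single ((push n (aff v)).comp (rho m n))
    ((rho k n).comp (lcMap (aff v) (n + 1)))
    (fun w => by
      rw [LinearMap.comp_apply, LinearMap.comp_apply, rho_single, push_single, lcMap_single,
        rho_single, aff_comp_aff]) c
  simpa only [LinearMap.comp_apply] using key

/-- the fundamental tuple `[e₀, …, e_n]` of `Δⁿ` -/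
noncomputable def iota (n : ℕ) : LC (Sx n) (n + 1) := Finsupp.single (sxVert n) 1

theorem rho_iota (n : ℕ) : rho n n (iota n) = Finsupp.single (ContinuousMap.id (Sx n)) 1 := by
  rw [iota, rho_single, aff_sxVert]

theorem lcMap_aff_iota {n m : ℕ} (v : Fin (n + 1) → Sx m) :
    lcMap (aff v) (n + 1) (iota n) = Finsupp.single v 1 := by
  rw [iota, lcMap_single]
  congr 1
  funext i
  exact aff_sxVert_apply v i

end HRho

end Claimed.Agent.R082
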