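import Claimed.Agent.R082.HMesh

/-!
# Row 82 homology package: the small simplices lemma
Blueprint: `docs/R082_homology.md` §5 on `origin/helper82`.   (deputy for §3-§6: helper762)
-/

set_option autoImplicit false

namespace Claimed.Agent.R082

section HSmall

variable {X : Type} [TopologicalSpace X]

theorem single_mem_Small (U V : Set X) (n : ℕ) (σ : C(Sx n, X)) (r : ℝ)
    (h : Set.range σ ⊆ U ∨ Set.range σ ⊆ V) : Finsupp.single σ r ∈ Small U V n := by
  unfold Small
  exact Finsupp.single_mem_supported ℝ r h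

/-- `push σ c` is small if `σ` is -/
theorem push_mem_Small (U V : Set X) (n k : ℕ) (σ : C(Sx n, X))
    (h : Set.range σ ⊆ U ∨ Set.range σ ⊆ V) (c : Ch k (Sx n)) : push k σ c ∈ Small U V k := by
  unfold Small
  refine lin_map_supported (push k σ) Set.univ _ ?_ c ?_
  · intro τ _
    rw [push_single]
    refine Finsupp.single_mem_supported ℝ 1 ?_
    have hr : Set.range (σ.comp τ) ⊆ Set.range σ := by
      rw [ContinuousMap.coe_comp]
      exact Set.range_comp_subset_range _ _
    rcases h with h | h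
    · exact Or.inl (hr.trans h)
    · exact Or.inr (hr.trans h)
  · rw [Finsupp.mem_supported]
    exact Set.subset_univ _

theorem bd_mem_Small (U V : Set X) (n : ℕ) (c : Ch (n + 1) X) (hc : c ∈ Small U V (n + 1)) :
    bd n c ∈ Small U V n := by
  unfold Small at hc ⊢
  refine lin_map_supported (bd n) _ _ ?_ c hc
  intro σ hσ
  rw [bd_single]
  refine Submodule.sum_mem _ fun i _ => Submodule.smul_mem _ _ ?_
  refine Finsupp.single_mem_supported ℝ 1 ?_
  have hr : Set.range (σ.comp (face n i)) ⊆ Set.range σ := by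
    rw [ContinuousMap.coe_comp]
    exact Set.range_comp_subset_range _ _
  rcases hσ with h | h
  · exact Or.inl (hr.trans h)
  · exact Or.inr (hr.trans h)

theorem SdX_mem_Small (U V : Set X) (n : ℕ) (c : Ch n X) (hc : c ∈ Small U V n) :
    SdX n c ∈ Small U V n := by
  refine lin_map_supported (SdX n) _ _ ?_ c hc
  intro σ hσ
  rw [SdX_single]
  exact push_mem_Small U V n n σ hσ _

theorem TX_mem_Small (U V : Set X) (n : ℕ) (c : Ch n X) (hc : c ∈ Small U V n) :
    TX n c ∈ Small U V (n + 1) := by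
  refine lin_map_supported (TX n) _ _ ?_ c hc
  intro σ hσ
  rw [TX_single]
  exact push_mem_Small U V n (n + 1) σ hσ _

theorem SdX_iterate_mem_Small (U V : Set X) (n k : ℕ) (c : Ch n X) (hc : c ∈ Small U V n) :
    (SdX n)^[k] c ∈ Small U V n := by
  induction k with
  | zero => simpa using hc
  | succ k ih =>
    rw [Function.iterate_succ_apply']
    exact SdX_mem_Small U V n _ ih

/-- every chain becomes small after finitely many subdivisions -/
theorem exists_iterate_mem_Small (U V : Set X) (hU : IsOpen U) (hV : IsOpen V)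
    (hUV : U ∪ V = Set.univ) (n : ℕ) (c : Ch n X) : ∃ k : ℕ, (SdX n)^[k] c ∈ Small U V n := by
  induction c using Finsupp.induction_linear with
  | zero =>
    refine ⟨0, ?_⟩
    simp
  | add c₁ c₂ h₁ h₂ =>
    obtain ⟨k₁, h₁⟩ := h₁
    obtain ⟨k₂, h₂⟩ := h₂
    refine ⟨k₁ + k₂, ?_⟩
    rw [← Module.End.pow_apply, map_add, Module.End.pow_apply, Module.End.pow_apply]
    refine Submodule.add_mem _ ?_ ?_
    · rw [add_comm k₁ k₂, Function.iterate_add_apply]
      exact SdX_iterate_mem_Small U V n k₂ _ h₁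
    · rw [Function.iterate_add_apply]
      exact SdX_iterate_mem_Small U V n k₁ _ h₂
  | single σ r =>
    obtain ⟨k, hk⟩ := exists_iterate_single_mem_Small U V hU hV hUV n σ
    refine ⟨k, ?_⟩
    have hs : (Finsupp.single σ r : Ch n X) = r • Finsupp.single σ 1 := by
      rw [Finsupp.smul_single, smul_eq_mul, mul_one]
    rw [hs, ← Module.End.pow_apply, map_smul, Module.End.pow_apply]
    exact Submodule.smul_mem _ _ hk

/-- `c - Sd^k c` is a boundary modulo small chains, if `bd c` is small -/
theorem sub_iterate_mem (U V : Set X) (n k : ℕ) (c : Ch (n + 1) X) (hc : bd n c ∈ Small U V n) :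
    ∃ e : Ch (n + 2) X, c - (SdX (n + 1))^[k] c - bd (n + 1) e ∈ Small U V (n + 1) := by
  induction k generalizing c with
  | zero =>
    refine ⟨0, ?_⟩
    simp
  | succ k ih =>
    have h1 : bd n (SdX (n + 1) c) ∈ Small U V n := by
      rw [bd_SdX]
      exact SdX_mem_Small U V n _ hc
    obtain ⟨e', he'⟩ := ih (SdX (n + 1) c) h1
    refine ⟨TX (n + 1) c + e', ?_⟩
    rw [Function.iterate_succ_apply]
    have h2 := bd_TX_succ n c
    have h3 : c - (SdX (n + 1))^[k] (SdX (n + 1) c) - bd (n + 1) (TX (n + 1) c + e') =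
        TX n (bd n c) + (SdX (n + 1) c - (SdX (n + 1))^[k] (SdX (n + 1) c) - bd (n + 1) e') := by
      rw [map_add]
      have h4 : c = bd (n + 1) (TX (n + 1) c) + TX n (bd n c) + SdX (n + 1) c := by
        rw [h2]; abel
      calc c - (SdX (n + 1))^[k] (SdX (n + 1) c) - (bd (n + 1) (TX (n + 1) c) + bd (n + 1) e')
          = (bd (n + 1) (TX (n + 1) c) + TX n (bd n c) + SdX (n + 1) c)
              - (SdX (n + 1))^[k] (SdX (n + 1) c)
              - (bd (n + 1) (TX (n + 1) c) + bd (n + 1) e') := by rw [← h4]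
        _ = _ := by abel
    rw [h3]
    exact Submodule.add_mem _ (TX_mem_Small U V n _ hc) he'

/-- **(Small)** the small simplices lemma, relative form -/
theorem small_lemma (U V : Set X) (hU : IsOpen U) (hV : IsOpen V) (hUV : U ∪ V = Set.univ) (n : ℕ)
    (c : Ch (n + 1) X) (hc : bd n c ∈ Small U V n) :
    ∃ e : Ch (n + 2) X, c - bd (n + 1) e ∈ Small U V (n + 1) := by
  obtain ⟨k, hk⟩ := exists_iterate_mem_Small U V hU hV hUV (n + 1) c
  obtain ⟨e, he⟩ := sub_iterate_mem U V n k c hc
  refine ⟨e, ?_⟩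
  have h : c - bd (n + 1) e = (c - (SdX (n + 1))^[k] c - bd (n + 1) e) + (SdX (n + 1))^[k] c := by
    abel
  rw [h]
  exact Submodule.add_mem _ he hk

/-- every `0`-chain is small -/
theorem mem_Small_zero (U V : Set X) (hUV : U ∪ V = Set.univ) (c : Ch 0 X) : c ∈ Small U V 0 := by
  unfold Small
  rw [Finsupp.mem_supported]
  intro σ _
  have hsub : Subsingleton (Sx 0) := by
    refine ⟨fun a b => ?_⟩
    apply Subtype.ext
    funext i
    have ha := a.2.2
    have hb := b.2.2
    simp only [Fin.sum_univ_succ, Finset.univ_eq_empty, Finset.sum_empty, add_zero] at ha hb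
    have hi : i = 0 := Fin.eq_zero i
    rw [hi, ha, hb]
  obtain ⟨x⟩ : Nonempty (Sx 0) := ⟨⟨fun _ => 1, fun _ => zero_le_one, by simp⟩⟩
  have hr : Set.range σ ⊆ {σ x} := by
    rintro _ ⟨y, rfl⟩
    rw [Subsingleton.elim y x]
    exact Set.mem_singleton _
  have hx : σ x ∈ U ∪ V := by rw [hUV]; exact Set.mem_univ _
  rcases hx with hx | hx
  · exact Or.inl (hr.trans (Set.singleton_subset_iff.mpr hx))
  · exact Or.inr (hr.trans (Set.singleton_subset_iff.mpr hx))

end HSmall

end Claimed.Agent.R082
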