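import Claimed.Agent.R082.HSmall

/-!
# Row 82 homology package: chains of subspaces (elementary `Finsupp` arguments for Mayer-Vietoris)
Blueprint: `docs/R082_homology.md` §6 on `origin/helper82`.   (deputy for §3-§6: helper762)
-/

set_option autoImplicit false

namespace Claimed.Agent.R082

section HSub

variable {A B W : Type} [TopologicalSpace A] [TopologicalSpace B] [TopologicalSpace W]

/-- `push` along an injective map is injective -/
theorem push_injective (n : ℕ) (k : C(A, W)) (hk : Function.Injective k) :
    Function.Injective (push n k) := by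
  have hinj : Function.Injective (fun σ : C(Sx n, A) => k.comp σ) := by
    intro σ τ h
    ext1 x
    exact hk (congrArg (fun f : C(Sx n, W) => f x) h)
  exact Finsupp.mapDomain_injective hinj

/-- `push k a` is supported on simplices with range in `range k` -/
theorem push_mem_supported_range (n : ℕ) (k : C(A, W)) (a : Ch n A) :
    push n k a ∈ Finsupp.supported ℝ ℝ {σ : C(Sx n, W) | Set.range σ ⊆ Set.range k} := by
  refine lin_map_supported (push n k) Set.univ _ (fun σ _ => ?_) a ?_
  · rw [push_single]
    refine Finsupp.single_mem_supported ℝ 1 ?_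
    show Set.range (k.comp σ) ⊆ Set.range k
    rw [ContinuousMap.coe_comp]
    exact Set.range_comp_subset_range _ _
  · rw [Finsupp.mem_supported]
    exact Set.subset_univ _

/-- a chain supported on simplices with range in `range k`, `k` an embedding, comes from `A` -/
theorem exists_push_eq (n : ℕ) (k : C(A, W)) (hk : Topology.IsEmbedding k) (c : Ch n W)
    (hc : c ∈ Finsupp.supported ℝ ℝ {σ : C(Sx n, W) | Set.range σ ⊆ Set.range k}) :
    ∃ a : Ch n A, push n k a = c := by
  have hle : Finsupp.supported ℝ ℝ {σ : C(Sx n, W) | Set.range σ ⊆ Set.range k}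
      ≤ LinearMap.range (push n k) := by
    rw [Finsupp.supported_eq_span_single, Submodule.span_le]
    rintro _ ⟨σ, hσ, rfl⟩
    have hσ' : ∀ x : Sx n, ∃ y : A, k y = σ x := fun x => hσ ⟨x, rfl⟩
    choose τ hτ using hσ'
    have hcont : Continuous τ := by
      rw [hk.continuous_iff]
      have : (k ∘ τ) = σ := funext hτ
      rw [this]
      exact σ.continuous
    refine ⟨Finsupp.single ⟨τ, hcont⟩ 1, ?_⟩
    rw [push_single]
    congr 1
    ext1 x
    exact hτ x
  exact hle hc

/-- a small chain is a sum of a chain of `A` and a chain of `B` -/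
theorem exists_push_add_push_eq (n : ℕ) (k : C(A, W)) (l : C(B, W)) (hk : Topology.IsEmbedding k)
    (hl : Topology.IsEmbedding l) (c : Ch n W) (hc : c ∈ Small (Set.range k) (Set.range l) n) :
    ∃ (a : Ch n A) (b : Ch n B), push n k a + push n l b = c := by
  classical
  have hc' : ∀ σ ∈ c.support, Set.range σ ⊆ Set.range k ∨ Set.range σ ⊆ Set.range l := by
    intro σ hσ
    exact (Finsupp.mem_supported ℝ c).1 hc hσ
  obtain ⟨a, ha⟩ := exists_push_eq n k hk
    (c.filter fun σ : C(Sx n, W) => Set.range σ ⊆ Set.range k) (by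
      rw [Finsupp.mem_supported]
      intro σ hσ
      rw [Finset.mem_coe, Finsupp.support_filter, Finset.mem_filter] at hσ
      exact hσ.2)
  obtain ⟨b, hb⟩ := exists_push_eq n l hl
    (c.filter fun σ : C(Sx n, W) => ¬ Set.range σ ⊆ Set.range k) (by
      rw [Finsupp.mem_supported]
      intro σ hσ
      rw [Finset.mem_coe, Finsupp.support_filter, Finset.mem_filter] at hσ
      exact (hc' σ hσ.1).resolve_left hσ.2)
  exact ⟨a, b, by rw [ha, hb, Finsupp.filter_pos_add_filter_neg]⟩

/-- exactness in the middle of `0 → C(I) → C(A) ⊕ C(B) → C(W)` -/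
theorem exists_of_push_add_push_eq_zero {I : Type} [TopologicalSpace I] (n : ℕ)
    (k : C(A, W)) (l : C(B, W)) (i : C(I, A)) (j : C(I, B))
    (hk : Function.Injective k) (hl : Function.Injective l)
    (hki : Topology.IsEmbedding (k.comp i)) (hcomm : k.comp i = l.comp j)
    (hI : Set.range k ∩ Set.range l ⊆ Set.range (k.comp i))
    (a : Ch n A) (b : Ch n B) (h : push n k a + push n l b = 0) :
    ∃ w : Ch n I, a = push n i w ∧ b = - push n j w := by
  have e1 : push n k a = - push n l b := eq_neg_of_add_eq_zero_left h
  have s1 := push_mem_supported_range n k a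
  have s2 : push n k a ∈ Finsupp.supported ℝ ℝ {σ : C(Sx n, W) | Set.range σ ⊆ Set.range l} := by
    rw [e1]
    exact Submodule.neg_mem _ (push_mem_supported_range n l b)
  have s3 : push n k a ∈
      Finsupp.supported ℝ ℝ {σ : C(Sx n, W) | Set.range σ ⊆ Set.range (k.comp i)} := by
    rw [Finsupp.mem_supported] at s1 s2 ⊢
    intro σ hσ
    exact (Set.subset_inter (s1 hσ) (s2 hσ)).trans hI
  obtain ⟨w, hw⟩ := exists_push_eq n (k.comp i) hki _ s3
  refine ⟨w, ?_, ?_⟩
  · apply push_injective n k hk
    rw [push_push, hw]
  · apply push_injective n l hl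
    rw [map_neg, push_push, ← hcomm, hw, e1, neg_neg]

end HSub

end Claimed.Agent.R082
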