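import Claimed.Agent.R082.Carrier

/-!
# Row 82: the landing coordinate `Psi`, the register value `Yreg`, exactness identities
Blueprint: `docs/R082_blueprint.md` §3 on `origin/helper82`.
-/

set_option autoImplicit false

namespace Claimed.Agent.R082

theorem Rsq_nonneg (x : ℂ × ℂ) : 0 ≤ Rsq x := by
  unfold Rsq
  positivity

theorem contDiff_Rsq : ContDiff ℝ 1 Rsq := by
  unfold Rsq
  exact (contDiff_fst.norm_sq ℝ).add (contDiff_snd.norm_sq ℝ)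

theorem psilem_norm_sq_convex (s : ℝ) (hs0 : 0 ≤ s) (hs1 : s ≤ 1) (a a' : ℂ) :
    ‖(1 - s) • a + s • a'‖ ^ 2 ≤ (1 - s) * ‖a‖ ^ 2 + s * ‖a'‖ ^ 2 := by
  have h1 : ‖(1 - s) • a + s • a'‖ ≤ (1 - s) * ‖a‖ + s * ‖a'‖ := by
    calc ‖(1 - s) • a + s • a'‖ ≤ ‖(1 - s) • a‖ + ‖s • a'‖ := norm_add_le _ _
      _ = (1 - s) * ‖a‖ + s * ‖a'‖ := by
        rw [norm_smul, norm_smul, Real.norm_of_nonneg hs0, Real.norm_of_nonneg (by linarith)]
  have h0 : 0 ≤ ‖(1 - s) • a + s • a'‖ := norm_nonneg _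
  have h2 : ‖(1 - s) • a + s • a'‖ ^ 2 ≤ ((1 - s) * ‖a‖ + s * ‖a'‖) ^ 2 :=
    pow_le_pow_left₀ h0 h1 2
  have h3 : 0 ≤ s * (1 - s) * (‖a‖ - ‖a'‖) ^ 2 :=
    mul_nonneg (mul_nonneg hs0 (by linarith)) (sq_nonneg _)
  nlinarith

theorem Rsq_convex_le (s : ℝ) (hs0 : 0 ≤ s) (hs1 : s ≤ 1) (x x' : ℂ × ℂ) (B : ℝ)
    (h : Rsq x ≤ B) (h' : Rsq x' ≤ B) : Rsq ((1 - s) • x + s • x') ≤ B := by
  unfold Rsq at *
  have h1 := psilem_norm_sq_convex s hs0 hs1 x.1 x'.1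
  have h2 := psilem_norm_sq_convex s hs0 hs1 x.2 x'.2
  simp only [Prod.fst_add, Prod.snd_add, Prod.smul_fst, Prod.smul_snd]
  have h3 : (1 - s) * (‖x.1‖ ^ 2 + ‖x.2‖ ^ 2) ≤ (1 - s) * B :=
    mul_le_mul_of_nonneg_left h (by linarith)
  have h4 : s * (‖x'.1‖ ^ 2 + ‖x'.2‖ ^ 2) ≤ s * B := mul_le_mul_of_nonneg_left h' hs0
  nlinarith

theorem psilem_contDiff_c1 : ContDiff ℝ 1 c1 := by
  unfold c1
  exact (contDiff_stp _ _).mul (contDiff_const.sub (contDiff_stp _ _))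

theorem psilem_contDiff_c0 : ContDiff ℝ 1 c0 := by
  unfold c0
  exact contDiff_stp _ _

theorem psilem_contDiff_chiY : ContDiff ℝ 1 chiY := by
  unfold chiY
  exact (contDiff_stp _ _).mul (contDiff_const.sub (contDiff_stp _ _))

theorem psilem_c1_small {R : ℝ} (h : R ≤ 0.10 ^ 4) : c1 R = 0 := by
  unfold c1
  rw [stp_of_le (by norm_num) h, zero_mul]

theorem psilem_c0_small {R : ℝ} (h : R ≤ 0.23 ^ 4) : c0 R = 0 := by
  unfold c0
  rw [stp_of_le (by norm_num) h]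

theorem psilem_chiY_small {R : ℝ} (h : R ≤ 0.12 ^ 4) : chiY R = 0 := by
  unfold chiY
  rw [stp_of_le (by norm_num) h, zero_mul]

theorem psilem_Psi_eq (x : ℂ × ℂ) : Psi x =
    (4 : ℝ) • ((c1 (Rsq x) * rm34 (Rsq x) : ℝ) • ((‖x.2‖ : ℝ) • x.2)
      + (c0 (Rsq x) * rm34 (Rsq x) : ℝ) • x.1 ^ 2) := by
  unfold Psi
  simp only [smul_add, smul_smul]
  congr 2 <;> ring

theorem contDiff_Psi : ContDiff ℝ 1 Psi := by
  have h1 : ContDiff ℝ 1 (fun x : ℂ × ℂ => c1 (Rsq x) * rm34 (Rsq x)) :=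
    (contDiff_mul_rm34 c1 psilem_contDiff_c1 (0.10 ^ 4) (by norm_num)
      (fun R hR => psilem_c1_small hR)).comp contDiff_Rsq
  have h0 : ContDiff ℝ 1 (fun x : ℂ × ℂ => c0 (Rsq x) * rm34 (Rsq x)) :=
    (contDiff_mul_rm34 c0 psilem_contDiff_c0 (0.23 ^ 4) (by norm_num)
      (fun R hR => psilem_c0_small hR)).comp contDiff_Rsq
  have h2 : ContDiff ℝ 1 (fun x : ℂ × ℂ => (‖x.2‖ : ℝ) • x.2) :=
    contDiff_norm_smul_self.comp contDiff_snd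
  have h3 : ContDiff ℝ 1 (fun x : ℂ × ℂ => x.1 ^ 2) := contDiff_fst.pow 2
  have h4 : Psi = fun x : ℂ × ℂ => (4 : ℝ) • ((c1 (Rsq x) * rm34 (Rsq x) : ℝ) • ((‖x.2‖ : ℝ) • x.2)
      + (c0 (Rsq x) * rm34 (Rsq x) : ℝ) • x.1 ^ 2) := funext psilem_Psi_eq
  rw [h4]
  exact ((h1.smul h2).add (h0.smul h3)).const_smul 4

theorem contDiff_Yreg : ContDiff ℝ 1 Yreg := by
  have h1 : ContDiff ℝ 1 (fun x : ℂ × ℂ => chiY (Rsq x) * rm34 (Rsq x)) :=
    (contDiff_mul_rm34 chiY psilem_contDiff_chiY (0.12 ^ 4) (by norm_num)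
      (fun R hR => psilem_chiY_small hR)).comp contDiff_Rsq
  have h3 : ContDiff ℝ 1 (fun x : ℂ × ℂ => x.2 ^ 2) := contDiff_snd.pow 2
  have h4 : Yreg = fun x : ℂ × ℂ => (16 : ℝ) • ((chiY (Rsq x) * rm34 (Rsq x) : ℝ) • x.2 ^ 2) := by
    funext x
    unfold Yreg
    rw [smul_smul]
    congr 1
    ring
  rw [h4]
  exact (h1.smul h3).const_smul 16


theorem Psi_of_small {x : ℂ × ℂ} (h : Rsq x ≤ 0.10 ^ 4) : Psi x = 0 := by
  unfold Psi
  rw [psilem_c1_small h, psilem_c0_small (h.trans (by norm_num))]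
  simp

theorem psilem_c1_big {R : ℝ} (h : 0.50 ^ 4 ≤ R) : c1 R = 0 := by
  unfold c1
  rw [stp_of_ge (a := 0.42 ^ 4) (by norm_num) h]
  ring

theorem psilem_c0_big {R : ℝ} (h : 0.28 ^ 4 ≤ R) : c0 R = 1 := by
  unfold c0
  rw [stp_of_ge (by norm_num) h]

theorem psilem_c1_mid {R : ℝ} (h1 : 0.12 ^ 4 ≤ R) (h2 : R ≤ 0.42 ^ 4) : c1 R = 1 := by
  unfold c1
  rw [stp_of_ge (by norm_num) h1, stp_of_le (by norm_num) h2]
  ring

theorem Psi_of_big {x : ℂ × ℂ} (h : 0.50 ^ 4 ≤ Rsq x) :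
    Psi x = (4 * rm34 (Rsq x) : ℝ) • x.1 ^ 2 := by
  unfold Psi
  rw [psilem_c1_big h, psilem_c0_big (le_trans (by norm_num) h)]
  simp

theorem psilem_c1_nonneg (R : ℝ) : 0 ≤ c1 R := by
  unfold c1
  exact mul_nonneg (stp_nonneg _ _ _) (by linarith [stp_le_one (0.42 ^ 4) (0.50 ^ 4) R])

theorem psilem_c1_le_one (R : ℝ) : c1 R ≤ 1 := by
  unfold c1
  have h1 := stp_nonneg (0.10 ^ 4) (0.12 ^ 4) R
  have h2 := stp_le_one (0.10 ^ 4) (0.12 ^ 4) R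
  have h3 := stp_nonneg (0.42 ^ 4) (0.50 ^ 4) R
  have h4 := stp_le_one (0.42 ^ 4) (0.50 ^ 4) R
  nlinarith

theorem psilem_chiY_nonneg (R : ℝ) : 0 ≤ chiY R := by
  unfold chiY
  exact mul_nonneg (stp_nonneg _ _ _) (by linarith [stp_le_one (0.20 ^ 4) (0.22 ^ 4) R])

theorem psilem_chiY_le_one (R : ℝ) : chiY R ≤ 1 := by
  unfold chiY
  have h1 := stp_nonneg (0.12 ^ 4) (0.14 ^ 4) R
  have h2 := stp_le_one (0.12 ^ 4) (0.14 ^ 4) R
  have h3 := stp_nonneg (0.20 ^ 4) (0.22 ^ 4) R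
  have h4 := stp_le_one (0.20 ^ 4) (0.22 ^ 4) R
  nlinarith

theorem psilem_norm_Psi_le (x : ℂ × ℂ) : ‖Psi x‖ ≤ 4 * (rm34 (Rsq x) * Rsq x) := by
  have hr := rm34_nonneg (Rsq x)
  have h1 := psilem_c1_nonneg (Rsq x)
  have h2 := psilem_c1_le_one (Rsq x)
  have h3 : 0 ≤ c0 (Rsq x) := stp_nonneg _ _ _
  have h4 : c0 (Rsq x) ≤ 1 := stp_le_one _ _ _
  unfold Psi
  rw [norm_smul, Real.norm_of_nonneg (by positivity)]
  have h5 : ‖((c1 (Rsq x) * ‖x.2‖ : ℝ) • x.2 + (c0 (Rsq x) : ℝ) • x.1 ^ 2)‖ ≤ Rsq x := by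
    calc ‖((c1 (Rsq x) * ‖x.2‖ : ℝ) • x.2 + (c0 (Rsq x) : ℝ) • x.1 ^ 2)‖
        ≤ ‖(c1 (Rsq x) * ‖x.2‖ : ℝ) • x.2‖ + ‖(c0 (Rsq x) : ℝ) • x.1 ^ 2‖ := norm_add_le _ _
      _ = c1 (Rsq x) * ‖x.2‖ ^ 2 + c0 (Rsq x) * ‖x.1‖ ^ 2 := by
        rw [norm_smul, norm_smul, Real.norm_of_nonneg h3,
          Real.norm_of_nonneg (mul_nonneg h1 (norm_nonneg _)), norm_pow]
        ring
      _ ≤ 1 * ‖x.2‖ ^ 2 + 1 * ‖x.1‖ ^ 2 :=
        add_le_add (mul_le_mul_of_nonneg_right h2 (by positivity))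
          (mul_le_mul_of_nonneg_right h4 (by positivity))
      _ = Rsq x := by
        unfold Rsq
        ring
  calc 4 * rm34 (Rsq x) * ‖((c1 (Rsq x) * ‖x.2‖ : ℝ) • x.2 + (c0 (Rsq x) : ℝ) • x.1 ^ 2)‖
      ≤ 4 * rm34 (Rsq x) * Rsq x := mul_le_mul_of_nonneg_left h5 (by positivity)
    _ = 4 * (rm34 (Rsq x) * Rsq x) := by ring

theorem psilem_rm34_mul_pow {R : ℝ} (hR : 0 ≤ R) : (rm34 R * R) ^ 4 = R := by
  rcases hR.eq_or_lt with h | h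
  · rw [← h]
    simp
  · have := rm34_pow_mul h
    calc (rm34 R * R) ^ 4 = (rm34 R ^ 4 * R ^ 3) * R := by ring
      _ = R := by rw [this, one_mul]

theorem norm_Psi_pow_le (x : ℂ × ℂ) : ‖Psi x‖ ^ 4 ≤ 256 * Rsq x := by
  have h := psilem_norm_Psi_le x
  have h2 := pow_le_pow_left₀ (norm_nonneg _) h 4
  have h3 := psilem_rm34_mul_pow (Rsq_nonneg x)
  calc ‖Psi x‖ ^ 4 ≤ (4 * (rm34 (Rsq x) * Rsq x)) ^ 4 := h2
    _ = 256 * (rm34 (Rsq x) * Rsq x) ^ 4 := by ring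
    _ = 256 * Rsq x := by rw [h3]

theorem Yreg_of_small {x : ℂ × ℂ} (h : Rsq x ≤ 0.12 ^ 4) : Yreg x = 0 := by
  unfold Yreg
  rw [psilem_chiY_small h]
  simp

theorem Yreg_of_big {x : ℂ × ℂ} (h : 0.22 ^ 4 ≤ Rsq x) : Yreg x = 0 := by
  unfold Yreg chiY
  rw [stp_of_ge (a := 0.20 ^ 4) (by norm_num) h]
  simp

theorem psilem_chiY_mid {R : ℝ} (h1 : 0.14 ^ 4 ≤ R) (h2 : R ≤ 0.20 ^ 4) : chiY R = 1 := by
  unfold chiY
  rw [stp_of_ge (by norm_num) h1, stp_of_le (by norm_num) h2]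
  ring

theorem norm_Yreg_le (x : ℂ × ℂ) : ‖Yreg x‖ ≤ 3.52 := by
  rcases le_or_gt (0.22 ^ 4) (Rsq x) with h | h
  · rw [Yreg_of_big h]
    norm_num
  · have hr := rm34_nonneg (Rsq x)
    have h1 := psilem_chiY_nonneg (Rsq x)
    have h2 := psilem_chiY_le_one (Rsq x)
    have hR := Rsq_nonneg x
    have h3 := psilem_rm34_mul_pow hR
    have h4 : rm34 (Rsq x) * Rsq x ≤ 0.22 := by
      by_contra hcon
      rw [not_le] at hcon
      have := pow_lt_pow_left₀ hcon (by norm_num) (n := 4) (by norm_num)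
      rw [h3] at this
      linarith
    have h5 : ‖x.2‖ ^ 2 ≤ Rsq x := by
      unfold Rsq
      have : 0 ≤ ‖x.1‖ ^ 2 := by positivity
      linarith
    unfold Yreg
    rw [norm_smul, Real.norm_of_nonneg (by positivity), norm_pow]
    calc 16 * chiY (Rsq x) * rm34 (Rsq x) * ‖x.2‖ ^ 2
        ≤ 16 * 1 * rm34 (Rsq x) * Rsq x := by
          apply mul_le_mul _ h5 (by positivity) (by positivity)
          apply mul_le_mul_of_nonneg_right _ hr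
          linarith
      _ = 16 * (rm34 (Rsq x) * Rsq x) := by ring
      _ ≤ 3.52 := by linarith

theorem Psi_Lmap {x : ℂ × ℂ} (h1 : 0.14 ^ 4 ≤ Rsq x) (h2 : Rsq x ≤ 0.20 ^ 4) :
    Psi (Lmap x) = Yreg x := by
  have hR : Rsq (Lmap x) = 256 * Rsq x := Rsq_Lmap x
  have hbig : (0.50 : ℝ) ^ 4 ≤ Rsq (Lmap x) := by
    rw [hR]
    have : (0.50 : ℝ) ^ 4 ≤ 256 * 0.14 ^ 4 := by norm_num
    linarith
  rw [Psi_of_big hbig, hR, rm34_mul256 (Rsq_nonneg x)]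
  unfold Yreg
  rw [psilem_chiY_mid h1 h2]
  simp only [Lmap]
  rw [mul_pow, Complex.real_smul, Complex.real_smul]
  push_cast
  ring

theorem Dmap_Psi {x : ℂ × ℂ} (h1 : 0.14 ^ 4 ≤ Rsq x) (h2 : Rsq x ≤ 0.20 ^ 4) :
    Dmap (Psi x) = Yreg x := by
  have hc1 : c1 (Rsq x) = 1 :=
    psilem_c1_mid (le_trans (by norm_num) h1) (le_trans h2 (by norm_num))
  have hc0 : c0 (Rsq x) = 0 := psilem_c0_small (le_trans h2 (by norm_num))
  have hRpos : 0 < Rsq x := lt_of_lt_of_le (by norm_num) h1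
  have hr : 0 < rm34 (Rsq x) := by
    have h := rm34_pow_mul hRpos
    rcases (rm34_nonneg (Rsq x)).eq_or_lt with h0 | h0
    · rw [← h0] at h
      norm_num at h
    · exact h0
  have hP : Psi x = ((4 * rm34 (Rsq x) * ‖x.2‖ : ℝ) : ℂ) * x.2 := by
    unfold Psi
    rw [hc1, hc0]
    simp only [one_mul, zero_smul, add_zero, Complex.real_smul]
    push_cast
    ring
  unfold Yreg
  rw [psilem_chiY_mid h1 h2]
  by_cases hx : x.2 = 0
  · rw [hP, hx]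
    simp [Dmap_zero]
  · have hn : 0 < ‖x.2‖ := norm_pos_iff.mpr hx
    have hnP : ‖Psi x‖ = 4 * rm34 (Rsq x) * ‖x.2‖ * ‖x.2‖ := by
      rw [hP, norm_mul, Complex.norm_real, Real.norm_of_nonneg (by positivity)]
    unfold Dmap
    rw [hnP, hP, Complex.real_smul]
    have hnc : ((‖x.2‖ : ℝ) : ℂ) ≠ 0 := by exact_mod_cast hn.ne'
    have hrc : ((rm34 (Rsq x) : ℝ) : ℂ) ≠ 0 := by exact_mod_cast hr.ne'
    push_cast
    field_simp
    ring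


theorem psilem_Psi_jmap_aux (w : ℂ) : Psi (jmap w) =
    (4 * (‖w‖ ^ 3)⁻¹ : ℝ) • ((c1 (‖w‖ ^ 4) * ‖(jmap w).2‖ : ℝ) • (jmap w).2
      + (c0 (‖w‖ ^ 4) : ℝ) • (jmap w).1 ^ 2) := by
  unfold Psi
  rw [Rsq_jmap, rm34_pow4 (norm_nonneg w)]

theorem Psi_jmap {w : ℂ} (h : 0.12 ≤ ‖w‖) : Psi (jmap w) = Dmap w := by
  have hn : 0 < ‖w‖ := lt_of_lt_of_le (by norm_num) h
  have hnc : ((‖w‖ : ℝ) : ℂ) ≠ 0 := by exact_mod_cast hn.ne'
  have h4 : (0.12 : ℝ) ^ 4 ≤ ‖w‖ ^ 4 := pow_le_pow_left₀ (by norm_num) h 4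
  rw [psilem_Psi_jmap_aux]
  unfold Dmap
  rcases le_total ‖w‖ 0.3 with h3 | h3
  · have h5 : ‖w‖ ^ 4 ≤ (0.3 : ℝ) ^ 4 := pow_le_pow_left₀ hn.le h3 4
    rw [jmap_mid (le_trans (by norm_num) h) h3,
      psilem_c1_mid h4 (le_trans h5 (by norm_num))]
    simp only [norm_pow, Complex.real_smul]
    push_cast
    field_simp
    ring
  · have h5 : (0.3 : ℝ) ^ 4 ≤ ‖w‖ ^ 4 := pow_le_pow_left₀ (by norm_num) h3 4
    have hc0 : c0 (‖w‖ ^ 4) = 1 := psilem_c0_big (le_trans (by norm_num) h5)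
    rcases le_total ‖w‖ 0.4 with h6 | h6
    · have h7 : ‖w‖ ^ 4 ≤ (0.4 : ℝ) ^ 4 := pow_le_pow_left₀ hn.le h6 4
      rw [jmap_eq_j0 (le_trans (by norm_num) h), hc0,
        psilem_c1_mid h4 (le_trans h7 (by norm_num))]
      have hth0 : 0 ≤ vth (‖w‖ ^ 2) := by
        unfold vth
        exact mul_nonneg (by positivity) (stp_nonneg _ _ _)
      have hth1 : vth (‖w‖ ^ 2) ≤ Real.pi / 2 := by
        unfold vth
        have := stp_le_one (0.3 ^ 2) (0.4 ^ 2) (‖w‖ ^ 2)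
        have hpi : 0 ≤ Real.pi / 2 := by positivity
        nlinarith
      have hcos : 0 ≤ Real.cos (vth (‖w‖ ^ 2)) :=
        Real.cos_nonneg_of_neg_pi_div_two_le_of_le (by linarith [Real.pi_pos]) hth1
      have hscC := Complex.sin_sq_add_cos_sq ((vth (‖w‖ ^ 2) : ℝ) : ℂ)
      simp only [j0]
      rw [norm_smul, Real.norm_of_nonneg hcos, norm_pow]
      simp only [Complex.real_smul]
      push_cast
      field_simp
      linear_combination (w ^ 2) * hscC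
    · rw [jmap_of_ge h6, hc0]
      simp only [norm_zero, mul_zero, zero_smul, zero_add, Complex.real_smul]
      push_cast
      field_simp

theorem psilem_tauB_small {R : ℝ} (h : R ≤ 0.14 ^ 4) : tauB R = 0 := by
  unfold tauB
  rw [stp_of_le (by norm_num) h, stp_of_le (by norm_num) (le_trans h (by norm_num))]
  ring

theorem psilem_tauB_big {R : ℝ} (h : 0.20 ^ 4 ≤ R) : tauB R = 1 := by
  unfold tauB
  rw [stp_of_ge (by norm_num) h, stp_of_ge (by norm_num) (le_trans (by norm_num) h)]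
  norm_num

theorem Pmap_jmap {t : ℝ} (ht : Gb t = 0) (w : ℂ) : Pmap t (jmap w) = jmap (Dmap w) := by
  have hs : sBl t (jmap w) = sig (tauB (‖w‖ ^ 4)) := by
    unfold sBl
    rw [ht, Rsq_jmap]
    simp
  unfold Pmap
  rw [hs]
  rcases le_or_gt ‖w‖ 0.14 with h1 | h1
  · have h2 : ‖w‖ ^ 4 ≤ (0.14 : ℝ) ^ 4 := pow_le_pow_left₀ (norm_nonneg _) h1 4
    have h3 : sig (tauB (‖w‖ ^ 4)) = 0 := by
      rw [psilem_tauB_small h2]
      unfold sig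
      exact stp_of_le (by norm_num) (by norm_num)
    rw [h3, jmap_Dmap (le_trans h1 (by norm_num))]
    simp
  · have hP : Psi (jmap w) = Dmap w := Psi_jmap (le_trans (by norm_num) h1.le)
    rw [hP]
    rcases le_or_gt ‖w‖ (1 / 4) with h2 | h2
    · rw [← jmap_Dmap h2, ← add_smul]
      simp
    · have h3 : (0.20 : ℝ) ^ 4 ≤ ‖w‖ ^ 4 :=
        pow_le_pow_left₀ (by norm_num) (le_trans (by norm_num) h2.le) 4
      have h4 : sig (tauB (‖w‖ ^ 4)) = 1 := by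
        rw [psilem_tauB_big h3]
        unfold sig
        exact stp_of_ge (by norm_num) (by norm_num)
      rw [h4]
      simp

end Claimed.Agent.R082
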