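import Claimed.Agent.R082.Defs

/-!
# Row 82: elementary facts on the scalar functions `stp`, `Hc`, `rm34`
Blueprint: `docs/R082_blueprint.md` §1 on `origin/helper82`.
-/

set_option autoImplicit false

namespace Claimed.Agent.R082

theorem stp_of_le {a b x : ℝ} (hab : a < b) (h : x ≤ a) : stp a b x = 0 := by
  unfold stp
  apply Real.smoothTransition.zero_of_nonpos
  exact div_nonpos_of_nonpos_of_nonneg (by linarith) (by linarith)

theorem stp_of_ge {a b x : ℝ} (hab : a < b) (h : b ≤ x) : stp a b x = 1 := by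
  unfold stp
  apply Real.smoothTransition.one_of_one_le
  rw [le_div_iff₀ (by linarith)]
  linarith

theorem stp_nonneg (a b x : ℝ) : 0 ≤ stp a b x := Real.smoothTransition.nonneg _

theorem stp_le_one (a b x : ℝ) : stp a b x ≤ 1 := Real.smoothTransition.le_one _

theorem stp_pos {a b x : ℝ} (hab : a < b) (h : a < x) : 0 < stp a b x := by
  unfold stp
  apply Real.smoothTransition.pos_of_pos
  exact div_pos (by linarith) (by linarith)

theorem stp_lt_one {a b x : ℝ} (hab : a < b) (h : x < b) : stp a b x < 1 := by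
  unfold stp
  apply Real.smoothTransition.lt_one_of_lt_one
  rw [div_lt_iff₀ (by linarith)]
  linarith

theorem contDiff_stp (a b : ℝ) : ContDiff ℝ 1 (stp a b) := by
  unfold stp
  exact Real.smoothTransition.contDiff.comp ((contDiff_id.sub contDiff_const).div_const _)

theorem Hc_of_nonpos {u : ℝ} (h : u ≤ 0) : Hc u = 0 := by
  unfold Hc
  have : max 0 (min u 1) = 0 := max_eq_left ((min_le_left _ _).trans h)
  rw [this]; norm_num

theorem Hc_of_one_le {u : ℝ} (h : 1 ≤ u) : Hc u = 1 := by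
  unfold Hc
  have : max 0 (min u 1) = 1 := by rw [min_eq_right h]; exact max_eq_right zero_le_one
  rw [this]; norm_num

theorem Hc_of_mem {u : ℝ} (h0 : 0 ≤ u) (h1 : u ≤ 1) : Hc u = 3 * u ^ 2 - 2 * u ^ 3 := by
  unfold Hc
  have : max 0 (min u 1) = u := by rw [min_eq_left h1]; exact max_eq_right h0
  rw [this]

theorem Hc_nonneg (u : ℝ) : 0 ≤ Hc u := by
  rcases le_total u 0 with h | h
  · rw [Hc_of_nonpos h]
  rcases le_total u 1 with h1 | h1
  · rw [Hc_of_mem h h1]
    nlinarith [mul_nonneg (mul_nonneg h h) (sub_nonneg.2 h1), mul_nonneg h h]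
  · rw [Hc_of_one_le h1]; exact zero_le_one

theorem Hc_le_one (u : ℝ) : Hc u ≤ 1 := by
  rcases le_total u 0 with h | h
  · rw [Hc_of_nonpos h]; exact zero_le_one
  rcases le_total u 1 with h1 | h1
  · rw [Hc_of_mem h h1]
    nlinarith [mul_nonneg (mul_nonneg (sub_nonneg.2 h1) (sub_nonneg.2 h1)) h,
      mul_nonneg (sub_nonneg.2 h1) (sub_nonneg.2 h1)]
  · rw [Hc_of_one_le h1]

theorem Hc_pos {u : ℝ} (h : 0 < u) : 0 < Hc u := by
  rcases le_total u 1 with h1 | h1
  · rw [Hc_of_mem h.le h1]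
    nlinarith [mul_nonneg (mul_nonneg h.le h.le) (sub_nonneg.2 h1), mul_pos h h]
  · rw [Hc_of_one_le h1]; exact zero_lt_one

theorem Hc_lt_one {u : ℝ} (h : u < 1) : Hc u < 1 := by
  rcases le_total u 0 with h0 | h0
  · rw [Hc_of_nonpos h0]; exact zero_lt_one
  · rw [Hc_of_mem h0 h.le]
    nlinarith [mul_nonneg (mul_nonneg (sub_pos.2 h).le (sub_pos.2 h).le) h0,
      mul_pos (sub_pos.2 h) (sub_pos.2 h)]

theorem Hc_monotone : Monotone Hc := by
  intro u v huv
  rcases le_total u 0 with h | h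
  · rw [Hc_of_nonpos h]; exact Hc_nonneg v
  rcases le_total 1 v with h1 | h1
  · rw [Hc_of_one_le h1]; exact Hc_le_one u
  · rw [Hc_of_mem h (huv.trans h1), Hc_of_mem (h.trans huv) h1]
    have hd : 0 ≤ v - u := sub_nonneg.2 huv
    have h2 : 0 ≤ 3 * (u + v) - 2 * (u ^ 2 + u * v + v ^ 2) := by
      nlinarith [mul_nonneg h (sub_nonneg.2 (huv.trans h1)),
        mul_nonneg (h.trans huv) (sub_nonneg.2 h1), mul_nonneg h (sub_nonneg.2 h1),
        mul_nonneg (h.trans huv) (sub_nonneg.2 (huv.trans h1))]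
    nlinarith [mul_nonneg hd h2]

/-- pointwise derivative of `Hc` -/
theorem hasDerivAt_Hc (u : ℝ) :
    HasDerivAt Hc (6 * (max 0 (min u 1)) * (1 - max 0 (min u 1))) u := by
  have hpoly : ∀ x : ℝ, HasDerivAt (fun u : ℝ => 3 * u ^ 2 - 2 * u ^ 3) (6 * x * (1 - x)) x := by
    intro x
    have h := ((hasDerivAt_pow 2 x).const_mul 3).sub ((hasDerivAt_pow 3 x).const_mul 2)
    have he : 3 * (((2 : ℕ) : ℝ) * x ^ (2 - 1)) - 2 * (((3 : ℕ) : ℝ) * x ^ (3 - 1))
        = 6 * x * (1 - x) := by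
      push_cast; ring
    rw [he] at h
    exact h
  rcases lt_trichotomy u 0 with h | h | h
  · have hm : max 0 (min u 1) = 0 := max_eq_left ((min_le_left _ _).trans h.le)
    rw [hm]
    have : HasDerivAt (fun _ : ℝ => (0 : ℝ)) 0 u := hasDerivAt_const _ _
    simp only [mul_zero, zero_mul]
    refine this.congr_of_eventuallyEq ?_
    filter_upwards [Iio_mem_nhds h] with x hx
    exact Hc_of_nonpos (le_of_lt hx)
  · subst h
    have hm : max (0 : ℝ) (min 0 1) = 0 := by simp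
    rw [hm]
    simp only [mul_zero, zero_mul]
    -- squeeze: |Hc x| ≤ 3 x^2
    rw [hasDerivAt_iff_isLittleO_nhds_zero]
    simp only [zero_add, smul_zero, sub_zero, Hc_of_nonpos le_rfl]
    have hb : ∀ x : ℝ, ‖Hc x‖ ≤ 3 * ‖x‖ ^ 2 := by
      intro x
      rw [Real.norm_of_nonneg (Hc_nonneg x), Real.norm_eq_abs, sq_abs]
      rcases le_total x 0 with h | h
      · rw [Hc_of_nonpos h]; positivity
      rcases le_total x 1 with h1 | h1
      · rw [Hc_of_mem h h1]; nlinarith [pow_nonneg h 3]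
      · rw [Hc_of_one_le h1]; nlinarith
    have h1 : (fun x : ℝ => Hc x) =O[nhds 0] (fun x : ℝ => x ^ 2) := by
      refine Asymptotics.IsBigO.of_bound 3 (Filter.Eventually.of_forall fun x => ?_)
      rw [norm_pow]; exact hb x
    refine h1.trans_isLittleO ?_
    simpa using (Asymptotics.isLittleO_pow_id (𝕜 := ℝ) (n := 2) (by norm_num))
  rcases lt_trichotomy u 1 with h1 | h1 | h1
  · have hm : max 0 (min u 1) = u := by rw [min_eq_left h1.le]; exact max_eq_right h.le
    rw [hm]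
    refine (hpoly u).congr_of_eventuallyEq ?_
    filter_upwards [Ioo_mem_nhds h h1] with x hx
    exact Hc_of_mem hx.1.le hx.2.le
  · subst h1
    have hm : max (0 : ℝ) (min 1 1) = 1 := by simp
    rw [hm]
    simp only [sub_self, mul_zero]
    rw [hasDerivAt_iff_isLittleO_nhds_zero]
    simp only [smul_zero, sub_zero, Hc_of_one_le le_rfl]
    have hb : ∀ x : ℝ, ‖x‖ ≤ 1 → ‖Hc (1 + x) - 1‖ ≤ 3 * ‖x‖ ^ 2 := by
      intro x hx
      rw [Real.norm_eq_abs] at hx
      have hx' := abs_le.1 hx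
      rw [Real.norm_eq_abs, Real.norm_eq_abs, sq_abs, abs_sub_comm,
        abs_of_nonneg (sub_nonneg.2 (Hc_le_one _))]
      rcases le_total 0 x with h | h
      · rw [Hc_of_one_le (by linarith)]; nlinarith [sq_nonneg x]
      · rw [Hc_of_mem (by linarith) (by linarith)]
        nlinarith [mul_nonneg (sq_nonneg x) (neg_nonneg.2 h), sq_nonneg x]
    have h1 : (fun x : ℝ => Hc (1 + x) - 1) =O[nhds 0] (fun x : ℝ => x ^ 2) := by
      refine Asymptotics.IsBigO.of_bound 3 ?_
      have : ∀ᶠ x : ℝ in nhds 0, ‖x‖ ≤ 1 := by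
        have := Metric.closedBall_mem_nhds (0 : ℝ) zero_lt_one
        filter_upwards [this] with x hx
        simpa using hx
      filter_upwards [this] with x hx
      rw [norm_pow]; exact hb x hx
    refine h1.trans_isLittleO ?_
    simpa using (Asymptotics.isLittleO_pow_id (𝕜 := ℝ) (n := 2) (by norm_num))
  · have hm : max 0 (min u 1) = 1 := by rw [min_eq_right h1.le]; exact max_eq_right zero_le_one
    rw [hm]
    have : HasDerivAt (fun _ : ℝ => (1 : ℝ)) 0 u := hasDerivAt_const _ _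
    simp only [sub_self, mul_zero]
    refine this.congr_of_eventuallyEq ?_
    filter_upwards [Ioi_mem_nhds h1] with x hx
    exact Hc_of_one_le (le_of_lt hx)

/-- derivative `6 m (1 - m)`, `m = clamp u`, is continuous -/
theorem contDiff_Hc : ContDiff ℝ 1 Hc := by
  rw [contDiff_one_iff_deriv]
  refine ⟨fun u => (hasDerivAt_Hc u).differentiableAt, ?_⟩
  have : deriv Hc = fun u => 6 * (max 0 (min u 1)) * (1 - max 0 (min u 1)) :=
    funext fun u => (hasDerivAt_Hc u).deriv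
  rw [this]
  fun_prop

theorem rm34_pow4 {a : ℝ} (ha : 0 ≤ a) : rm34 (a ^ 4) = (a ^ 3)⁻¹ := by
  unfold rm34
  have h1 : Real.sqrt (a ^ 4) = a ^ 2 := by
    rw [show a ^ 4 = (a ^ 2) ^ 2 by ring]; exact Real.sqrt_sq (by positivity)
  rw [h1, Real.sqrt_sq ha]
  congr 1

theorem rm34_mul256 {R : ℝ} (hR : 0 ≤ R) : rm34 (256 * R) = rm34 R / 64 := by
  unfold rm34
  have h1 : Real.sqrt (256 * R) = 16 * Real.sqrt R := by
    rw [Real.sqrt_mul (by norm_num), show (256 : ℝ) = 16 ^ 2 by norm_num,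
      Real.sqrt_sq (by norm_num)]
  have h2 : Real.sqrt (16 * Real.sqrt R) = 4 * Real.sqrt (Real.sqrt R) := by
    rw [Real.sqrt_mul (by norm_num), show (16 : ℝ) = 4 ^ 2 by norm_num,
      Real.sqrt_sq (by norm_num)]
  rw [h1, h2, show 16 * Real.sqrt R * (4 * Real.sqrt (Real.sqrt R))
    = (Real.sqrt R * Real.sqrt (Real.sqrt R)) * 64 by ring, mul_inv, div_eq_mul_inv]

theorem rm34_nonneg (R : ℝ) : 0 ≤ rm34 R := by
  unfold rm34
  positivity

/-- `(R^(-3/4))⁴ R³ = 1` -/
theorem rm34_pow_mul {R : ℝ} (hR : 0 < R) : rm34 R ^ 4 * R ^ 3 = 1 := by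
  obtain ⟨a, ha, rfl⟩ : ∃ a : ℝ, 0 < a ∧ R = a ^ 4 := by
    refine ⟨Real.sqrt (Real.sqrt R), by positivity, ?_⟩
    rw [show Real.sqrt (Real.sqrt R) ^ 4 = (Real.sqrt (Real.sqrt R) ^ 2) ^ 2 by ring,
      Real.sq_sqrt (Real.sqrt_nonneg R), Real.sq_sqrt hR.le]
  rw [rm34_pow4 ha.le]
  field_simp

theorem contDiffAt_rm34 {R : ℝ} (hR : 0 < R) : ContDiffAt ℝ 1 rm34 R := by
  unfold rm34
  have h1 : ContDiffAt ℝ 1 Real.sqrt R := Real.contDiffAt_sqrt hR.ne'
  have h2 : ContDiffAt ℝ 1 (fun R => Real.sqrt (Real.sqrt R)) R :=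
    h1.sqrt (Real.sqrt_pos.2 hR).ne'
  refine (h1.mul h2).inv ?_
  have := Real.sqrt_pos.2 hR
  have := Real.sqrt_pos.2 this
  positivity

/-- a cut-off vanishing near `0` times `rm34` is `C¹` -/
theorem contDiff_mul_rm34 (c : ℝ → ℝ) (hc : ContDiff ℝ 1 c) (a : ℝ) (ha : 0 < a)
    (h0 : ∀ R, R ≤ a → c R = 0) : ContDiff ℝ 1 (fun R => c R * rm34 R) := by
  rw [contDiff_iff_contDiffAt]
  intro R
  rcases lt_or_ge R a with h | h
  · have : ContDiffAt ℝ 1 (fun _ : ℝ => (0 : ℝ)) R := contDiffAt_const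
    refine this.congr_of_eventuallyEq ?_
    filter_upwards [Iio_mem_nhds h] with x hx
    rw [h0 x (le_of_lt hx), zero_mul]
  · exact hc.contDiffAt.mul (contDiffAt_rm34 (lt_of_lt_of_le ha h))

end Claimed.Agent.R082
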