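import Claimed.Agent.R082.Model

/-!
# Row 82: one-step lemmas for the model map `Fhat` (the flow chart)
Blueprint: `docs/R082_blueprint.md` §7 on `origin/helper82`.

Phase zones: `ZC = (-1/2,-1/4]`, `ZB = (-1/4,-1/8)`, `ZA = [-1/8,0]`, `ZF = (0,aG)`,
`ZE = [aG,0.30]`, `ZD = (0.30,1/2]`.   Neutral phases `= ZD ∪ ZC ∪ ZB ∪ ZA`.
-/

set_option autoImplicit false

namespace Claimed.Agent.R082

/-- neutral phases: `Gb t = 0` and `thT t = 1` -/
def Neutral (t : ℝ) : Prop := t ≤ 0 ∨ 0.30 < t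

/-- neutral carrier states -/
def KN (s : St) : Prop := Neutral s.t ∧ ∃ w : ℂ, s.x = jmap w

/-- big carrier states whose flag is harmless -/
def KX (s : St) : Prop :=
  ∃ w : ℂ, s.x = jmap w ∧ 0.56 ≤ ‖w‖ ∧ (thT s.t = 1 ∨ 0.8 ≤ ‖w‖ ∨ s.y = Dmap w)

/-! ### plateau evaluation (auxiliary) -/

theorem Steps_tauB_of_le {R : ℝ} (h : R ≤ 0.14 ^ 4) : tauB R = 0 := by
  unfold tauB
  rw [stp_of_le (by norm_num) h, stp_of_le (by norm_num) (h.trans (by norm_num))]
  ring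

theorem Steps_tauB_of_ge {R : ℝ} (h : 0.20 ^ 4 ≤ R) : tauB R = 1 := by
  unfold tauB
  rw [stp_of_ge (by norm_num) h, stp_of_ge (by norm_num) (le_trans (by norm_num) h)]
  norm_num

theorem Steps_tauB_nonneg (R : ℝ) : 0 ≤ tauB R := by
  unfold tauB
  have := stp_nonneg (0.14 ^ 4) (0.16 ^ 4) R
  have := stp_nonneg (0.18 ^ 4) (0.20 ^ 4) R
  linarith

theorem Steps_tauB_le_one (R : ℝ) : tauB R ≤ 1 := by
  unfold tauB
  have := stp_le_one (0.14 ^ 4) (0.16 ^ 4) R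
  have := stp_le_one (0.18 ^ 4) (0.20 ^ 4) R
  linarith

theorem Steps_tauB_ge {R : ℝ} (h : 0.16 ^ 4 ≤ R) : 0.35 ≤ tauB R := by
  unfold tauB
  rw [stp_of_ge (by norm_num) h]
  have := stp_nonneg (0.18 ^ 4) (0.20 ^ 4) R
  linarith

theorem Steps_sig_of_le {a : ℝ} (h : a ≤ 0.22) : sig a = 0 := stp_of_le (by norm_num) h

theorem Steps_sig_of_ge {a : ℝ} (h : 0.25 ≤ a) : sig a = 1 := stp_of_ge (by norm_num) h

theorem Steps_aG_pos : 0 < aG := by unfold aG; norm_num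

theorem Steps_gT_of_nonpos {t : ℝ} (h : t ≤ 0) : gT t = 0 :=
  Hc_of_nonpos (div_nonpos_of_nonpos_of_nonneg h Steps_aG_pos.le)

theorem Steps_gT_of_ge {t : ℝ} (h : aG ≤ t) : gT t = 1 :=
  Hc_of_one_le ((one_le_div Steps_aG_pos).mpr h)

theorem Steps_gT_pos {t : ℝ} (h : 0 < t) : 0 < gT t := Hc_pos (div_pos h Steps_aG_pos)

theorem Steps_om1_of_ge {t : ℝ} (h : -(1 / 8) ≤ t) : om1 t = 1 := Hc_of_one_le (by linarith)

theorem Steps_om1_of_le {t : ℝ} (h : t ≤ -(1 / 4)) : om1 t = 0 := Hc_of_nonpos (by linarith)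

theorem Steps_red_zero : red 0 = 0 := by
  unfold red
  rw [if_pos (by norm_num)]

theorem Steps_red_one : red 1 = 0 := by
  unfold red
  rw [if_neg (by norm_num)]
  norm_num

theorem Steps_red_of_le {T : ℝ} (h : T ≤ 1 / 2) : red T = T := by
  unfold red
  rw [if_pos h]

/-- the reduction of a phase in `(0.30, 1]` is neutral -/
theorem Steps_neutral_red {T : ℝ} (h : 0.30 < T) (h1 : T ≤ 1) : Neutral (red T) := by
  unfold red
  split_ifs with h2
  · exact Or.inr h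
  · exact Or.inl (by linarith)

theorem Steps_norm_fst_sq_le (x : ℂ × ℂ) : ‖x.1‖ ^ 2 ≤ Rsq x := by
  unfold Rsq
  have := sq_nonneg ‖x.2‖
  linarith

theorem Steps_bS_of_le {x0 : ℂ} (h : ‖x0‖ ^ 2 ≤ 9) : bS x0 = 1 := by
  unfold bS
  rw [stp_of_le (by norm_num) h, sub_zero]

theorem Steps_bS_pos {x0 : ℂ} (h : ‖x0‖ < 4) : 0 < bS x0 := by
  unfold bS
  have h2 : ‖x0‖ ^ 2 < 16 := by nlinarith [norm_nonneg x0]
  have := stp_lt_one (a := 9) (b := 16) (by norm_num) h2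
  linarith

theorem Steps_bS_le_one (x0 : ℂ) : bS x0 ≤ 1 := by
  unfold bS
  have := stp_nonneg 9 16 (‖x0‖ ^ 2)
  linarith

/-- the model map where the modification near the sink is inactive -/
theorem Steps_Fhat_of_le {s : St} (h : ‖s.x.1‖ ^ 2 ≤ 9) :
    Fhat s = ⟨red (That s.t s.x), Xnew s.t s.x s.y, Yreg s.x⟩ := by
  unfold Fhat Nnew
  rw [Steps_bS_of_le h]
  simp

theorem Steps_thEff_of_thT {t : ℝ} (h : thT t = 1) (x : ℂ × ℂ) : thEff t x = 1 := by
  unfold thEff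
  rw [h]
  ring

theorem Steps_Xnew_of_thEff {t : ℝ} {x : ℂ × ℂ} (h : thEff t x = 1) (y : ℂ) :
    Xnew t x y = Pmap t x := by
  unfold Xnew
  rw [h]
  simp

/-- a blend of two equal points -/
theorem Steps_Xnew_of_eq {t : ℝ} {x : ℂ × ℂ} {y : ℂ} (h : Pmap t x = jmap y) :
    Xnew t x y = jmap y := by
  unfold Xnew
  rw [h, ← add_smul]
  simp

theorem Steps_Pmap_of_zero {t : ℝ} {x : ℂ × ℂ} (h : sBl t x = 0) : Pmap t x = Lmap x := by
  unfold Pmap
  rw [h]
  simp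

theorem Steps_Pmap_of_one {t : ℝ} {x : ℂ × ℂ} (h : sBl t x = 1) : Pmap t x = jmap (Psi x) := by
  unfold Pmap
  rw [h]
  simp

/-- the modification near the sink adds a positive multiple -/
theorem Steps_blend_norm {b k1 k2 : ℝ} (hb : 0 < b) (hb1 : b ≤ 1) (hk1 : 0 ≤ k1) (hk2 : 0 ≤ k2)
    (z : ℂ) :
    k1 * ‖z‖ ≤ ‖(b⁻¹ : ℝ) • ((b : ℝ) • ((k1 : ℝ) • z) + (1 - b : ℝ) • ((k2 : ℝ) • z))‖ := by
  have h : (b⁻¹ : ℝ) • ((b : ℝ) • ((k1 : ℝ) • z) + (1 - b : ℝ) • ((k2 : ℝ) • z))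
      = (k1 + b⁻¹ * ((1 - b) * k2)) • z := by
    simp only [smul_smul, ← add_smul]
    congr 1
    field_simp
  have h0 : 0 ≤ b⁻¹ * ((1 - b) * k2) :=
    mul_nonneg (inv_nonneg.mpr hb.le) (mul_nonneg (by linarith) hk2)
  rw [h, norm_smul, Real.norm_of_nonneg (by linarith)]
  exact mul_le_mul_of_nonneg_right (by linarith) (norm_nonneg z)

theorem Steps_Fhat_x_fst (s : St) : (Fhat s).x.1 = ((bS s.x.1)⁻¹ : ℝ) •
    ((bS s.x.1 : ℝ) • (Xnew s.t s.x s.y).1 + (1 - bS s.x.1 : ℝ) • s.x.1 ^ 2) := rfl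

theorem Steps_Fhat_x_snd (s : St) : (Fhat s).x.2 = (Xnew s.t s.x s.y).2 := rfl

/-- lower bound for `R^(-3/4)` -/
theorem Steps_rm34_ge {R : ℝ} (h0 : 0 < R) (h : R ≤ 17) : 1 / 9 ≤ rm34 R := by
  by_contra hc
  rw [not_le] at hc
  have h1 := rm34_pow_mul h0
  have h2 := rm34_nonneg R
  have h3 : rm34 R ^ 4 ≤ (1 / 9) ^ 4 := pow_le_pow_left₀ h2 hc.le 4
  have h4 : R ^ 3 ≤ 17 ^ 3 := pow_le_pow_left₀ h0.le h 3
  have h5 : rm34 R ^ 4 * R ^ 3 ≤ (1 / 9) ^ 4 * 17 ^ 3 :=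
    mul_le_mul h3 h4 (by positivity) (by positivity)
  rw [h1] at h5
  norm_num at h5

/-- landing: if the new `x` before the modification near the sink is `j (Psi x)`, the new state lies
on the carrier -/
theorem Steps_land {s : St} (hP : Pr s) (h4 : ‖s.x.1‖ < 4)
    (hX : Xnew s.t s.x s.y = jmap (Psi s.x)) : ∃ w : ℂ, (Fhat s).x = jmap w := by
  by_cases hb : ‖s.x.1‖ ^ 2 ≤ 9
  · rw [Steps_Fhat_of_le hb]
    exact ⟨Psi s.x, hX⟩
  · rw [not_le] at hb
    have hx2 : ‖s.x.2‖ ≤ 1 := hP.2.2.1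
    have hn16 : ‖s.x.1‖ ^ 2 < 16 := by nlinarith [norm_nonneg s.x.1]
    have hRdef : Rsq s.x = ‖s.x.1‖ ^ 2 + ‖s.x.2‖ ^ 2 := rfl
    have hR9 : 9 < Rsq s.x := by
      rw [hRdef]
      nlinarith [sq_nonneg ‖s.x.2‖]
    have hR17 : Rsq s.x ≤ 17 := by
      rw [hRdef]
      nlinarith [norm_nonneg s.x.2]
    have hρ := Steps_rm34_ge (by linarith) hR17
    have hΨ : Psi s.x = (4 * rm34 (Rsq s.x) : ℝ) • s.x.1 ^ 2 :=
      Psi_of_big (le_trans (by norm_num) hR9.le)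
    have hΨn : ‖Psi s.x‖ = 4 * rm34 (Rsq s.x) * ‖s.x.1 ^ 2‖ := by
      rw [hΨ, norm_smul, Real.norm_of_nonneg (by linarith)]
    have hz : ‖s.x.1 ^ 2‖ = ‖s.x.1‖ ^ 2 := norm_pow _ _
    have hΨ4 : 0.4 ≤ ‖Psi s.x‖ := by
      rw [hΨn, hz]
      nlinarith
    have hJ : jmap (Psi s.x) = ((‖Psi s.x‖ : ℝ) • Psi s.x, 0) := jmap_of_ge hΨ4
    have h1 : (Fhat s).x.1 = ((bS s.x.1)⁻¹ : ℝ) •
        ((bS s.x.1 : ℝ) • ((‖Psi s.x‖ * (4 * rm34 (Rsq s.x)) : ℝ) • s.x.1 ^ 2)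
          + (1 - bS s.x.1 : ℝ) • ((1 : ℝ) • s.x.1 ^ 2)) := by
      have hA : (‖Psi s.x‖ : ℝ) • Psi s.x
          = (‖Psi s.x‖ * (4 * rm34 (Rsq s.x)) : ℝ) • s.x.1 ^ 2 := by
        rw [mul_smul, ← hΨ]
      rw [Steps_Fhat_x_fst, hX, hJ, one_smul]
      show _ • (_ • ((‖Psi s.x‖ : ℝ) • Psi s.x) + _) = _
      rw [hA]
    have h2 : (Fhat s).x.2 = 0 := by
      rw [Steps_Fhat_x_snd, hX, hJ]
    have h3 : 0.16 ≤ ‖(Fhat s).x.1‖ := by
      have h5 := Steps_blend_norm (Steps_bS_pos h4) (Steps_bS_le_one s.x.1)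
        (k1 := ‖Psi s.x‖ * (4 * rm34 (Rsq s.x))) (k2 := 1)
        (mul_nonneg (norm_nonneg _) (by linarith)) zero_le_one (s.x.1 ^ 2)
      rw [← h1] at h5
      have h6 : ‖Psi s.x‖ * (4 * rm34 (Rsq s.x)) * ‖s.x.1 ^ 2‖ = ‖Psi s.x‖ * ‖Psi s.x‖ := by
        rw [mul_assoc, ← hΨn]
      rw [h6] at h5
      nlinarith
    obtain ⟨w, hw, _⟩ := exists_jmap_eq_axis h3
    exact ⟨w, by rw [hw]; exact Prod.ext rfl h2⟩

theorem Gb_of_neutral {t : ℝ} (h : Neutral t) : Gb t = 0 := by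
  unfold Gb
  rcases h with h | h
  · rw [Steps_gT_of_nonpos h, zero_mul]
  · rw [stp_of_ge (by norm_num) (by linarith), sub_self, mul_zero]

theorem thT_of_neutral {t : ℝ} (h : Neutral t) : thT t = 1 := by
  unfold thT
  rcases h with h | h
  · rw [stp_of_le (by norm_num) (by linarith), zero_mul, sub_zero]
  · rw [stp_of_ge (a := 0.28) (by norm_num) h.le, sub_self, mul_zero, sub_zero]

/-! ### carrier states -/

/-- (K1) small neutral carriers: `w ↦ D w`, phase `0` -/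
theorem step_KN_small {s : St} {w : ℂ} (ht : Neutral s.t) (hx : s.x = jmap w) (hw : ‖w‖ ≤ 0.14) :
    Fhat s = ⟨0, jmap (Dmap w), Yreg s.x⟩ := by
  have hR : Rsq s.x ≤ 0.14 ^ 4 := by
    rw [hx, Rsq_jmap]
    exact pow_le_pow_left₀ (norm_nonneg w) hw 4
  have hb : ‖s.x.1‖ ^ 2 ≤ 9 := (Steps_norm_fst_sq_le s.x).trans (hR.trans (by norm_num))
  have hX : Xnew s.t s.x s.y = jmap (Dmap w) := by
    rw [Steps_Xnew_of_thEff (Steps_thEff_of_thT (thT_of_neutral ht) s.x), hx,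
      Pmap_jmap (Gb_of_neutral ht)]
  have hT : red (That s.t s.x) = 0 := by
    unfold That
    rw [Steps_tauB_of_le hR]
    rcases ht with ht | ht
    · rw [Steps_gT_of_nonpos ht]
      simp [Steps_red_zero]
    · rw [Steps_gT_of_ge (by unfold aG; linarith)]
      simp [Steps_red_one]
  rw [Steps_Fhat_of_le hb, hX, hT]

/-- (K2) neutral carriers with `0.14 < |w| ≤ 0.56` -/
theorem step_KN_mid {s : St} {w : ℂ} (ht : Neutral s.t) (hx : s.x = jmap w) (hw : 0.14 < ‖w‖)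
    (hw' : ‖w‖ ≤ 0.56) : (Fhat s).x = jmap (Dmap w) ∧ KX (Fhat s) := by
  have hRw : Rsq s.x = ‖w‖ ^ 4 := by rw [hx, Rsq_jmap]
  have hR : Rsq s.x ≤ 0.56 ^ 4 := by
    rw [hRw]
    exact pow_le_pow_left₀ (norm_nonneg w) hw' 4
  have hb : ‖s.x.1‖ ^ 2 ≤ 9 := (Steps_norm_fst_sq_le s.x).trans (hR.trans (by norm_num))
  have hX : Xnew s.t s.x s.y = jmap (Dmap w) := by
    rw [Steps_Xnew_of_thEff (Steps_thEff_of_thT (thT_of_neutral ht) s.x), hx,
      Pmap_jmap (Gb_of_neutral ht)]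
  have hF := Steps_Fhat_of_le hb
  rw [hX] at hF
  have hFx : (Fhat s).x = jmap (Dmap w) := by rw [hF]
  refine ⟨hFx, Dmap w, hFx, ?_, ?_⟩
  · rw [norm_Dmap]
    linarith
  · by_cases h20 : ‖w‖ ≤ 0.20
    · right; right
      have hy : (Fhat s).y = Yreg s.x := by rw [hF]
      rw [hy, ← Dmap_Psi (x := s.x) (by rw [hRw]; exact pow_le_pow_left₀ (by norm_num) hw.le 4)
        (by rw [hRw]; exact pow_le_pow_left₀ (norm_nonneg w) h20 4), hx,
        Psi_jmap (by linarith)]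
    · right; left
      rw [norm_Dmap]
      rw [not_le] at h20
      linarith

/-- (K3) big carriers go to the sink region -/
theorem step_KX {s : St} (h : KX s) (h4 : ‖s.x.1‖ < 4) : 4 ≤ ‖(Fhat s).x.1‖ := by
  obtain ⟨w, hx, hw, halt⟩ := h
  have hw0 : (0 : ℝ) < ‖w‖ := by linarith
  have hxw : s.x = ((‖w‖ : ℝ) • w, 0) := by rw [hx, jmap_of_ge (by linarith)]
  have hRw : Rsq s.x = ‖w‖ ^ 4 := by rw [hx, Rsq_jmap]
  have hR : 0.56 ^ 4 ≤ Rsq s.x := by
    rw [hRw]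
    exact pow_le_pow_left₀ (by norm_num) hw 4
  have hτ : tauB (Rsq s.x) = 1 := Steps_tauB_of_ge (le_trans (by norm_num) hR)
  have hs : sBl s.t s.x = 1 := by
    unfold sBl
    rw [hτ]
    exact Steps_sig_of_ge (by norm_num)
  have hP : Pmap s.t s.x = jmap (Dmap w) := by
    rw [Steps_Pmap_of_one hs, hx, Psi_jmap (by linarith)]
  have hX : Xnew s.t s.x s.y = jmap (Dmap w) := by
    rcases halt with h | h | h
    · rw [Steps_Xnew_of_thEff (Steps_thEff_of_thT h _), hP]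
    · have h8 : thEff s.t s.x = 1 := by
        unfold thEff thE
        have h80 : (0.80 : ℝ) ^ 4 ≤ Rsq s.x := by
          rw [hRw]
          exact pow_le_pow_left₀ (by norm_num) (le_trans (by norm_num) h) 4
        rw [stp_of_ge (by norm_num) h80]
        ring
      rw [Steps_Xnew_of_thEff h8, hP]
    · have h9 : Pmap s.t s.x = jmap s.y := by rw [hP, h]
      rw [Steps_Xnew_of_eq h9, h]
  have hJ : jmap (Dmap w) = ((16 : ℝ) • w ^ 2, 0) := by
    rw [jmap_of_ge (by rw [norm_Dmap]; linarith), norm_Dmap]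
    congr 1
    unfold Dmap
    have hc : (‖w‖ : ℂ) ≠ 0 := by exact_mod_cast hw0.ne'
    rw [Complex.real_smul, Complex.real_smul]
    push_cast
    field_simp
    ring
  have h1 : (Fhat s).x.1 = ((bS s.x.1)⁻¹ : ℝ) •
      ((bS s.x.1 : ℝ) • ((16 : ℝ) • w ^ 2) + (1 - bS s.x.1 : ℝ) • ((‖w‖ ^ 2 : ℝ) • w ^ 2)) := by
    rw [Steps_Fhat_x_fst, hX, hJ]
    have h2 : s.x.1 ^ 2 = (‖w‖ ^ 2 : ℝ) • w ^ 2 := by
      rw [hxw, smul_pow]
    rw [h2]
  have h5 := Steps_blend_norm (Steps_bS_pos h4) (Steps_bS_le_one s.x.1) (k1 := 16) (k2 := ‖w‖ ^ 2)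
    (by norm_num) (by positivity) (w ^ 2)
  rw [← h1, norm_pow] at h5
  nlinarith

/-! ### phase-`0`-like states `t ∈ [-1/8, 0]` -/

/-- (Z1) linear epoch -/
theorem step_ZA_small {s : St} (h1 : -(1 / 8) ≤ s.t) (h2 : s.t ≤ 0) (hR : Rsq s.x ≤ 0.14 ^ 4) :
    Fhat s = ⟨0, Lmap s.x, Yreg s.x⟩ := by
  have ht : Neutral s.t := Or.inl h2
  have hb : ‖s.x.1‖ ^ 2 ≤ 9 := (Steps_norm_fst_sq_le s.x).trans (hR.trans (by norm_num))
  have hs : sBl s.t s.x = 0 := by
    unfold sBl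
    rw [Steps_tauB_of_le hR, Gb_of_neutral ht]
    exact Steps_sig_of_le (by norm_num)
  have hX : Xnew s.t s.x s.y = Lmap s.x := by
    rw [Steps_Xnew_of_thEff (Steps_thEff_of_thT (thT_of_neutral ht) s.x), Steps_Pmap_of_zero hs]
  have hT : red (That s.t s.x) = 0 := by
    unfold That
    rw [Steps_tauB_of_le hR, Steps_gT_of_nonpos h2]
    simp [Steps_red_zero]
  rw [Steps_Fhat_of_le hb, hX, hT]

/-- (Z2) beyond the window: landing -/
theorem step_ZA_big {s : St} (hP : Pr s) (h1 : -(1 / 8) ≤ s.t) (h2 : s.t ≤ 0)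
    (hR : 0.20 ^ 4 ≤ Rsq s.x) (h4 : ‖s.x.1‖ < 4) : KN (Fhat s) := by
  have ht : Neutral s.t := Or.inl h2
  have hτ : tauB (Rsq s.x) = 1 := Steps_tauB_of_ge hR
  have hs : sBl s.t s.x = 1 := by
    unfold sBl
    rw [hτ]
    exact Steps_sig_of_ge (by norm_num)
  have hX : Xnew s.t s.x s.y = jmap (Psi s.x) := by
    rw [Steps_Xnew_of_thEff (Steps_thEff_of_thT (thT_of_neutral ht) s.x), Steps_Pmap_of_one hs]
  refine ⟨?_, Steps_land hP h4 hX⟩
  show Neutral (red (That s.t s.x))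
  have hT : That s.t s.x = 1 := by
    unfold That
    rw [hτ, Steps_om1_of_ge h1]
    ring
  rw [hT, Steps_red_one]
  exact Or.inl le_rfl

/-- (Z3) in the window: after one or two steps a neutral carrier state -/
theorem step_ZA_window {s : St} (hP : Pr s) (h1 : -(1 / 8) ≤ s.t) (h2 : s.t ≤ 0)
    (hR1 : 0.14 ^ 4 < Rsq s.x) (hR2 : Rsq s.x < 0.20 ^ 4) :
    KN (Fhat s) ∨ (‖(Fhat s).x.1‖ < 4 ∧ KN (Fhat (Fhat s))) := by
  have ht : Neutral s.t := Or.inl h2
  obtain ⟨a, ha⟩ : ∃ a, a = tauB (Rsq s.x) := ⟨_, rfl⟩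
  have ha0 : 0 ≤ a := ha ▸ Steps_tauB_nonneg _
  have ha1 : a ≤ 1 := ha ▸ Steps_tauB_le_one _
  have hb : ‖s.x.1‖ ^ 2 ≤ 9 := (Steps_norm_fst_sq_le s.x).trans (hR2.le.trans (by norm_num))
  have hT : That s.t s.x = a := by
    unfold That
    rw [Steps_gT_of_nonpos h2, Steps_om1_of_ge h1, ← ha]
    ring
  have hs : sBl s.t s.x = sig a := by
    unfold sBl
    rw [Gb_of_neutral ht, ← ha]
    congr 1
    ring
  have hX : Xnew s.t s.x s.y = (1 - sig a) • Lmap s.x + sig a • jmap (Psi s.x) := by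
    rw [Steps_Xnew_of_thEff (Steps_thEff_of_thT (thT_of_neutral ht) s.x)]
    unfold Pmap
    rw [hs]
  have hF : Fhat s = ⟨red a, (1 - sig a) • Lmap s.x + sig a • jmap (Psi s.x), Yreg s.x⟩ := by
    rw [Steps_Fhat_of_le hb, hT, hX]
  by_cases h30 : 0.30 < a
  · left
    rw [hF]
    refine ⟨Steps_neutral_red h30 ha1, Psi s.x, ?_⟩
    show (1 - sig a) • Lmap s.x + sig a • jmap (Psi s.x) = _
    rw [Steps_sig_of_ge (by linarith)]
    simp
  · right
    rw [not_lt] at h30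
    have hR3 : Rsq s.x < 0.16 ^ 4 := by
      by_contra hc
      rw [not_lt] at hc
      have := Steps_tauB_ge hc
      rw [← ha] at this
      linarith
    have hred : red a = a := Steps_red_of_le (by linarith)
    rw [hred] at hF
    obtain ⟨x', hx'⟩ : ∃ x', x' = (1 - sig a) • Lmap s.x + sig a • jmap (Psi s.x) := ⟨_, rfl⟩
    rw [← hx'] at hF
    have hR' : Rsq x' ≤ 256 * Rsq s.x := by
      rw [hx']
      apply Rsq_convex_le (sig a) (stp_nonneg _ _ _) (stp_le_one _ _ _)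
      · rw [Rsq_Lmap]
      · rw [Rsq_jmap]
        exact norm_Psi_pow_le _
    have hR'2 : Rsq x' < 0.64 ^ 4 := by
      have h256 : (256 : ℝ) * 0.16 ^ 4 = 0.64 ^ 4 := by norm_num
      linarith
    have hb' : ‖x'.1‖ ^ 2 ≤ 9 := (Steps_norm_fst_sq_le x').trans (hR'2.le.trans (by norm_num))
    have h4' : ‖x'.1‖ < 4 := by nlinarith [norm_nonneg x'.1]
    rw [hF]
    refine ⟨h4', ?_⟩
    have hF2 : Fhat ⟨a, x', Yreg s.x⟩ = ⟨red (That a x'), Xnew a x' (Yreg s.x), Yreg x'⟩ :=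
      Steps_Fhat_of_le (s := ⟨a, x', Yreg s.x⟩) hb'
    have hL : a ≤ 0.22 → x' = Lmap s.x := by
      intro h22
      rw [hx', Steps_sig_of_le h22]
      simp
    have hτ' : a ≤ 0.22 → tauB (Rsq x') = 1 := by
      intro h22
      apply Steps_tauB_of_ge
      rw [hL h22, Rsq_Lmap]
      have h256 : (0.20 : ℝ) ^ 4 ≤ 256 * 0.14 ^ 4 := by norm_num
      linarith
    have hX2 : Xnew a x' (Yreg s.x) = jmap (Yreg s.x) := by
      by_cases h22 : a ≤ 0.22
      · apply Steps_Xnew_of_eq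
        have hs' : sBl a x' = 1 := by
          unfold sBl
          rw [hτ' h22]
          exact Steps_sig_of_ge (by norm_num)
        rw [Steps_Pmap_of_one hs', hL h22, Psi_Lmap hR1.le hR2.le]
      · rw [not_le] at h22
        by_cases h28 : a ≤ 0.28
        · have hth : thEff a x' = 0 := by
            unfold thEff thT thE
            rw [stp_of_ge (a := 0.20) (by norm_num) h22.le, stp_of_le (a := 0.28) (by norm_num) h28,
              stp_of_le (by norm_num) hR'2.le]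
            ring
          unfold Xnew
          rw [hth]
          simp
        · rw [not_le] at h28
          apply Steps_Xnew_of_eq
          have hG : Gb a = 0 := by
            unfold Gb
            rw [stp_of_ge (by norm_num) h28.le]
            ring
          have hxj : x' = jmap (Psi s.x) := by
            rw [hx', Steps_sig_of_ge (by linarith)]
            simp
          rw [hxj, Pmap_jmap hG, Dmap_Psi hR1.le hR2.le]
    have hT2 : That a x' = 1 := by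
      unfold That
      rw [Steps_om1_of_ge (by linarith)]
      by_cases hG : aG ≤ a
      · rw [Steps_gT_of_ge hG]
        ring
      · rw [not_le] at hG
        rw [hτ' (by unfold aG at hG; linarith)]
        ring
    rw [hF2, hX2, hT2, Steps_red_one]
    exact ⟨Or.inl le_rfl, _, rfl⟩

/-! ### the other zones -/

/-- (E1),(C1),(D1): these phases are reset to `0` -/
theorem step_reset {s : St} (h : s.t ≤ -(1 / 4) ∨ aG ≤ s.t) : (Fhat s).t = 0 := by
  show red (That s.t s.x) = 0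
  unfold That
  rcases h with h | h
  · rw [Steps_gT_of_nonpos (by linarith), Steps_om1_of_le h]
    simp [Steps_red_zero]
  · rw [Steps_gT_of_ge h, Steps_om1_of_ge (by have := Steps_aG_pos; linarith)]
    have : (1 - tauB (Rsq s.x)) * 1 + tauB (Rsq s.x) * 1 = 1 := by ring
    rw [this, Steps_red_one]

/-- (B1) -/
theorem step_ZB {s : St} (hP : Pr s) (h1 : -(1 / 4) < s.t) (h2 : s.t < -(1 / 8)) (h4 : ‖s.x.1‖ < 4) :
    (0 ≤ (Fhat s).t ∧ (Fhat s).t ≤ 0.30) ∨ KN (Fhat s) := by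
  have ht : Neutral s.t := Or.inl (by linarith)
  have hτ0 := Steps_tauB_nonneg (Rsq s.x)
  have hτ1 := Steps_tauB_le_one (Rsq s.x)
  have hh0 : 0 ≤ om1 s.t := Hc_nonneg _
  have hh1 : om1 s.t ≤ 1 := Hc_le_one _
  have hT : That s.t s.x = tauB (Rsq s.x) * om1 s.t := by
    unfold That
    rw [Steps_gT_of_nonpos (by linarith)]
    ring
  have hFt : (Fhat s).t = red (tauB (Rsq s.x) * om1 s.t) := by
    rw [← hT]
    rfl
  by_cases h30 : tauB (Rsq s.x) * om1 s.t ≤ 0.30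
  · left
    rw [hFt, Steps_red_of_le (by linarith)]
    exact ⟨mul_nonneg hτ0 hh0, h30⟩
  · right
    rw [not_le] at h30
    have hτ30 : 0.30 < tauB (Rsq s.x) := by nlinarith
    have hs : sBl s.t s.x = 1 := by
      unfold sBl
      rw [Gb_of_neutral ht]
      exact Steps_sig_of_ge (by linarith)
    have hX : Xnew s.t s.x s.y = jmap (Psi s.x) := by
      rw [Steps_Xnew_of_thEff (Steps_thEff_of_thT (thT_of_neutral ht) s.x), Steps_Pmap_of_one hs]
    refine ⟨?_, Steps_land hP h4 hX⟩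
    rw [hFt]
    exact Steps_neutral_red h30 (by nlinarith)

/-- (F1) chain states `t ∈ (0, aG)`: either the chain goes on linearly, or the phase lands in
`[aG, 0.30]`, or we get a neutral carrier -/
theorem step_ZF {s : St} (hP : Pr s) (h1 : 0 < s.t) (h2 : s.t < aG) (h4 : ‖s.x.1‖ < 4) :
    (0 < (Fhat s).t ∧ (Fhat s).t < aG ∧ (Fhat s).x = Lmap s.x ∧ Rsq s.x < 0.16 ^ 4 ∧
        (Rsq s.x ≤ 0.14 ^ 4 → (Fhat s).t = gT s.t)) ∨
      (aG ≤ (Fhat s).t ∧ (Fhat s).t ≤ 0.30) ∨ KN (Fhat s) := by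
  have hτ0 := Steps_tauB_nonneg (Rsq s.x)
  have hτ1 := Steps_tauB_le_one (Rsq s.x)
  have hg0 : 0 < gT s.t := Steps_gT_pos h1
  have hg1 : gT s.t ≤ 1 := Hc_le_one _
  have haG : aG = 23 / 128 := rfl
  obtain ⟨a, ha⟩ : ∃ a, a = (1 - tauB (Rsq s.x)) * gT s.t + tauB (Rsq s.x) := ⟨_, rfl⟩
  have hT : That s.t s.x = a := by
    unfold That
    rw [Steps_om1_of_ge (by linarith), ha]
    ring
  have hFt : (Fhat s).t = red a := by
    rw [← hT]
    rfl
  have hG : Gb s.t = gT s.t := by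
    unfold Gb
    rw [stp_of_le (by norm_num) (by linarith)]
    ring
  have hs : sBl s.t s.x = sig a := by
    unfold sBl
    rw [hG, ha]
    congr 1
    ring
  have hth : thT s.t = 1 := by
    unfold thT
    rw [stp_of_le (a := 0.20) (by norm_num) (by linarith)]
    ring
  have hXP : Xnew s.t s.x s.y = Pmap s.t s.x :=
    Steps_Xnew_of_thEff (Steps_thEff_of_thT hth s.x) s.y
  have ha_pos : 0 < a := by
    rw [ha]
    rcases eq_or_lt_of_le hτ1 with h | h
    · rw [h]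
      norm_num
    · have : 0 < (1 - tauB (Rsq s.x)) * gT s.t := mul_pos (by linarith) hg0
      linarith
  have ha1 : a ≤ 1 := by
    rw [ha]
    nlinarith
  have hτa : tauB (Rsq s.x) ≤ a := by
    rw [ha]
    nlinarith
  by_cases hc1 : a < aG
  · left
    have hR3 : Rsq s.x < 0.16 ^ 4 := by
      by_contra hc
      rw [not_lt] at hc
      have := Steps_tauB_ge hc
      linarith
    have hb : ‖s.x.1‖ ^ 2 ≤ 9 := (Steps_norm_fst_sq_le s.x).trans (hR3.le.trans (by norm_num))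
    have hred : red a = a := Steps_red_of_le (by linarith)
    have hs0 : sBl s.t s.x = 0 := by
      rw [hs]
      exact Steps_sig_of_le (by linarith)
    refine ⟨by rw [hFt, hred]; exact ha_pos, by rw [hFt, hred]; exact hc1, ?_, hR3, ?_⟩
    · rw [Steps_Fhat_of_le hb, hXP, Steps_Pmap_of_zero hs0]
    · intro hR
      rw [hFt, hred, ha, Steps_tauB_of_le hR]
      ring
  · rw [not_lt] at hc1
    by_cases hc2 : a ≤ 0.30
    · right; left
      rw [hFt, Steps_red_of_le (by linarith)]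
      exact ⟨hc1, hc2⟩
    · right; right
      rw [not_le] at hc2
      have hs1 : sBl s.t s.x = 1 := by
        rw [hs]
        exact Steps_sig_of_ge (by linarith)
      have hX : Xnew s.t s.x s.y = jmap (Psi s.x) := by
        rw [hXP, Steps_Pmap_of_one hs1]
      refine ⟨?_, Steps_land hP h4 hX⟩
      rw [hFt]
      exact Steps_neutral_red hc2 ha1

/-! ### hygiene (rule 6, on-demand lemmas): the equation lemmas of the definitions of this file are realised HERE once. -/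
theorem Hyg.Steps : True := by
  have := @Claimed.Agent.R082.Neutral.eq_1
  have := @Claimed.Agent.R082.KN.eq_1
  have := @Claimed.Agent.R082.KX.eq_1
  trivial

end Claimed.Agent.R082
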